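import Vale.Agent.P113.Defs

namespace Vale.Agent.P113

/-- `F` is a (uniformly) computable real-valued function on the coded domain `α`: a program
returns, for `x` and `n`, a rational within `1/(n+1)` of `F x`. -/
def CompReal {α : Type} [Primcodable α] (F : α → ℝ) : Prop :=
  ∃ a : α → ℕ → ℕ × ℕ × ℕ, Computable₂ a ∧ ∀ x n, |qv (a x n) - F x| ≤ 1 / ((n : ℝ) + 1)

/-- A smooth function of one real variable all of whose derivatives are uniformly computable at
rational points. -/
def Eff1 (h : ℝ → ℝ) : Prop :=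
  ContDiff ℝ (⊤ : ℕ∞) h ∧
    CompReal (fun p : ℕ × (ℕ × ℕ × ℕ) => iteratedDeriv p.1 h (qv p.2))

end Vale.Agent.P113
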