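import Vale.Agent.P113.CRLib2

namespace Vale.Agent.P113

open Nat in
lemma fact_prim : Primrec (fun n : ℕ => n !) := by
  have h : Primrec₂ (fun (n ih : ℕ) => (n + 1) * ih) :=
    pr_mul (pr_succ Primrec.fst) Primrec.snd
  refine (Primrec.nat_rec₁ 1 h).of_eq (fun n => ?_)
  induction n with
  | zero => rfl
  | succ n ih =>
    show (n + 1) * _ = _
    rw [ih, Nat.factorial_succ]

def qdivs (r : Q3) (M : ℕ) : Q3 := (r.1, r.2.1, r.2.2 * M + r.2.2 + M)

lemma qv_qdivs (r : Q3) (M : ℕ) : qv (qdivs r M) = qv r / ((M : ℝ) + 1) := by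
  simp only [qv, qdivs]
  push_cast
  rw [div_div]
  congr 1
  ring

def qred (r : Q3) : Q3 := qdivs r (r.1 + r.2.1)

lemma qred_prim : Primrec qred :=
  have ha : Primrec (fun r : Q3 => r.1) := pr_a Primrec.id
  have hb : Primrec (fun r : Q3 => r.2.1) := pr_b Primrec.id
  have hc : Primrec (fun r : Q3 => r.2.2) := pr_c Primrec.id
  pr_q3 ha hb (pr_add (pr_add (pr_mul hc (pr_add ha hb)) hc) (pr_add ha hb))

lemma qv_qred (r : Q3) : qv (qred r) = qv r / (bd r : ℝ) := by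
  simp only [qred, qv_qdivs, bd]
  push_cast
  rfl

lemma abs_qv_qred_le (r : Q3) : |qv (qred r)| ≤ 1 := by
  rw [qv_qred, abs_div, abs_of_pos (show (0 : ℝ) < (bd r : ℝ) by simp only [bd]; positivity)]
  rw [div_le_one (by simp only [bd]; positivity)]
  have := abs_qv_le r
  simp only [bd]
  push_cast
  linarith

open Nat in
def qterm (y : Q3) (m : ℕ) : Q3 := qmul (qpow y m) (1, 0, (m !) - 1)

open Nat in
lemma qv_qterm (y : Q3) (m : ℕ) : qv (qterm y m) = qv y ^ m / (m ! : ℝ) := by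
  simp only [qterm, qv_qmul, qv_qpow]
  have h1 : qv ((1, 0, (m !) - 1) : Q3) = 1 / (m ! : ℝ) := by
    simp only [qv]
    have e : (m !) - 1 + 1 = m ! := Nat.sub_add_cancel (Nat.factorial_pos m)
    have e2 : ((((m !) - 1 + 1 : ℕ)) : ℝ) = (m ! : ℝ) := by rw [e]
    push_cast at e2
    rw [e2]
    simp
  rw [h1]
  ring

lemma qterm_prim : Primrec₂ qterm :=
  pr_qmul (qpow_prim.comp Primrec.fst Primrec.snd)
    (pr_q3 (Primrec.const 1) (Primrec.const 0)
      (pr_sub (fact_prim.comp Primrec.snd) (Primrec.const 1)))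

open Nat in
lemma exp_taylor_err {x : ℝ} (hx : |x| ≤ 1) (k : ℕ) :
    |(∑ m ∈ Finset.range (2 * k + 4), x ^ m / (m ! : ℝ)) - Real.exp x| ≤ 1 / ((k : ℝ) + 1) := by
  have h := Real.exp_bound hx (n := 2 * k + 4) (by omega)
  rw [abs_sub_comm]
  refine le_trans h ?_
  have h1 : |x| ^ (2 * k + 4) ≤ 1 := pow_le_one₀ (abs_nonneg _) hx
  set n := 2 * k + 4 with hn
  have hn0 : (0 : ℝ) < (n : ℝ) := by rw [hn]; positivity
  have hfac : (n : ℝ) ≤ (n ! : ℝ) := by exact_mod_cast Nat.self_le_factorial n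
  have h2 : ((n.succ : ℕ) : ℝ) / ((n ! : ℝ) * (n : ℝ)) ≤ 1 / ((k : ℝ) + 1) := by
    rw [div_le_div_iff₀ (by positivity) (by positivity)]
    have e1 : ((n.succ : ℕ) : ℝ) = (n : ℝ) + 1 := by push_cast; ring
    have e2 : (n : ℝ) = 2 * (k : ℝ) + 4 := by rw [hn]; push_cast; ring
    rw [e1]
    have e3 : (n : ℝ) * (n : ℝ) ≤ (n ! : ℝ) * (n : ℝ) :=
      mul_le_mul_of_nonneg_right hfac hn0.le
    have hk : (0 : ℝ) ≤ (k : ℝ) := by positivity
    nlinarith
  calc |x| ^ n * (((n.succ : ℕ) : ℝ) / ((n ! : ℝ) * (n : ℝ)))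
      ≤ 1 * (((n.succ : ℕ) : ℝ) / ((n ! : ℝ) * (n : ℝ))) :=
        mul_le_mul_of_nonneg_right h1 (by positivity)
    _ ≤ 1 / ((k : ℝ) + 1) := by rw [one_mul]; exact h2

theorem compReal_exp_red : CompReal (fun r : Q3 => Real.exp (qv (qred r))) := by
  have h1 : CompReal (fun z : (Q3 × ℕ) × ℕ => qv (qterm (qred z.1.1) z.2)) :=
    CompReal.of_rat (qterm_prim.comp (qred_prim.comp (Primrec.fst.comp Primrec.fst))
      Primrec.snd).to_comp
  have hN : Computable (fun p : Q3 × ℕ => 2 * p.2 + 4) :=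
    (pr_add (pr_mul (Primrec.const 2) Primrec.snd) (Primrec.const 4)).to_comp
  have h2 := h1.sum_range hN
  refine CompReal.of_limit h2 (fun r k => ?_)
  simp only [qv_qterm]
  exact exp_taylor_err (abs_qv_qred_le r) k

theorem compReal_exp : CompReal (fun r : Q3 => Real.exp (qv r)) := by
  have h := compReal_exp_red.pow (N := bd) bd_prim.to_comp
  refine h.of_eq (fun r => ?_)
  rw [← Real.exp_nat_mul, qv_qred]
  congr 1
  have : (bd r : ℝ) ≠ 0 := by simp only [bd]; positivity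
  field_simp

theorem compReal_logistic : CompReal (fun r : Q3 => (1 + Real.exp (qv r))⁻¹) := by
  have h1 : CompReal (fun r : Q3 => ((1 : ℚ) : ℝ) + Real.exp (qv r)) :=
    (CompReal.const_rat 1).add compReal_exp
  have h2 := h1.inv_of_one_le (fun r => by
    have := Real.exp_pos (qv r)
    push_cast
    linarith)
  exact h2.of_eq (fun r => by push_cast; rfl)

lemma smoothTransition_eq_logistic {x : ℝ} (h0 : 0 < x) (h1 : x < 1) :
    Real.smoothTransition x = (1 + Real.exp (x⁻¹ - (1 - x)⁻¹))⁻¹ := by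
  have h2 : 0 < 1 - x := by linarith
  simp only [Real.smoothTransition, expNegInvGlue, not_le.mpr h0, not_le.mpr h2, if_false]
  have e : Real.exp (x⁻¹ - (1 - x)⁻¹) = Real.exp (-(1 - x)⁻¹) / Real.exp (-x⁻¹) := by
    rw [← Real.exp_sub]
    congr 1
    ring
  rw [e]
  have hA := Real.exp_pos (-x⁻¹)
  have hB := Real.exp_pos (-(1 - x)⁻¹)
  field_simp

def qarg (r : Q3) : Q3 := qadd (qinv r) (qneg (qinv (qadd (1, 0, 0) (qneg r))))

lemma qarg_prim : Primrec qarg :=
  pr_qadd (qinv_prim.comp Primrec.id)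
    (pr_qneg (qinv_prim.comp (pr_qadd (Primrec.const _) (pr_qneg Primrec.id))))

lemma qv_one : qv ((1, 0, 0) : Q3) = 1 := by simp [qv]

lemma qv_qarg {r : Q3} (h0 : 0 < qv r) (h1 : qv r < 1) :
    qv (qarg r) = (qv r)⁻¹ - (1 - qv r)⁻¹ := by
  have h2 : 0 < qv (qadd (1, 0, 0) (qneg r)) := by
    rw [qv_qadd, qv_qneg, qv_one]; linarith
  simp only [qarg]
  rw [qv_qadd, qv_qneg, qv_qinv ((qv_pos_iff _).mp h0), qv_qinv ((qv_pos_iff _).mp h2), qv_qadd,
    qv_qneg, qv_one]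
  ring

def qnonpos (r : Q3) : Bool := decide (r.1 ≤ r.2.1)
def qgeone (r : Q3) : Bool := decide (r.2.1 + r.2.2 + 1 ≤ r.1)

lemma qnonpos_prim : Primrec qnonpos :=
  Primrec.nat_le.decide.comp (pr_a Primrec.id) (pr_b Primrec.id)

lemma qgeone_prim : Primrec qgeone :=
  Primrec.nat_le.decide.comp (pr_succ (pr_add (pr_b Primrec.id) (pr_c Primrec.id)))
    (pr_a Primrec.id)

lemma qnonpos_iff (r : Q3) : qnonpos r = true ↔ qv r ≤ 0 := by
  simp only [qnonpos, decide_eq_true_eq]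
  rw [← not_lt, ← not_lt, qv_pos_iff]

lemma qgeone_iff (r : Q3) : qgeone r = true ↔ 1 ≤ qv r := by
  simp only [qgeone, decide_eq_true_eq, qv]
  rw [le_div_iff₀ (by positivity), one_mul]
  constructor
  · intro h
    have : ((r.2.1 + r.2.2 + 1 : ℕ) : ℝ) ≤ (r.1 : ℝ) := by exact_mod_cast h
    push_cast at this
    linarith
  · intro h
    have : ((r.2.1 + r.2.2 + 1 : ℕ) : ℝ) ≤ (r.1 : ℝ) := by push_cast; linarith
    exact_mod_cast this

theorem compReal_smoothTransition : CompReal (fun r : Q3 => Real.smoothTransition (qv r)) := by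
  have h1 : CompReal (fun r : Q3 => (1 + Real.exp (qv (qarg r)))⁻¹) :=
    compReal_logistic.comp qarg_prim.to_comp
  have h2 := CompReal.ite qgeone_prim.to_comp (CompReal.const_rat (α := Q3) 1) h1
  have h3 := CompReal.ite qnonpos_prim.to_comp (CompReal.const_rat (α := Q3) 0) h2
  refine h3.of_eq (fun r => ?_)
  by_cases c0 : qv r ≤ 0
  · rw [if_pos ((qnonpos_iff r).mpr c0), Real.smoothTransition.zero_of_nonpos c0]
    simp
  · rw [if_neg (fun h => c0 ((qnonpos_iff r).mp h))]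
    by_cases c1 : 1 ≤ qv r
    · rw [if_pos ((qgeone_iff r).mpr c1), Real.smoothTransition.one_of_one_le c1]
      simp
    · rw [if_neg (fun h => c1 ((qgeone_iff r).mp h))]
      rw [not_le] at c0 c1
      rw [qv_qarg c0 c1, smoothTransition_eq_logistic c0 c1]

/-- `exp (-1/x)` glued with `0`, at coded rationals. -/
theorem compReal_expNegInvGlue : CompReal (fun r : Q3 => expNegInvGlue (qv r)) := by
  have h1 : CompReal (fun r : Q3 => Real.exp (qv (qneg (qinv r)))) :=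
    compReal_exp.comp (pr_qneg (qinv_prim.comp Primrec.id)).to_comp
  have h3 := CompReal.ite qnonpos_prim.to_comp (CompReal.const_rat (α := Q3) 0) h1
  refine h3.of_eq (fun r => ?_)
  by_cases c0 : qv r ≤ 0
  · rw [if_pos ((qnonpos_iff r).mpr c0), expNegInvGlue.zero_of_nonpos c0]
    simp
  · rw [if_neg (fun h => c0 ((qnonpos_iff r).mp h))]
    rw [not_le] at c0
    rw [qv_qneg, qv_qinv ((qv_pos_iff _).mp c0)]
    simp only [expNegInvGlue, not_le.mpr c0, if_false]

end Vale.Agent.P113
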