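import Vale.Agent.P113.Defs

namespace Vale.Agent.P113

open Set
open scoped ContDiff

/-- first derivative of the smooth step: a bump supported in `[0,1]` with integral `1`. -/
noncomputable def S1 : ℝ → ℝ := deriv Real.smoothTransition

/-- second derivative of the smooth step. -/
noncomputable def S2 : ℝ → ℝ := deriv S1

/-- time reduced modulo the period `P`, with values in `[0, P)`. -/
noncomputable def tmod (P t : ℝ) : ℝ := t - P * (⌊t / P⌋ : ℝ)

/-- A shear: the velocity field `g(x) e_dir`, where `g` does not depend on `x_dir`;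
`lap` is the Laplacian of `g`. -/
structure Shear where
  dir : Fin 3
  g : E3 → ℝ
  lap : E3 → ℝ

structure Shear.Good (s : Shear) : Prop where
  smooth_g : ContDiff ℝ ∞ s.g
  smooth_lap : ContDiff ℝ ∞ s.lap
  per_g : Per s.g
  per_lap : Per s.lap
  indep : ∀ (x : E3) (r : ℝ), s.g (Function.update x s.dir r) = s.g x
  lap_eq : ∀ x, ∑ j, dx j (dx j s.g) x = s.lap x

/-- The velocity field: a kick `c` during `[0,1]`, then, with period `K + 2`, the shear `sh j`
during the time slot `[j + 1, j + 2]` of each period (`j < K`); slots `0` and `K + 1` are idle. -/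
noncomputable def vel (c : E3) (K : ℕ) (sh : ℕ → Shear) (t : ℝ) (x : E3) : E3 :=
  S1 t • c + ∑ j ∈ Finset.range K,
    (S1 (tmod ((K : ℝ) + 2) t - ((j : ℝ) + 1)) * (sh j).g x) • Pi.single (sh j).dir (1 : ℝ)

/-- The force `u_t - ν Δ u` for `u = vel`. -/
noncomputable def force (ν : ℝ) (c : E3) (K : ℕ) (sh : ℕ → Shear) (t : ℝ) (x : E3) : E3 :=
  S2 t • c + ∑ j ∈ Finset.range K,
    (S2 (tmod ((K : ℝ) + 2) t - ((j : ℝ) + 1)) * (sh j).g x
      - ν * (S1 (tmod ((K : ℝ) + 2) t - ((j : ℝ) + 1)) * (sh j).lap x)) •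
        Pi.single (sh j).dir (1 : ℝ)

/-- Total displacement of a particle sitting at `x` at the integer time `m`, during `[m, m+1]`. -/
noncomputable def disp (c : E3) (K : ℕ) (sh : ℕ → Shear) (m : ℕ) (x : E3) : E3 :=
  if m = 0 then c
  else if 1 ≤ m % (K + 2) ∧ m % (K + 2) ≤ K then
    Pi.single (sh (m % (K + 2) - 1)).dir ((sh (m % (K + 2) - 1)).g x)
  else 0

/-- Position of the particle at integer times. -/
noncomputable def posSeq (c : E3) (K : ℕ) (sh : ℕ → Shear) (a : E3) : ℕ → E3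
  | 0 => a
  | m + 1 => posSeq c K sh a m + disp c K sh m (posSeq c K sh a m)

/-- The trajectory. -/
noncomputable def traj (c : E3) (K : ℕ) (sh : ℕ → Shear) (a : E3) (t : ℝ) : E3 :=
  posSeq c K sh a ⌊t⌋₊ +
    Real.smoothTransition (t - (⌊t⌋₊ : ℝ)) • disp c K sh ⌊t⌋₊ (posSeq c K sh a ⌊t⌋₊)

end Vale.Agent.P113
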