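import Vale.Agent.P113.CR
import Vale.Agent.P113.Flow

namespace Vale.Agent.P113

/-- coded rationals. -/
abbrev Q3 : Type := ℕ × ℕ × ℕ

variable {α β : Type} [Primcodable α] [Primcodable β]

def qadd (r s : Q3) : Q3 :=
  (r.1 * (s.2.2 + 1) + s.1 * (r.2.2 + 1), r.2.1 * (s.2.2 + 1) + s.2.1 * (r.2.2 + 1),
    r.2.2 * s.2.2 + r.2.2 + s.2.2)

def qneg (r : Q3) : Q3 := (r.2.1, r.1, r.2.2)

def qmul (r s : Q3) : Q3 :=
  (r.1 * s.1 + r.2.1 * s.2.1, r.1 * s.2.1 + r.2.1 * s.1, r.2.2 * s.2.2 + r.2.2 + s.2.2)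

lemma qv_qadd (r s : Q3) : qv (qadd r s) = qv r + qv s := by
  simp only [qv, qadd]
  push_cast
  have h1 : ((r.2.2 : ℝ) + 1) ≠ 0 := by positivity
  have h2 : ((s.2.2 : ℝ) + 1) ≠ 0 := by positivity
  have h3 : ((r.2.2 : ℝ) * s.2.2 + r.2.2 + s.2.2 + 1) ≠ 0 := by positivity
  field_simp
  ring

lemma qv_qneg (r : Q3) : qv (qneg r) = - qv r := by
  simp only [qv, qneg]
  ring

lemma qv_qmul (r s : Q3) : qv (qmul r s) = qv r * qv s := by
  simp only [qv, qmul]
  push_cast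
  have h1 : ((r.2.2 : ℝ) + 1) ≠ 0 := by positivity
  have h2 : ((s.2.2 : ℝ) + 1) ≠ 0 := by positivity
  have h3 : ((r.2.2 : ℝ) * s.2.2 + r.2.2 + s.2.2 + 1) ≠ 0 := by positivity
  field_simp
  ring

lemma abs_qv_le (r : Q3) : |qv r| ≤ (r.1 : ℝ) + (r.2.1 : ℝ) := by
  simp only [qv]
  rw [abs_div, abs_of_pos (show (0 : ℝ) < (r.2.2 : ℝ) + 1 by positivity)]
  rw [div_le_iff₀ (by positivity)]
  have h1 : |(r.1 : ℝ) - (r.2.1 : ℝ)| ≤ (r.1 : ℝ) + (r.2.1 : ℝ) := by
    rw [abs_le]; constructor <;> linarith [Nat.cast_nonneg (α := ℝ) r.1, Nat.cast_nonneg (α := ℝ) r.2.1]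
  have h2 : (0 : ℝ) ≤ (r.1 : ℝ) + (r.2.1 : ℝ) := by positivity
  have h3 : (0 : ℝ) ≤ (r.2.2 : ℝ) := by positivity
  nlinarith

section prim
variable {γ : Type} [Primcodable γ]

lemma pr_a {f : γ → Q3} (hf : Primrec f) : Primrec (fun x => (f x).1) := Primrec.fst.comp hf
lemma pr_b {f : γ → Q3} (hf : Primrec f) : Primrec (fun x => (f x).2.1) :=
  Primrec.fst.comp (Primrec.snd.comp hf)
lemma pr_c {f : γ → Q3} (hf : Primrec f) : Primrec (fun x => (f x).2.2) :=
  Primrec.snd.comp (Primrec.snd.comp hf)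
lemma pr_add {f g : γ → ℕ} (hf : Primrec f) (hg : Primrec g) : Primrec (fun x => f x + g x) :=
  Primrec.nat_add.comp hf hg
lemma pr_mul {f g : γ → ℕ} (hf : Primrec f) (hg : Primrec g) : Primrec (fun x => f x * g x) :=
  Primrec.nat_mul.comp hf hg
lemma pr_sub {f g : γ → ℕ} (hf : Primrec f) (hg : Primrec g) : Primrec (fun x => f x - g x) :=
  Primrec.nat_sub.comp hf hg
lemma pr_div {f g : γ → ℕ} (hf : Primrec f) (hg : Primrec g) : Primrec (fun x => f x / g x) :=
  Primrec.nat_div.comp hf hg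
lemma pr_succ {f : γ → ℕ} (hf : Primrec f) : Primrec (fun x => f x + 1) := Primrec.succ.comp hf
lemma pr_q3 {f g h : γ → ℕ} (hf : Primrec f) (hg : Primrec g) (hh : Primrec h) :
    Primrec (fun x => ((f x, g x, h x) : Q3)) := Primrec.pair hf (Primrec.pair hg hh)

lemma pr_qadd {f g : γ → Q3} (hf : Primrec f) (hg : Primrec g) :
    Primrec (fun x => qadd (f x) (g x)) :=
  pr_q3 (pr_add (pr_mul (pr_a hf) (pr_succ (pr_c hg))) (pr_mul (pr_a hg) (pr_succ (pr_c hf))))
    (pr_add (pr_mul (pr_b hf) (pr_succ (pr_c hg))) (pr_mul (pr_b hg) (pr_succ (pr_c hf))))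
    (pr_add (pr_add (pr_mul (pr_c hf) (pr_c hg)) (pr_c hf)) (pr_c hg))

lemma pr_qneg {f : γ → Q3} (hf : Primrec f) : Primrec (fun x => qneg (f x)) :=
  pr_q3 (pr_b hf) (pr_a hf) (pr_c hf)

lemma pr_qmul {f g : γ → Q3} (hf : Primrec f) (hg : Primrec g) :
    Primrec (fun x => qmul (f x) (g x)) :=
  pr_q3 (pr_add (pr_mul (pr_a hf) (pr_a hg)) (pr_mul (pr_b hf) (pr_b hg)))
    (pr_add (pr_mul (pr_a hf) (pr_b hg)) (pr_mul (pr_b hf) (pr_a hg)))
    (pr_add (pr_add (pr_mul (pr_c hf) (pr_c hg)) (pr_c hf)) (pr_c hg))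

end prim

lemma qadd_prim : Primrec₂ qadd := pr_qadd Primrec.fst Primrec.snd
lemma qmul_prim : Primrec₂ qmul := pr_qmul Primrec.fst Primrec.snd
lemma qneg_prim : Primrec qneg := pr_qneg Primrec.id

theorem CompReal.of_rat {r : α → Q3} (hr : Computable r) : CompReal (fun x => qv (r x)) :=
  ⟨fun x _ => r x, hr.comp Computable.fst, fun x n => by
    simp only [sub_self, abs_zero]; positivity⟩

theorem CompReal.comp {F : β → ℝ} (hF : CompReal F) {g : α → β} (hg : Computable g) :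
    CompReal (fun x => F (g x)) := by
  obtain ⟨a, ha, h⟩ := hF
  exact ⟨fun x n => a (g x) n, ha.comp (hg.comp Computable.fst) Computable.snd,
    fun x n => h (g x) n⟩

theorem CompReal.of_eq {F G : α → ℝ} (hF : CompReal F) (h : ∀ x, F x = G x) : CompReal G := by
  have : F = G := funext h
  rwa [← this]

lemma inv_double (n : ℕ) : 1 / (((2 * n + 1 : ℕ) : ℝ) + 1) = (1 / ((n : ℝ) + 1)) / 2 := by
  push_cast
  have : ((n : ℝ) + 1) ≠ 0 := by positivity
  field_simp
  ring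

theorem CompReal.add {F G : α → ℝ} (hF : CompReal F) (hG : CompReal G) :
    CompReal (fun x => F x + G x) := by
  obtain ⟨a, ha, hae⟩ := hF
  obtain ⟨b, hb, hbe⟩ := hG
  refine ⟨fun x n => qadd (a x (2 * n + 1)) (b x (2 * n + 1)), ?_, ?_⟩
  · have hn : Computable (fun p : α × ℕ => 2 * p.2 + 1) :=
      Primrec.nat_double_succ.to_comp.comp Computable.snd
    exact qadd_prim.to_comp.comp (ha.comp Computable.fst hn) (hb.comp Computable.fst hn)
  · intro x n
    rw [qv_qadd]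
    have h1 := hae x (2 * n + 1)
    have h2 := hbe x (2 * n + 1)
    rw [inv_double] at h1 h2
    have h3 : qv (a x (2 * n + 1)) + qv (b x (2 * n + 1)) - (F x + G x)
        = (qv (a x (2 * n + 1)) - F x) + (qv (b x (2 * n + 1)) - G x) := by ring
    rw [h3]
    refine le_trans (abs_add_le _ _) ?_
    linarith

theorem CompReal.neg {F : α → ℝ} (hF : CompReal F) : CompReal (fun x => - F x) := by
  obtain ⟨a, ha, hae⟩ := hF
  refine ⟨fun x n => qneg (a x n), qneg_prim.to_comp.comp ha, ?_⟩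
  intro x n
  rw [qv_qneg]
  have h3 : - qv (a x n) - - F x = -(qv (a x n) - F x) := by ring
  rw [h3, abs_neg]
  exact hae x n

theorem CompReal.sub {F G : α → ℝ} (hF : CompReal F) (hG : CompReal G) :
    CompReal (fun x => F x - G x) :=
  (hF.add hG.neg).of_eq (fun x => by ring)



lemma err_le {m C n : ℕ} (h : C * (n + 1) ≤ m) :
    (C : ℝ) * (1 / ((m : ℝ) + 1)) ≤ 1 / ((n : ℝ) + 1) := by
  have h1 : ((C * (n + 1) : ℕ) : ℝ) ≤ (m : ℝ) := by exact_mod_cast h
  push_cast at h1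
  rw [mul_one_div, div_le_div_iff₀ (by positivity) (by positivity)]
  linarith

def bd (r : Q3) : ℕ := r.1 + r.2.1 + 1

lemma bd_prim : Primrec bd := pr_succ (pr_add (pr_a Primrec.id) (pr_b Primrec.id))

lemma abs_le_bd {r : Q3} {y : ℝ} (h : |qv r - y| ≤ 1 / (((0 : ℕ) : ℝ) + 1)) : |y| ≤ (bd r : ℝ) := by
  have h1 := abs_qv_le r
  have h2 : |y| ≤ |qv r| + |qv r - y| := by
    have : y = qv r - (qv r - y) := by ring
    calc |y| = |qv r - (qv r - y)| := by rw [← this]
      _ ≤ |qv r| + |qv r - y| := abs_sub _ _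
  simp only [bd]
  push_cast
  norm_num at h
  linarith

theorem CompReal.mul {F G : α → ℝ} (hF : CompReal F) (hG : CompReal G) :
    CompReal (fun x => F x * G x) := by
  obtain ⟨a, ha, hae⟩ := hF
  obtain ⟨b, hb, hbe⟩ := hG
  let K : α → ℕ := fun x => bd (a x 0) + bd (b x 0) + 1
  refine ⟨fun x n => qmul (a x (K x * (n + 1))) (b x (K x * (n + 1))), ?_, ?_⟩
  · have hK : Computable K :=
      Computable.succ.comp (Primrec.nat_add.to_comp.comp
        (bd_prim.to_comp.comp (ha.comp Computable.id (Computable.const 0)))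
        (bd_prim.to_comp.comp (hb.comp Computable.id (Computable.const 0))))
    have hn : Computable (fun p : α × ℕ => K p.1 * (p.2 + 1)) :=
      Primrec.nat_mul.to_comp.comp (hK.comp Computable.fst)
        (Computable.succ.comp Computable.snd)
    exact qmul_prim.to_comp.comp (ha.comp Computable.fst hn) (hb.comp Computable.fst hn)
  · intro x n
    rw [qv_qmul]
    set m := K x * (n + 1) with hm
    set ε : ℝ := 1 / ((m : ℝ) + 1) with hε
    have hε0 : 0 ≤ ε := by positivity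
    have hε1 : ε ≤ 1 := by
      rw [hε, div_le_one (by positivity)]
      have : (0 : ℝ) ≤ m := by positivity
      linarith
    have h1 := hae x m
    have h2 := hbe x m
    have hFb := abs_le_bd (hae x 0)
    have hGb := abs_le_bd (hbe x 0)
    have hf : |qv (a x m)| ≤ (bd (a x 0) : ℝ) + 1 := by
      have : qv (a x m) = (qv (a x m) - F x) + F x := by ring
      calc |qv (a x m)| = |(qv (a x m) - F x) + F x| := by rw [← this]
        _ ≤ |qv (a x m) - F x| + |F x| := abs_add_le _ _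
        _ ≤ _ := by linarith
    have h3 : qv (a x m) * qv (b x m) - F x * G x
        = qv (a x m) * (qv (b x m) - G x) + G x * (qv (a x m) - F x) := by ring
    have h4 : |qv (a x m) * qv (b x m) - F x * G x| ≤ (K x : ℝ) * ε := by
      rw [h3]
      refine le_trans (abs_add_le _ _) ?_
      rw [abs_mul, abs_mul]
      have e1 : |qv (a x m)| * |qv (b x m) - G x| ≤ ((bd (a x 0) : ℝ) + 1) * ε :=
        mul_le_mul hf h2 (abs_nonneg _) (by positivity)
      have e2 : |G x| * |qv (a x m) - F x| ≤ (bd (b x 0) : ℝ) * ε :=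
        mul_le_mul hGb h1 (abs_nonneg _) (by positivity)
      have e3 : (K x : ℝ) = (bd (a x 0) : ℝ) + (bd (b x 0) : ℝ) + 1 := by
        simp only [K]; push_cast; ring
      rw [e3]
      nlinarith
    exact le_trans h4 (err_le (le_of_eq hm.symm))

theorem CompReal.ite {p : α → Bool} (hp : Computable p) {F G : α → ℝ} (hF : CompReal F)
    (hG : CompReal G) : CompReal (fun x => if p x then F x else G x) := by
  obtain ⟨a, ha, hae⟩ := hF
  obtain ⟨b, hb, hbe⟩ := hG
  refine ⟨fun x n => bif p x then a x n else b x n,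
    Computable.cond (hp.comp Computable.fst) ha hb, ?_⟩
  intro x n
  cases h : p x
  · simpa [h] using hbe x n
  · simpa [h] using hae x n

lemma exists_q3 (q : ℚ) : ∃ r : Q3, qv r = (q : ℝ) := by
  refine ⟨(q.num.toNat, (-q.num).toNat, q.den - 1), ?_⟩
  simp only [qv]
  have h1 : ((q.num.toNat : ℝ) - ((-q.num).toNat : ℝ)) = (q.num : ℝ) := by
    have := Int.toNat_sub_toNat_neg q.num
    exact_mod_cast this
  have h2 : (((q.den - 1 : ℕ) : ℝ) + 1) = (q.den : ℝ) := by
    have : q.den - 1 + 1 = q.den := Nat.sub_add_cancel q.pos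
    exact_mod_cast this
  rw [h1, h2, Rat.cast_def]

theorem CompReal.const_rat (q : ℚ) : CompReal (fun _ : α => (q : ℝ)) := by
  obtain ⟨r, hr⟩ := exists_q3 q
  exact (CompReal.of_rat (Computable.const r)).of_eq (fun _ => hr)

theorem CompReal.const_real {ν : ℝ} (hν : IsComputableReal ν) : CompReal (fun _ : α => ν) := by
  obtain ⟨a, ha, h⟩ := hν
  exact ⟨fun _ n => a n, ha.comp Computable.snd, fun _ n => h n⟩

theorem CompReal.finset_sum {ι : Type} (s : Finset ι) (F : ι → α → ℝ)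
    (h : ∀ i ∈ s, CompReal (F i)) : CompReal (fun x => ∑ i ∈ s, F i x) := by
  classical
  induction s using Finset.induction_on with
  | empty =>
    exact (CompReal.const_rat (α := α) 0).of_eq (fun x => by simp)
  | insert i s hi ih =>
    have h1 := h i (Finset.mem_insert_self i s)
    have h2 := ih (fun j hj => h j (Finset.mem_insert_of_mem hj))
    exact (h1.add h2).of_eq (fun x => by rw [Finset.sum_insert hi])

theorem CompReal.natCast : CompReal (fun n : ℕ => (n : ℝ)) := by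
  have h : Computable (fun n : ℕ => ((n, 0, 0) : Q3)) :=
    (pr_q3 Primrec.id (Primrec.const 0) (Primrec.const 0)).to_comp
  exact (CompReal.of_rat h).of_eq (fun n => by simp [qv])

def qpow (r : Q3) (n : ℕ) : Q3 := Nat.rec (1, 0, 0) (fun _ ih => qmul ih r) n

lemma qv_qpow (r : Q3) (n : ℕ) : qv (qpow r n) = qv r ^ n := by
  induction n with
  | zero => simp [qpow, qv]
  | succ n ih =>
    have : qpow r (n + 1) = qmul (qpow r n) r := rfl
    rw [this, qv_qmul, ih, pow_succ]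

lemma qpow_prim : Primrec₂ qpow := by
  have h : Primrec₂ (fun (p : Q3 × ℕ) (y : ℕ × Q3) => qmul y.2 p.1) :=
    pr_qmul (Primrec.snd.comp Primrec.snd) (Primrec.fst.comp Primrec.fst)
  have h2 := Primrec.nat_rec' (f := fun p : Q3 × ℕ => p.2) (g := fun _ => ((1, 0, 0) : Q3))
    Primrec.snd (Primrec.const _) h
  show Primrec (fun p : Q3 × ℕ => qpow p.1 p.2)
  exact h2.of_eq (fun p => rfl)

theorem CompReal.rat_pow (q : ℚ) : CompReal (fun n : ℕ => (q : ℝ) ^ n) := by
  obtain ⟨r, hr⟩ := exists_q3 q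
  have h : Computable (fun n : ℕ => qpow r n) :=
    (qpow_prim.comp (Primrec.const r) Primrec.id).to_comp
  exact (CompReal.of_rat h).of_eq (fun n => by rw [qv_qpow, hr])

theorem exists_qaffine (a b : ℚ) :
    ∃ g : Q3 → Q3, Computable g ∧ ∀ r, qv (g r) = (a : ℝ) * qv r + (b : ℝ) := by
  obtain ⟨ra, hra⟩ := exists_q3 a
  obtain ⟨rb, hrb⟩ := exists_q3 b
  refine ⟨fun r => qadd (qmul ra r) rb,
    (pr_qadd (pr_qmul (Primrec.const ra) Primrec.id) (Primrec.const rb)).to_comp, ?_⟩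
  intro r
  rw [qv_qadd, qv_qmul, hra, hrb]

lemma floor_sub_div (A B C : ℕ) :
    ⌊((A : ℝ) - (B : ℝ)) / ((C : ℝ) + 1)⌋ = (((A + B * C) / (C + 1) : ℕ) : ℤ) - (B : ℤ) := by
  have h1 : ((A : ℝ) - (B : ℝ)) / ((C : ℝ) + 1)
      = ((A + B * C : ℕ) : ℝ) / ((C + 1 : ℕ) : ℝ) - (B : ℝ) := by
    push_cast
    have : ((C : ℝ) + 1) ≠ 0 := by positivity
    field_simp
    ring
  rw [h1, Int.floor_sub_natCast, ← Int.natCast_floor_eq_floor (by positivity),
    Nat.floor_div_eq_div]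

theorem exists_qround :
    ∃ g : Q3 → Q3, Computable g ∧ ∀ r, qv (g r) = qv r - (round (qv r) : ℝ) := by
  refine ⟨fun r => qadd r (2 * r.2.1,
    (2 * r.1 + r.2.2 + 1 + 2 * r.2.1 * (2 * r.2.2 + 1)) / (2 * r.2.2 + 1 + 1), 0), ?_, ?_⟩
  · have ha : Primrec (fun r : Q3 => r.1) := pr_a Primrec.id
    have hb : Primrec (fun r : Q3 => r.2.1) := pr_b Primrec.id
    have hc : Primrec (fun r : Q3 => r.2.2) := pr_c Primrec.id
    have h2 : ∀ {f : Q3 → ℕ}, Primrec f → Primrec (fun r => 2 * f r) :=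
      fun hf => pr_mul (Primrec.const 2) hf
    exact (pr_qadd Primrec.id (pr_q3 (h2 hb)
      (pr_div (pr_add (pr_succ (pr_add (h2 ha) hc)) (pr_mul (h2 hb) (pr_succ (h2 hc))))
        (pr_succ (pr_succ (h2 hc)))) (Primrec.const 0))).to_comp
  · intro r
    rw [qv_qadd, round_eq]
    have h1 : qv r + 1 / 2 = (((2 * r.1 + r.2.2 + 1 : ℕ) : ℝ) - ((2 * r.2.1 : ℕ) : ℝ))
        / (((2 * r.2.2 + 1 : ℕ) : ℝ) + 1) := by
      simp only [qv]
      push_cast
      have : ((r.2.2 : ℝ) + 1) ≠ 0 := by positivity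
      field_simp
      ring
    rw [h1, floor_sub_div]
    generalize (2 * r.1 + r.2.2 + 1 + 2 * r.2.1 * (2 * r.2.2 + 1)) / (2 * r.2.2 + 1 + 1) = kp
    simp only [qv]
    push_cast
    ring

theorem exists_qtmod (P : ℕ) (hP : 0 < P) :
    ∃ g : Q3 → Q3, Computable g ∧ ∀ r, qv (g r) = tmod (P : ℝ) (qv r) := by
  refine ⟨fun r => qadd r (qmul (P, 0, 0) (r.2.1,
    (r.1 + r.2.1 * ((r.2.2 + 1) * P - 1)) / ((r.2.2 + 1) * P - 1 + 1), 0)), ?_, ?_⟩
  · have ha : Primrec (fun r : Q3 => r.1) := pr_a Primrec.id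
    have hb : Primrec (fun r : Q3 => r.2.1) := pr_b Primrec.id
    have hc : Primrec (fun r : Q3 => r.2.2) := pr_c Primrec.id
    have hC : Primrec (fun r : Q3 => (r.2.2 + 1) * P - 1) :=
      pr_sub (pr_mul (pr_succ hc) (Primrec.const P)) (Primrec.const 1)
    exact (pr_qadd Primrec.id (pr_qmul (Primrec.const _) (pr_q3 hb
      (pr_div (pr_add ha (pr_mul hb hC)) (pr_succ hC)) (Primrec.const 0)))).to_comp
  · intro r
    rw [qv_qadd, qv_qmul]
    simp only [tmod]
    have hPr : (0 : ℝ) < P := by exact_mod_cast hP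
    have hC : ((((r.2.2 + 1) * P - 1 : ℕ) : ℝ) + 1) = ((r.2.2 : ℝ) + 1) * P := by
      have : (r.2.2 + 1) * P - 1 + 1 = (r.2.2 + 1) * P :=
        Nat.sub_add_cancel (Nat.mul_pos (Nat.succ_pos _) hP)
      have h2 : ((((r.2.2 + 1) * P - 1 + 1 : ℕ)) : ℝ) = (((r.2.2 + 1) * P : ℕ) : ℝ) := by
        rw [this]
      push_cast at h2 ⊢
      exact h2
    have h1 : qv r / (P : ℝ) = ((r.1 : ℝ) - (r.2.1 : ℝ))
        / ((((r.2.2 + 1) * P - 1 : ℕ) : ℝ) + 1) := by
      rw [hC]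
      simp only [qv]
      rw [div_div]
    rw [h1, floor_sub_div]
    generalize (r.1 + r.2.1 * ((r.2.2 + 1) * P - 1)) / ((r.2.2 + 1) * P - 1 + 1) = kp
    simp only [qv]
    push_cast
    ring

end Vale.Agent.P113
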