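import Vale.Agent.P113.CRLib

namespace Vale.Agent.P113

variable {α β : Type} [Primcodable α] [Primcodable β]

def qsum (f : ℕ → Q3) (k : ℕ) : Q3 := Nat.rec (0, 0, 0) (fun i acc => qadd acc (f i)) k

lemma qv_qsum (f : ℕ → Q3) (k : ℕ) : qv (qsum f k) = ∑ i ∈ Finset.range k, qv (f i) := by
  induction k with
  | zero => simp [qsum, qv]
  | succ k ih =>
    have : qsum f (k + 1) = qadd (qsum f k) (f k) := rfl
    rw [this, qv_qadd, ih, Finset.sum_range_succ]

theorem CompReal.sum_range {F : α × ℕ → ℝ} (hF : CompReal F) {N : α → ℕ} (hN : Computable N) :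
    CompReal (fun x => ∑ i ∈ Finset.range (N x), F (x, i)) := by
  obtain ⟨a, ha, hae⟩ := hF
  refine ⟨fun x n => qsum (fun i => a (x, i) (N x * (n + 1))) (N x), ?_, ?_⟩
  · have h : Computable₂ (fun (p : α × ℕ) (y : ℕ × Q3) =>
        qadd y.2 (a (p.1, y.1) (N p.1 * (p.2 + 1)))) :=
      qadd_prim.to_comp.comp (Computable.snd.comp Computable.snd)
        (ha.comp (Computable.pair (Computable.fst.comp Computable.fst)
          (Computable.fst.comp Computable.snd))
          (Primrec.nat_mul.to_comp.comp (hN.comp (Computable.fst.comp Computable.fst))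
            (Computable.succ.comp (Computable.snd.comp Computable.fst))))
    exact (Computable.nat_rec (hN.comp Computable.fst) (Computable.const ((0, 0, 0) : Q3)) h).of_eq
      (fun p => rfl)
  · intro x n
    rw [qv_qsum, ← Finset.sum_sub_distrib]
    refine le_trans (Finset.abs_sum_le_sum_abs _ _) ?_
    have h1 : ∑ i ∈ Finset.range (N x), |qv (a (x, i) (N x * (n + 1))) - F (x, i)|
        ≤ ∑ _i ∈ Finset.range (N x), 1 / (((N x * (n + 1) : ℕ) : ℝ) + 1) :=
      Finset.sum_le_sum (fun i _ => hae (x, i) _)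
    refine le_trans h1 ?_
    rw [Finset.sum_const, Finset.card_range, nsmul_eq_mul]
    exact err_le le_rfl

lemma list_sum_eq_range {γ : Type} (d : γ) (f : γ → ℝ) (l : List γ) :
    (l.map f).sum = ∑ i ∈ Finset.range l.length, f (l.getD i d) := by
  induction l with
  | nil => simp
  | cons b l ih =>
    rw [List.map_cons, List.sum_cons, List.length_cons, Finset.sum_range_succ', ih]
    simp [add_comm]

theorem CompReal.list_sum {F : α × β → ℝ} (hF : CompReal F) {L : α → List β}
    (hL : Computable L) : CompReal (fun x => ((L x).map (fun b => F (x, b))).sum) := by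
  rcases isEmpty_or_nonempty β with hβ | ⟨⟨d⟩⟩
  · refine (CompReal.const_rat (α := α) 0).of_eq (fun x => ?_)
    have : L x = [] := by
      rcases L x with _ | ⟨b, _⟩
      · rfl
      · exact (hβ.false b).elim
    simp [this]
  have : Inhabited β := ⟨d⟩
  have h1 : Computable (fun p : α × ℕ => (p.1, (L p.1).getD p.2 default)) :=
    Computable.pair Computable.fst
      ((Primrec.list_getD (default : β)).to_comp.comp (hL.comp Computable.fst) Computable.snd)
  have h2 := (hF.comp h1).sum_range (Computable.list_length.comp hL)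
  exact h2.of_eq (fun x => (list_sum_eq_range default (fun b => F (x, b)) (L x)).symm)

theorem CompReal.of_limit {F : α × ℕ → ℝ} (hF : CompReal F) {G : α → ℝ}
    (h : ∀ x k, |F (x, k) - G x| ≤ 1 / ((k : ℝ) + 1)) : CompReal G := by
  obtain ⟨a, ha, hae⟩ := hF
  refine ⟨fun x n => a (x, 2 * n + 1) (2 * n + 1), ?_, ?_⟩
  · have hn : Computable (fun p : α × ℕ => 2 * p.2 + 1) :=
      Primrec.nat_double_succ.to_comp.comp Computable.snd
    exact ha.comp (Computable.pair Computable.fst hn) hn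
  · intro x n
    have h1 := hae (x, 2 * n + 1) (2 * n + 1)
    have h2 := h x (2 * n + 1)
    rw [inv_double] at h1 h2
    have h3 : qv (a (x, 2 * n + 1) (2 * n + 1)) - G x
        = (qv (a (x, 2 * n + 1) (2 * n + 1)) - F (x, 2 * n + 1)) + (F (x, 2 * n + 1) - G x) := by
      ring
    rw [h3]
    refine le_trans (abs_add_le _ _) ?_
    linarith

lemma abs_pow_sub_pow_le' {f F K : ℝ} (hf : |f| ≤ K) (hF : |F| ≤ K) (hK : 1 ≤ K) (i : ℕ) :
    |f ^ i - F ^ i| ≤ (i : ℝ) * K ^ i * |f - F| := by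
  induction i with
  | zero => simp
  | succ i ih =>
    have h1 : f ^ (i + 1) - F ^ (i + 1) = f * (f ^ i - F ^ i) + F ^ i * (f - F) := by ring
    rw [h1]
    refine le_trans (abs_add_le _ _) ?_
    rw [abs_mul, abs_mul, abs_pow]
    have hK0 : 0 ≤ K := by linarith
    have e1 : |f| * |f ^ i - F ^ i| ≤ K * ((i : ℝ) * K ^ i * |f - F|) :=
      mul_le_mul hf ih (abs_nonneg _) hK0
    have e2 : |F| ^ i * |f - F| ≤ K ^ i * |f - F| :=
      mul_le_mul_of_nonneg_right (pow_le_pow_left₀ (abs_nonneg _) hF i) (abs_nonneg _)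
    have e3 : K ^ i * |f - F| ≤ K ^ (i + 1) * |f - F| := by
      apply mul_le_mul_of_nonneg_right _ (abs_nonneg _)
      rw [pow_succ]
      nlinarith [pow_nonneg hK0 i]
    push_cast
    have e4 : K * ((i : ℝ) * K ^ i * |f - F|) = (i : ℝ) * K ^ (i + 1) * |f - F| := by ring
    rw [e4] at e1
    nlinarith

lemma nat_pow_prim : Primrec₂ (fun a b : ℕ => a ^ b) := Primrec₂.unpaired'.1 Nat.Primrec.pow

theorem CompReal.pow' {F : α → ℝ} (hF : CompReal F) :
    CompReal (fun p : α × ℕ => F p.1 ^ p.2) := by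
  obtain ⟨a, ha, hae⟩ := hF
  let K : α → ℕ := fun x => bd (a x 0) + 1
  let m : (α × ℕ) → ℕ → ℕ := fun p n => (p.2 * K p.1 ^ p.2) * (n + 1)
  refine ⟨fun p n => qpow (a p.1 (m p n)) p.2, ?_, ?_⟩
  · have hK : Computable K :=
      Computable.succ.comp (bd_prim.to_comp.comp (ha.comp Computable.id (Computable.const 0)))
    have hm : Computable (fun z : (α × ℕ) × ℕ => m z.1 z.2) :=
      Primrec.nat_mul.to_comp.comp
        (Primrec.nat_mul.to_comp.comp (Computable.snd.comp Computable.fst)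
          (nat_pow_prim.to_comp.comp (hK.comp (Computable.fst.comp Computable.fst))
            (Computable.snd.comp Computable.fst)))
        (Computable.succ.comp Computable.snd)
    exact qpow_prim.to_comp.comp (ha.comp (Computable.fst.comp Computable.fst) hm)
      (Computable.snd.comp Computable.fst)
  · rintro ⟨x, i⟩ n
    simp only
    rw [qv_qpow]
    set M := m (x, i) n with hM
    have h1 := hae x M
    have hFb := abs_le_bd (hae x 0)
    have hε1 : 1 / ((M : ℝ) + 1) ≤ 1 := by
      rw [div_le_one (by positivity)]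
      have : (0 : ℝ) ≤ M := by positivity
      linarith
    have hKr : (K x : ℝ) = (bd (a x 0) : ℝ) + 1 := by simp only [K]; push_cast; ring
    have hf : |qv (a x M)| ≤ (K x : ℝ) := by
      have : qv (a x M) = (qv (a x M) - F x) + F x := by ring
      calc |qv (a x M)| = |(qv (a x M) - F x) + F x| := by rw [← this]
        _ ≤ |qv (a x M) - F x| + |F x| := abs_add_le _ _
        _ ≤ _ := by rw [hKr]; linarith
    have hF' : |F x| ≤ (K x : ℝ) := by rw [hKr]; linarith
    have hK1 : (1 : ℝ) ≤ (K x : ℝ) := by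
      rw [hKr]
      have : (0 : ℝ) ≤ (bd (a x 0) : ℝ) := by positivity
      linarith
    have h2 := abs_pow_sub_pow_le' hf hF' hK1 i
    refine le_trans h2 ?_
    have h3 : (i : ℝ) * (K x : ℝ) ^ i * |qv (a x M) - F x|
        ≤ ((i * K x ^ i : ℕ) : ℝ) * (1 / ((M : ℝ) + 1)) := by
      push_cast
      exact mul_le_mul_of_nonneg_left h1 (by positivity)
    exact le_trans h3 (err_le (le_of_eq hM.symm))

theorem CompReal.pow {F : α → ℝ} (hF : CompReal F) {N : α → ℕ} (hN : Computable N) :
    CompReal (fun x => F x ^ N x) :=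
  hF.pow'.comp (Computable.pair Computable.id hN)

def qinv (r : Q3) : Q3 := (r.2.2 + 1, 0, r.1 - r.2.1 - 1)

lemma qv_qinv {r : Q3} (h : r.2.1 < r.1) : qv (qinv r) = (qv r)⁻¹ := by
  simp only [qv, qinv]
  have h1 : (((r.1 - r.2.1 - 1 : ℕ) : ℝ) + 1) = (r.1 : ℝ) - (r.2.1 : ℝ) := by
    have e : r.1 - r.2.1 - 1 + 1 = r.1 - r.2.1 := Nat.sub_add_cancel (by omega)
    have e2 : (((r.1 - r.2.1 - 1 + 1 : ℕ)) : ℝ) = ((r.1 - r.2.1 : ℕ) : ℝ) := by rw [e]
    rw [Nat.cast_sub h.le] at e2
    push_cast at e2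
    exact e2
  rw [h1, inv_div]
  push_cast
  ring

lemma qinv_prim : Primrec qinv :=
  pr_q3 (pr_succ (pr_c Primrec.id)) (Primrec.const 0)
    (pr_sub (pr_sub (pr_a Primrec.id) (pr_b Primrec.id)) (Primrec.const 1))

lemma qv_pos_iff (r : Q3) : 0 < qv r ↔ r.2.1 < r.1 := by
  simp only [qv]
  rw [div_pos_iff_of_pos_right (by positivity), sub_pos]
  exact Nat.cast_lt

theorem CompReal.inv_of_one_le {F : α → ℝ} (hF : CompReal F) (h : ∀ x, 1 ≤ F x) :
    CompReal (fun x => (F x)⁻¹) := by
  obtain ⟨a, ha, hae⟩ := hF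
  refine ⟨fun x n => qinv (a x (2 * n + 1)), ?_, ?_⟩
  · have hn : Computable (fun p : α × ℕ => 2 * p.2 + 1) :=
      Primrec.nat_double_succ.to_comp.comp Computable.snd
    exact qinv_prim.to_comp.comp (ha.comp Computable.fst hn)
  · intro x n
    have h1 := hae x (2 * n + 1)
    rw [inv_double] at h1
    set f := qv (a x (2 * n + 1)) with hf
    set ε : ℝ := 1 / ((n : ℝ) + 1) with hε
    have hε1 : ε ≤ 1 := by
      rw [hε, div_le_one (by positivity)]
      have : (0 : ℝ) ≤ n := by positivity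
      linarith
    have hε0 : 0 ≤ ε := by positivity
    have hFx := h x
    have hfl : 1 / 2 ≤ f := by
      have := (abs_le.mp h1).1
      linarith
    have hfpos : 0 < f := by linarith
    rw [qv_qinv ((qv_pos_iff _).mp hfpos), ← hf]
    have h2 : f⁻¹ - (F x)⁻¹ = (F x - f) / (f * F x) := by
      field_simp
    rw [h2, abs_div, abs_sub_comm, abs_of_pos (show 0 < f * F x by positivity)]
    rw [div_le_iff₀ (by positivity)]
    have h3 : 1 / 2 ≤ f * F x := by nlinarith
    nlinarith

theorem CompReal.inv_of_le {F : α → ℝ} (hF : CompReal F) (δ : ℚ) (hδ : 0 < δ)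
    (h : ∀ x, (δ : ℝ) ≤ F x) : CompReal (fun x => (F x)⁻¹) := by
  have hδr : (0 : ℝ) < (δ : ℝ) := by exact_mod_cast hδ
  have h1 : CompReal (fun x => ((δ⁻¹ : ℚ) : ℝ) * F x) := (CompReal.const_rat δ⁻¹).mul hF
  have h2 : ∀ x, 1 ≤ ((δ⁻¹ : ℚ) : ℝ) * F x := by
    intro x
    push_cast
    rw [inv_mul_eq_div, le_div_iff₀ hδr]
    linarith [h x]
  have h3 := (CompReal.const_rat (α := α) δ⁻¹).mul (h1.inv_of_one_le h2)
  refine h3.of_eq (fun x => ?_)
  have hFx : 0 < F x := lt_of_lt_of_le hδr (h x)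
  push_cast
  field_simp

end Vale.Agent.P113
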