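import Vale.Agent.P113.CR

namespace Vale.Agent.P113

/-- the monomial with coefficient `cp - cn` and exponents `i j l` of `s u v`. -/
abbrev Mono : Type := (ℕ × ℕ) × ℕ × ℕ × ℕ

noncomputable def Mono.eval (m : Mono) (s u v : ℝ) : ℝ :=
  ((m.1.1 : ℝ) - (m.1.2 : ℝ)) * s ^ m.2.1 * u ^ m.2.2.1 * v ^ m.2.2.2

/-- the derivation with `s' = s (1 - s) (u ^ 2 + v ^ 2)`, `u' = - u ^ 2`, `v' = v ^ 2`. -/
def dMono (m : Mono) : List Mono :=
  [((m.1.1 * m.2.1, m.1.2 * m.2.1), m.2.1, m.2.2.1 + 2, m.2.2.2),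
   ((m.1.1 * m.2.1, m.1.2 * m.2.1), m.2.1, m.2.2.1, m.2.2.2 + 2),
   ((m.1.2 * m.2.1, m.1.1 * m.2.1), m.2.1 + 1, m.2.2.1 + 2, m.2.2.2),
   ((m.1.2 * m.2.1, m.1.1 * m.2.1), m.2.1 + 1, m.2.2.1, m.2.2.2 + 2),
   ((m.1.2 * m.2.2.1, m.1.1 * m.2.2.1), m.2.1, m.2.2.1 + 1, m.2.2.2),
   ((m.1.1 * m.2.2.2, m.1.2 * m.2.2.2), m.2.1, m.2.2.1, m.2.2.2 + 1)]

/-- the list of monomials representing the `k`-th derivative of the smooth step on `0 < x < 1`,
in terms of `s = S x`, `u = 1 / x`, `v = 1 / (1 - x)`. -/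
def stepPoly : ℕ → List Mono
  | 0 => [((1, 0), 1, 0, 0)]
  | k + 1 => (stepPoly k).flatMap dMono

theorem dMono_primrec : Primrec dMono := by
  have cp : Primrec (fun m : Mono => m.1.1) := Primrec.fst.comp Primrec.fst
  have cn : Primrec (fun m : Mono => m.1.2) := Primrec.snd.comp Primrec.fst
  have i : Primrec (fun m : Mono => m.2.1) := Primrec.fst.comp Primrec.snd
  have j : Primrec (fun m : Mono => m.2.2.1) :=
    Primrec.fst.comp (Primrec.snd.comp Primrec.snd)
  have l : Primrec (fun m : Mono => m.2.2.2) :=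
    Primrec.snd.comp (Primrec.snd.comp Primrec.snd)
  have add : ∀ {f : Mono → ℕ} (c : ℕ), Primrec f → Primrec (fun m => f m + c) :=
    fun c hf => Primrec.nat_add.comp hf (Primrec.const c)
  have mul : ∀ {f g : Mono → ℕ}, Primrec f → Primrec g → Primrec (fun m => f m * g m) :=
    fun hf hg => Primrec.nat_mul.comp hf hg
  have mk : ∀ {a b c d e : Mono → ℕ}, Primrec a → Primrec b → Primrec c → Primrec d →
      Primrec e → Primrec (fun m => (((a m, b m), c m, d m, e m) : Mono)) :=
    fun ha hb hc hd he => (ha.pair hb).pair (hc.pair (hd.pair he))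
  exact Primrec.list_cons.comp (mk (mul cp i) (mul cn i) i (add 2 j) l)
    (Primrec.list_cons.comp (mk (mul cp i) (mul cn i) i j (add 2 l))
    (Primrec.list_cons.comp (mk (mul cn i) (mul cp i) (add 1 i) (add 2 j) l)
    (Primrec.list_cons.comp (mk (mul cn i) (mul cp i) (add 1 i) j (add 2 l))
    (Primrec.list_cons.comp (mk (mul cn j) (mul cp j) i (add 1 j) l)
    (Primrec.list_cons.comp (mk (mul cp l) (mul cn l) i j (add 1 l))
    (Primrec.const []))))))

theorem stepPoly_primrec : Primrec stepPoly := by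
  have h : Primrec (Nat.rec (motive := fun _ => List Mono) [((1, 0), 1, 0, 0)]
      (fun _ L => L.flatMap dMono)) :=
    Primrec.nat_rec₁ _ (Primrec.list_flatMap Primrec.snd (dMono_primrec.comp Primrec.snd).to₂)
  refine h.of_eq (fun k => ?_)
  induction k with
  | zero => rfl
  | succ k ih => simp only [stepPoly]; rw [← ih]

theorem hasDerivAt_step {x : ℝ} (h0 : 0 < x) (h1 : x < 1) :
    HasDerivAt Real.smoothTransition
      (Real.smoothTransition x * (1 - Real.smoothTransition x)
        * ((1 / x) ^ 2 + (1 / (1 - x)) ^ 2)) x := by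
  have h1' : 0 < 1 - x := by linarith
  have hE : Real.smoothTransition =ᶠ[nhds x]
      fun y => Real.exp (-y⁻¹) / (Real.exp (-y⁻¹) + Real.exp (-(1 - y)⁻¹)) := by
    filter_upwards [Ioo_mem_nhds h0 h1] with y hy
    have hy1 : ¬ y ≤ 0 := not_le.2 hy.1
    have hy2 : ¬ 1 - y ≤ 0 := by
      have := hy.2
      intro h
      linarith
    simp [Real.smoothTransition, expNegInvGlue, hy1, hy2]
  have hx : Real.smoothTransition x
      = Real.exp (-x⁻¹) / (Real.exp (-x⁻¹) + Real.exp (-(1 - x)⁻¹)) := hE.eq_of_nhds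
  have d1 : HasDerivAt (fun y : ℝ => Real.exp (-y⁻¹)) (Real.exp (-x⁻¹) * (-(-(x ^ 2)⁻¹))) x :=
    ((hasDerivAt_inv h0.ne').neg).exp
  have d2 : HasDerivAt (fun y : ℝ => Real.exp (-(1 - y)⁻¹))
      (Real.exp (-(1 - x)⁻¹) * (-(-((1 - x) ^ 2)⁻¹ * (-1)))) x := by
    have e : HasDerivAt (fun y : ℝ => 1 - y) (-1) x := by
      simpa using (hasDerivAt_id x).const_sub 1
    have := (hasDerivAt_inv h1'.ne').comp x e
    exact (this.neg).exp
  have hden : Real.exp (-x⁻¹) + Real.exp (-(1 - x)⁻¹) ≠ 0 :=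
    (add_pos (Real.exp_pos _) (Real.exp_pos _)).ne'
  have d3 := d1.div (d1.add d2) hden
  refine (d3.congr_of_eventuallyEq hE).congr_deriv ?_
  rw [hx]
  simp only [Pi.add_apply]
  set a := Real.exp (-x⁻¹)
  set b := Real.exp (-(1 - x)⁻¹)
  field_simp
  ring

theorem nat_mul_pow_pred (n : ℕ) (a : ℝ) : (n : ℝ) * a ^ (n - 1) * a = n * a ^ n := by
  cases n with
  | zero => simp
  | succ n => simp [pow_succ, mul_assoc]

theorem hasDerivAt_mono {x : ℝ} (h0 : 0 < x) (h1 : x < 1) (m : Mono) :
    HasDerivAt (fun y => m.eval (Real.smoothTransition y) (1 / y) (1 / (1 - y)))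
      (((dMono m).map fun m' =>
        m'.eval (Real.smoothTransition x) (1 / x) (1 / (1 - x))).sum) x := by
  have h1' : 0 < 1 - x := by linarith
  obtain ⟨⟨cp, cn⟩, i, j, l⟩ := m
  have hs := hasDerivAt_step h0 h1
  have hu : HasDerivAt (fun y : ℝ => 1 / y) (-(1 / x) ^ 2) x := by
    have := hasDerivAt_inv h0.ne'
    simp only [one_div]
    refine this.congr_deriv ?_
    rw [inv_pow]
  have hv : HasDerivAt (fun y : ℝ => 1 / (1 - y)) ((1 / (1 - x)) ^ 2) x := by
    have e : HasDerivAt (fun y : ℝ => 1 - y) (-1) x := by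
      simpa using (hasDerivAt_id x).const_sub 1
    have := (hasDerivAt_inv h1'.ne').comp x e
    simp only [one_div]
    refine HasDerivAt.congr_deriv (f := fun y : ℝ => (1 - y)⁻¹) this ?_
    rw [inv_pow]
    ring
  have hd := (((hs.pow i).const_mul ((cp : ℝ) - (cn : ℝ))).mul (hu.pow j)).mul (hv.pow l)
  refine hd.congr_deriv ?_
  simp only [Pi.mul_apply, Pi.pow_apply]
  set s := Real.smoothTransition x
  set u := 1 / x
  set v := 1 / (1 - x)
  have hA := nat_mul_pow_pred i s
  have hB := nat_mul_pow_pred j u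
  have hC := nat_mul_pow_pred l v
  simp only [dMono, Mono.eval, List.map_cons, List.map_nil, List.sum_cons, List.sum_nil]
  push_cast
  linear_combination (((cp : ℝ) - cn) * (1 - s) * (u ^ 2 + v ^ 2) * u ^ j * v ^ l) * hA
    - (((cp : ℝ) - cn) * s ^ i * u * v ^ l) * hB + (((cp : ℝ) - cn) * s ^ i * u ^ j * v) * hC

theorem hasDerivAt_monoList {x : ℝ} (h0 : 0 < x) (h1 : x < 1) (L : List Mono) :
    HasDerivAt (fun y => (L.map fun m =>
        m.eval (Real.smoothTransition y) (1 / y) (1 / (1 - y))).sum)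
      (((L.flatMap dMono).map fun m' =>
        m'.eval (Real.smoothTransition x) (1 / x) (1 / (1 - x))).sum) x := by
  induction L with
  | nil => simpa using hasDerivAt_const x (0 : ℝ)
  | cons m L ih =>
    simp only [List.map_cons, List.sum_cons, List.flatMap_cons, List.map_append, List.sum_append]
    exact (hasDerivAt_mono h0 h1 m).add ih

theorem iteratedDeriv_step_of_mem {x : ℝ} (h0 : 0 < x) (h1 : x < 1) (k : ℕ) :
    iteratedDeriv k Real.smoothTransition x =
      ((stepPoly k).map fun m => m.eval (Real.smoothTransition x) (1 / x) (1 / (1 - x))).sum := by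
  induction k generalizing x with
  | zero => simp [stepPoly, Mono.eval]
  | succ k ih =>
    rw [iteratedDeriv_succ]
    have hE : iteratedDeriv k Real.smoothTransition =ᶠ[nhds x] fun y =>
        ((stepPoly k).map fun m =>
          m.eval (Real.smoothTransition y) (1 / y) (1 / (1 - y))).sum := by
      filter_upwards [Ioo_mem_nhds h0 h1] with y hy
      exact ih hy.1 hy.2
    rw [hE.deriv_eq, (hasDerivAt_monoList h0 h1 (stepPoly k)).deriv]
    rfl

theorem continuous_iteratedDeriv_step (k : ℕ) :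
    Continuous (iteratedDeriv k Real.smoothTransition) :=
  (Real.smoothTransition.contDiff (n := k)).continuous_iteratedDeriv' k

theorem iteratedDeriv_step_of_nonpos {x : ℝ} (h : x ≤ 0) {k : ℕ} (hk : 0 < k) :
    iteratedDeriv k Real.smoothTransition x = 0 := by
  have _hk := hk
  have hcl : IsClosed {y : ℝ | iteratedDeriv k Real.smoothTransition y = 0} :=
    isClosed_eq (continuous_iteratedDeriv_step k) continuous_const
  have hsub : Set.Iio (0 : ℝ) ⊆ {y : ℝ | iteratedDeriv k Real.smoothTransition y = 0} := by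
    intro y hy
    have hE : Real.smoothTransition =ᶠ[nhds y] fun _ => (0 : ℝ) := by
      filter_upwards [Iio_mem_nhds hy] with z hz
      exact Real.smoothTransition.zero_of_nonpos (le_of_lt hz)
    have := (hE.iteratedDeriv k).eq_of_nhds
    simpa using this
  have := hcl.closure_subset_iff.2 hsub
  rw [closure_Iio] at this
  exact this h

theorem iteratedDeriv_step_of_one_le {x : ℝ} (h : 1 ≤ x) {k : ℕ} (hk : 0 < k) :
    iteratedDeriv k Real.smoothTransition x = 0 := by
  have hcl : IsClosed {y : ℝ | iteratedDeriv k Real.smoothTransition y = 0} :=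
    isClosed_eq (continuous_iteratedDeriv_step k) continuous_const
  have hsub : Set.Ioi (1 : ℝ) ⊆ {y : ℝ | iteratedDeriv k Real.smoothTransition y = 0} := by
    intro y hy
    have hE : Real.smoothTransition =ᶠ[nhds y] fun _ => (1 : ℝ) := by
      filter_upwards [Ioi_mem_nhds hy] with z hz
      exact Real.smoothTransition.one_of_one_le (le_of_lt hz)
    have := (hE.iteratedDeriv k).eq_of_nhds
    rw [iteratedDeriv_const, if_neg hk.ne'] at this
    exact this
  have := hcl.closure_subset_iff.2 hsub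
  rw [closure_Ioi] at this
  exact this h

end Vale.Agent.P113
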