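import Vale.Agent.P113.CR
import Vale.Agent.P113.CRLib2
import Vale.Agent.P113.CRExp
import Vale.Agent.P113.StepPoly

namespace Vale.Agent.P113

/-- one monomial of the derivative formula, at a coded rational, is uniformly computable. -/
theorem compReal_monoEval : CompReal (fun p : (ℕ × Q3) × Mono =>
    p.2.eval (Real.smoothTransition (qv p.1.2)) (qv (qinv p.1.2))
      (qv (qinv (qadd (1, 0, 0) (qneg p.1.2))))) := by
  have hr : Primrec (fun p : (ℕ × Q3) × Mono => p.1.2) := Primrec.snd.comp Primrec.fst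
  have hm : Primrec (fun p : (ℕ × Q3) × Mono => p.2) := Primrec.snd
  have hc : CompReal (fun p : (ℕ × Q3) × Mono => qv ((p.2.1.1, p.2.1.2, 0) : Q3)) :=
    CompReal.of_rat (pr_q3 (Primrec.fst.comp (Primrec.fst.comp hm))
      (Primrec.snd.comp (Primrec.fst.comp hm)) (Primrec.const 0)).to_comp
  have hS : CompReal (fun p : (ℕ × Q3) × Mono => Real.smoothTransition (qv p.1.2) ^ p.2.2.1) :=
    (compReal_smoothTransition.comp hr.to_comp).pow
      (Primrec.fst.comp (Primrec.snd.comp hm)).to_comp
  have hu : CompReal (fun p : (ℕ × Q3) × Mono => qv (qinv p.1.2) ^ p.2.2.2.1) :=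
    (CompReal.of_rat (qinv_prim.comp hr).to_comp).pow
      (Primrec.fst.comp (Primrec.snd.comp (Primrec.snd.comp hm))).to_comp
  have hv : CompReal (fun p : (ℕ × Q3) × Mono =>
      qv (qinv (qadd (1, 0, 0) (qneg p.1.2))) ^ p.2.2.2.2) :=
    (CompReal.of_rat (qinv_prim.comp (pr_qadd (Primrec.const _) (pr_qneg hr))).to_comp).pow
      (Primrec.snd.comp (Primrec.snd.comp (Primrec.snd.comp hm))).to_comp
  refine (((hc.mul hS).mul hu).mul hv).of_eq fun p => ?_
  simp [Mono.eval, qv]

theorem eff1_smoothTransition : Eff1 Real.smoothTransition := by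
  refine ⟨Real.smoothTransition.contDiff, ?_⟩
  have hr : Primrec (fun p : ℕ × Q3 => p.2) := Primrec.snd
  have hmid : CompReal (fun p : ℕ × Q3 => ((stepPoly p.1).map (fun m : Mono =>
      m.eval (Real.smoothTransition (qv p.2)) (qv (qinv p.2))
        (qv (qinv (qadd (1, 0, 0) (qneg p.2)))))).sum) :=
    compReal_monoEval.list_sum (L := fun p : ℕ × Q3 => stepPoly p.1)
      (stepPoly_primrec.comp Primrec.fst).to_comp
  have hz : Computable (fun p : ℕ × Q3 => decide (p.1 = 0)) :=
    (Primrec.eq.decide.comp Primrec.fst (Primrec.const 0)).to_comp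
  have h0 : CompReal (fun p : ℕ × Q3 => Real.smoothTransition (qv p.2)) :=
    compReal_smoothTransition.comp hr.to_comp
  have h2 := CompReal.ite (qgeone_prim.comp hr).to_comp (CompReal.const_rat (α := ℕ × Q3) 0) hmid
  have h3 := CompReal.ite (qnonpos_prim.comp hr).to_comp (CompReal.const_rat (α := ℕ × Q3) 0) h2
  have h4 := CompReal.ite hz h0 h3
  refine h4.of_eq fun p => ?_
  obtain ⟨k, r⟩ := p
  by_cases hk : k = 0
  · subst hk
    simp
  · have hk' : 0 < k := Nat.pos_of_ne_zero hk
    simp only [hk, decide_false, Bool.false_eq_true, if_false]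
    by_cases c0 : qv r ≤ 0
    · rw [if_pos ((qnonpos_iff r).mpr c0), iteratedDeriv_step_of_nonpos c0 hk']
      simp
    · rw [if_neg (fun h => c0 ((qnonpos_iff r).mp h))]
      by_cases c1 : 1 ≤ qv r
      · rw [if_pos ((qgeone_iff r).mpr c1), iteratedDeriv_step_of_one_le c1 hk']
        simp
      · rw [if_neg (fun h => c1 ((qgeone_iff r).mp h))]
        rw [not_le] at c0 c1
        have h2 : 0 < qv (qadd (1, 0, 0) (qneg r)) := by
          rw [qv_qadd, qv_qneg, qv_one]; linarith
        rw [iteratedDeriv_step_of_mem c0 c1, qv_qinv ((qv_pos_iff _).mp c0),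
          qv_qinv ((qv_pos_iff _).mp h2), qv_qadd, qv_qneg, qv_one, one_div, one_div,
          sub_eq_add_neg]

end Vale.Agent.P113
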