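import Vale.Agent.P113.Flow

namespace Vale.Agent.P113

open Set
open scoped ContDiff

/-- `1`-periodization of a function supported in the open interval from `-1/2` to `1/2`. -/
noncomputable def per (h : ℝ → ℝ) (x : ℝ) : ℝ := h (x - (round x : ℝ))

/-- Plateau: `1` on `[n/N - 1/(4N), n/N + 1/(2N)]`, `0` outside `[n/N - 1/(2N), n/N + 3/(4N)]`. -/
noncomputable def plat (N n : ℕ) (x : ℝ) : ℝ :=
  Real.smoothTransition (4 * (N : ℝ) * x - 4 * (n : ℝ) + 2)
    - Real.smoothTransition (4 * (N : ℝ) * x - 4 * (n : ℝ) - 2)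

/-- plateau times an affine function. -/
noncomputable def platAff (N n : ℕ) (α β : ℚ) (x : ℝ) : ℝ :=
  plat N n x * ((α : ℝ) * x + (β : ℝ))

/-- equals `x` on `[-5/16, 3/8]`, supported in `[-3/8, 7/16]`. -/
noncomputable def lam0 (x : ℝ) : ℝ :=
  x * (Real.smoothTransition (16 * x + 6) - Real.smoothTransition (16 * x - 6))

noncomputable def pP (N n : ℕ) : ℝ → ℝ := per (plat N n)
noncomputable def pQ (N n : ℕ) (α β : ℚ) : ℝ → ℝ := per (platAff N n α β)
noncomputable def pL : ℝ → ℝ := per lam0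

/-- The block-wise affine function: on (block `bn i`) x (block `bn j`) it equals
the affine map with coefficients `T i j`. -/
noncomputable def FT {ι : Type} [Fintype ι] (N : ℕ) (bn : ι → ℕ) (T : ι → ι → ℚ × ℚ)
    (x y : ℝ) : ℝ :=
  ∑ i, ∑ j, pP N (bn i) x * pQ N (bn j) (T i j).1 (T i j).2 y

/-- The Laplacian of `FT` in the two variables. -/
noncomputable def FTlap {ι : Type} [Fintype ι] (N : ℕ) (bn : ι → ℕ) (T : ι → ι → ℚ × ℚ)
    (x y : ℝ) : ℝ :=
  ∑ i, ∑ j, (iteratedDeriv 2 (pP N (bn i)) x * pQ N (bn j) (T i j).1 (T i j).2 y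
    + pP N (bn i) x * iteratedDeriv 2 (pQ N (bn j) (T i j).1 (T i j).2) y)

/-- The three shears of a slot that replaces `x_own = y` by `T(y)`, controlled by `x_ctl`, using
the ancilla coordinate `x_2 = 0`; `T'` is the table of the inverse maps. -/
noncomputable def slotShear {ι : Type} [Fintype ι] (ctl own : Fin 3) (N : ℕ) (bn : ι → ℕ)
    (T T' : ι → ι → ℚ × ℚ) : ℕ → Shear
  | 0 => ⟨2, fun x => FT N bn T (x ctl) (x own), fun x => FTlap N bn T (x ctl) (x own)⟩
  | 1 => ⟨own, fun x => pL (x 2) - FT N bn T' (x ctl) (x 2),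
      fun x => iteratedDeriv 2 pL (x 2) - FTlap N bn T' (x ctl) (x 2)⟩
  | _ => ⟨2, fun x => - pL (x own), fun x => - iteratedDeriv 2 pL (x own)⟩

/-- The shear that lifts the ancilla to `1/2` when `x_0` lies in a flagged block. -/
noncomputable def haltShear {ι : Type} [Fintype ι] (N : ℕ) (bn : ι → ℕ) (fl : ι → Bool) : Shear :=
  ⟨2, fun x => ∑ i, (if fl i then (1 / 2 : ℝ) else 0) * pP N (bn i) (x 0),
    fun x => ∑ i, (if fl i then (1 / 2 : ℝ) else 0) * iteratedDeriv 2 (pP N (bn i)) (x 0)⟩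

/-- The ten shears of one period. -/
noncomputable def sched {ι : Type} [Fintype ι] (N : ℕ) (bn : ι → ℕ) (fl : ι → Bool)
    (T1 T1' T2 T2' T3 T3' : ι → ι → ℚ × ℚ) (j : ℕ) : Shear :=
  if j = 0 then haltShear N bn fl
  else if j ≤ 3 then slotShear 0 1 N bn T1 T1' (j - 1)
  else if j ≤ 6 then slotShear 1 0 N bn T2 T2' (j - 4)
  else slotShear 0 1 N bn T3 T3' (j - 7)

end Vale.Agent.P113
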