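import Vale.Agent.P113.GTM
import Vale.Agent.P113.Tools

namespace Vale.Agent.P113

variable {Γ Λ : Type}

/-- `Sym Γ Λ` as a sum type. -/
def symEquiv : Sym Γ Λ ≃ (Γ ⊕ (Λ × Mv × Γ)) ⊕ (Λ × Mv) where
  toFun
    | Sym.live a => Sum.inl (Sum.inl a)
    | Sym.dead q m a => Sum.inl (Sum.inr (q, m, a))
    | Sym.st q m => Sum.inr (q, m)
  invFun
    | Sum.inl (Sum.inl a) => Sym.live a
    | Sum.inl (Sum.inr (q, m, a)) => Sym.dead q m a
    | Sum.inr (q, m) => Sym.st q m
  left_inv := fun s => by cases s <;> rfl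
  right_inv := fun s => by rcases s with (a | ⟨q, m, a⟩) | ⟨q, m⟩ <;> rfl

instance [Fintype Γ] [Fintype Λ] : Fintype (Sym Γ Λ) := Fintype.ofEquiv _ symEquiv.symm

variable [Fintype Γ] [Fintype Λ] [DecidableEq Γ] [DecidableEq Λ] [Inhabited Γ]

/-- digit of a stack symbol: the blank has digit `0`, all digits are at most `card`. -/
noncomputable def dig (s : Sym Γ Λ) : ℕ :=
  if s = blank then 0 else (Fintype.equivFin (Sym Γ Λ) s : ℕ) + 1

variable (Γ Λ) in
/-- the base of the expansions. -/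
def base : ℕ := 4 * (Fintype.card (Sym Γ Λ) + 1)

/-- rational code of a stack: `∑ dig (l i) / base ^ (i + 1)`. -/
noncomputable def encQ : List (Sym Γ Λ) → ℚ
  | [] => 0
  | a :: l => ((dig a : ℚ) + encQ l) / (base Γ Λ : ℚ)

/-- real code of a stack. -/
noncomputable def enc (l : List (Sym Γ Λ)) : ℝ := (encQ l : ℝ)

/-- block number (at scale `base ^ 3`) of a window. -/
noncomputable def bn (w : Win Γ Λ) : ℕ :=
  dig w.1 * base Γ Λ ^ 2 + dig w.2.1 * base Γ Λ + dig w.2.2

/-- the affine map `y ↦ α y + β` that realises the stack operation `op` on codes of stacks whose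
window is `own`. -/
noncomputable def aff (own : Win Γ Λ) (op : Op Γ Λ) : ℚ × ℚ :=
  ((base Γ Λ : ℚ) ^ op.1 / (base Γ Λ : ℚ) ^ op.2.length,
    encQ op.2 - (base Γ Λ : ℚ) ^ op.1 / (base Γ Λ : ℚ) ^ op.2.length *
      encQ ([own.1, own.2.1, own.2.2].take op.1))

/-- table of affine maps of a table of stack operations. -/
noncomputable def tab (f : Win Γ Λ → Win Γ Λ → Op Γ Λ) (wc wo : Win Γ Λ) : ℚ × ℚ :=
  aff wo (f wc wo)

/-- the ten shears of the period for the machine `M`. -/
noncomputable def schedOf (M : GTM Γ Λ) : ℕ → Shear :=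
  sched (base Γ Λ ^ 3) bn (flag M) (tab (fwd1 M)) (tab (bwd1 M)) (tab (fwd2 M)) (tab (bwd2 M))
    (tab (fwd3 M)) (tab (bwd3 M))

/-- the point of space coding a pair of stacks (ancilla `0`). -/
noncomputable def pt (p : List (Sym Γ Λ) × List (Sym Γ Λ)) : E3 := ![enc p.1, enc p.2, 0]

/-- the time-one map of a shear. -/
noncomputable def shearMap (s : Shear) (x : E3) : E3 := x + Pi.single s.dir (s.g x)

/-- apply the first `k` shears of a schedule. -/
noncomputable def runShears (sh : ℕ → Shear) : ℕ → E3 → E3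
  | 0, x => x
  | k + 1, x => shearMap (sh k) (runShears sh k x)

end Vale.Agent.P113
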