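import Vale.Agent.P113.Tools

namespace Vale.Agent.P113.ToolsE

open Set Filter
open scoped ContDiff Topology

theorem dx_contDiff {G : E3 → ℝ} (hG : ContDiff ℝ ∞ G) (j : Fin 3) : ContDiff ℝ ∞ (dx j G) := by
  unfold dx
  exact (hG.fderiv_right (m := ∞) (by simp)).clm_apply contDiff_const

theorem dx_add {G H : E3 → ℝ} (hG : Differentiable ℝ G) (hH : Differentiable ℝ H) (j : Fin 3) :
    dx j (fun x => G x + H x) = fun x => dx j G x + dx j H x := by
  funext x
  unfold dx
  rw [fderiv_fun_add (hG x) (hH x)]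
  rfl

theorem dx_sub {G H : E3 → ℝ} (hG : Differentiable ℝ G) (hH : Differentiable ℝ H) (j : Fin 3) :
    dx j (fun x => G x - H x) = fun x => dx j G x - dx j H x := by
  funext x
  unfold dx
  rw [fderiv_fun_sub (hG x) (hH x)]
  rfl

theorem dx_neg {G : E3 → ℝ} (j : Fin 3) :
    dx j (fun x => - G x) = fun x => - dx j G x := by
  funext x
  unfold dx
  rw [fderiv_fun_neg]
  rfl

theorem dx_const_mul {G : E3 → ℝ} (hG : Differentiable ℝ G) (c : ℝ) (j : Fin 3) :
    dx j (fun x => c * G x) = fun x => c * dx j G x := by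
  funext x
  unfold dx
  rw [fderiv_const_mul (hG x)]
  rfl

theorem dx_sum {κ : Type} (s : Finset κ) {G : κ → E3 → ℝ} (hG : ∀ k, Differentiable ℝ (G k))
    (j : Fin 3) : dx j (fun x => ∑ k ∈ s, G k x) = fun x => ∑ k ∈ s, dx j (G k) x := by
  funext x
  unfold dx
  rw [fderiv_fun_sum (fun k _ => hG k x)]
  simp

theorem hasFDerivAt_coord (c : Fin 3) (x : E3) :
    HasFDerivAt (fun y : E3 => y c) (ContinuousLinearMap.proj (R := ℝ) (φ := fun _ : Fin 3 => ℝ) c) x :=
  (ContinuousLinearMap.proj (R := ℝ) (φ := fun _ : Fin 3 => ℝ) c).hasFDerivAt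

theorem dx_single {a : ℝ → ℝ} (ha : Differentiable ℝ a) (c j : Fin 3) :
    dx j (fun x => a (x c)) = fun x => (if j = c then 1 else 0) * deriv a (x c) := by
  funext x
  unfold dx
  have h := (ha (x c)).hasDerivAt.comp_hasFDerivAt x (hasFDerivAt_coord c x)
  have h2 : fderiv ℝ (fun x : E3 => a (x c)) x = _ := h.fderiv
  rw [h2]
  simp [Pi.single_apply, eq_comm]

theorem dx_prod {a b : ℝ → ℝ} (ha : Differentiable ℝ a) (hb : Differentiable ℝ b)
    (c o j : Fin 3) :
    dx j (fun x => a (x c) * b (x o)) = fun x =>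
      (if j = c then 1 else 0) * (deriv a (x c) * b (x o))
        + (if j = o then 1 else 0) * (a (x c) * deriv b (x o)) := by
  funext x
  unfold dx
  have h1 := (ha (x c)).hasDerivAt.comp_hasFDerivAt x (hasFDerivAt_coord c x)
  have h2 := (hb (x o)).hasDerivAt.comp_hasFDerivAt x (hasFDerivAt_coord o x)
  have h3 : fderiv ℝ (fun x : E3 => a (x c) * b (x o)) x = _ := (h1.mul h2).fderiv
  rw [h3]
  simp [Pi.single_apply, eq_comm]
  ring_nf

theorem contDiff_lift {a : ℝ → ℝ} (ha : ContDiff ℝ ∞ a) (c : Fin 3) :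
    ContDiff ℝ ∞ (fun x : E3 => a (x c)) :=
  ha.comp (contDiff_apply ℝ ℝ c)

theorem deriv_contDiff {a : ℝ → ℝ} (ha : ContDiff ℝ ∞ a) : ContDiff ℝ ∞ (deriv a) :=
  (contDiff_infty_iff_deriv.1 ha).2

theorem diff_of_contDiff {a : ℝ → ℝ} (ha : ContDiff ℝ ∞ a) : Differentiable ℝ a :=
  ha.differentiable (by simp)

theorem diff_of_contDiff' {G : E3 → ℝ} (hG : ContDiff ℝ ∞ G) : Differentiable ℝ G :=
  hG.differentiable (by simp)

theorem iteratedDeriv_two (a : ℝ → ℝ) : iteratedDeriv 2 a = deriv (deriv a) := by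
  rw [iteratedDeriv_succ, iteratedDeriv_one]

/-- the Laplacian as it appears in `Shear.Good`. -/
noncomputable def lap3 (G : E3 → ℝ) (x : E3) : ℝ := ∑ j, dx j (dx j G) x

theorem lap3_single {a : ℝ → ℝ} (ha : ContDiff ℝ ∞ a) (c : Fin 3) (x : E3) :
    lap3 (fun x => a (x c)) x = iteratedDeriv 2 a (x c) := by
  unfold lap3
  have h1 : ∀ j, dx j (dx j (fun x : E3 => a (x c))) x
      = if j = c then iteratedDeriv 2 a (x c) else 0 := by
    intro j
    rw [dx_single (diff_of_contDiff ha),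
      dx_const_mul (diff_of_contDiff' (contDiff_lift (deriv_contDiff ha) c)),
      dx_single (diff_of_contDiff (deriv_contDiff ha)), iteratedDeriv_two]
    split_ifs <;> simp
  simp only [h1]
  simp

theorem lap3_prod {a b : ℝ → ℝ} (ha : ContDiff ℝ ∞ a) (hb : ContDiff ℝ ∞ b) {c o : Fin 3}
    (hco : c ≠ o) (x : E3) :
    lap3 (fun x => a (x c) * b (x o)) x
      = iteratedDeriv 2 a (x c) * b (x o) + a (x c) * iteratedDeriv 2 b (x o) := by
  unfold lap3
  have ha' := deriv_contDiff ha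
  have hb' := deriv_contDiff hb
  have h1 : ∀ j, dx j (dx j (fun x : E3 => a (x c) * b (x o))) x
      = (if j = c then iteratedDeriv 2 a (x c) * b (x o) else 0)
        + (if j = o then a (x c) * iteratedDeriv 2 b (x o) else 0) := by
    intro j
    rw [dx_prod (diff_of_contDiff ha) (diff_of_contDiff hb),
      dx_add
        ((diff_of_contDiff' ((contDiff_lift ha' c).mul (contDiff_lift hb o))).const_mul _)
        ((diff_of_contDiff' ((contDiff_lift ha c).mul (contDiff_lift hb' o))).const_mul _),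
      dx_const_mul (diff_of_contDiff' ((contDiff_lift ha' c).mul (contDiff_lift hb o))),
      dx_const_mul (diff_of_contDiff' ((contDiff_lift ha c).mul (contDiff_lift hb' o))),
      dx_prod (diff_of_contDiff ha') (diff_of_contDiff hb),
      dx_prod (diff_of_contDiff ha) (diff_of_contDiff hb'), iteratedDeriv_two, iteratedDeriv_two]
    by_cases h1 : j = c
    · have h2 : j ≠ o := fun h => hco (h1.symm.trans h)
      simp [h1, hco]
    · by_cases h2 : j = o
      · simp [h2, hco.symm]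
      · simp [h1, h2]
  simp only [h1]
  rw [Finset.sum_add_distrib]
  simp

theorem lap3_add {G H : E3 → ℝ} (hG : ContDiff ℝ ∞ G) (hH : ContDiff ℝ ∞ H) (x : E3) :
    lap3 (fun x => G x + H x) x = lap3 G x + lap3 H x := by
  unfold lap3
  rw [← Finset.sum_add_distrib]
  apply Finset.sum_congr rfl
  intro j _
  rw [dx_add (diff_of_contDiff' hG) (diff_of_contDiff' hH),
    dx_add (diff_of_contDiff' (dx_contDiff hG j)) (diff_of_contDiff' (dx_contDiff hH j))]

theorem lap3_sub {G H : E3 → ℝ} (hG : ContDiff ℝ ∞ G) (hH : ContDiff ℝ ∞ H) (x : E3) :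
    lap3 (fun x => G x - H x) x = lap3 G x - lap3 H x := by
  unfold lap3
  rw [← Finset.sum_sub_distrib]
  apply Finset.sum_congr rfl
  intro j _
  rw [dx_sub (diff_of_contDiff' hG) (diff_of_contDiff' hH),
    dx_sub (diff_of_contDiff' (dx_contDiff hG j)) (diff_of_contDiff' (dx_contDiff hH j))]

theorem lap3_neg {G : E3 → ℝ} (x : E3) :
    lap3 (fun x => - G x) x = - lap3 G x := by
  unfold lap3
  rw [← Finset.sum_neg_distrib]
  apply Finset.sum_congr rfl
  intro j _
  rw [dx_neg, dx_neg]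

theorem lap3_const_mul {G : E3 → ℝ} (hG : ContDiff ℝ ∞ G) (c : ℝ) (x : E3) :
    lap3 (fun x => c * G x) x = c * lap3 G x := by
  unfold lap3
  rw [Finset.mul_sum]
  apply Finset.sum_congr rfl
  intro j _
  rw [dx_const_mul (diff_of_contDiff' hG), dx_const_mul (diff_of_contDiff' (dx_contDiff hG j))]

theorem lap3_sum {κ : Type} (s : Finset κ) {G : κ → E3 → ℝ} (hG : ∀ k, ContDiff ℝ ∞ (G k))
    (x : E3) : lap3 (fun x => ∑ k ∈ s, G k x) x = ∑ k ∈ s, lap3 (G k) x := by
  unfold lap3
  rw [Finset.sum_comm]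
  apply Finset.sum_congr rfl
  intro j _
  rw [dx_sum s (fun k => diff_of_contDiff' (hG k)),
    dx_sum s (fun k => diff_of_contDiff' (dx_contDiff (hG k) j))]

end Vale.Agent.P113.ToolsE
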