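import Vale.Agent.P113.Tools

namespace Vale.Agent.P113.ToolsE

open Set Filter
open scoped ContDiff Topology

theorem per_add_one (h : ℝ → ℝ) (x : ℝ) : per h (x + 1) = per h x := by
  unfold per
  rw [round_add_one]
  push_cast
  congr 1
  ring

theorem per_of_abs_lt {h : ℝ → ℝ} {x : ℝ} (h0 : -(1 / 2) ≤ x) (h1 : x < 1 / 2) :
    per h x = h x := by
  unfold per
  rw [round_eq_zero_iff.2 ⟨h0, h1⟩]
  simp

theorem per_eventuallyEq {h : ℝ → ℝ} (hs : ∀ x, 7 / 16 < |x| → h x = 0) (x0 : ℝ) :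
    per h =ᶠ[𝓝 x0] fun x => h (x - (round x0 : ℝ)) := by
  set n : ℤ := round x0 with hn
  have h0 : |x0 - (n : ℝ)| ≤ 1 / 2 := abs_sub_round x0
  have hU : Ioo (x0 - 1 / 32) (x0 + 1 / 32) ∈ 𝓝 x0 := Ioo_mem_nhds (by linarith) (by linarith)
  filter_upwards [hU] with x hx
  set k : ℤ := round x with hk
  have h1 : |x - (k : ℝ)| ≤ 1 / 2 := abs_sub_round x
  change h (x - (k : ℝ)) = h (x - (n : ℝ))
  rw [abs_le] at h0 h1
  rcases lt_trichotomy k n with hkn | hkn | hkn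
  · have h2 : (k : ℝ) + 1 ≤ (n : ℝ) := by exact_mod_cast hkn
    rw [hs (x - (k : ℝ)) (by rw [lt_abs]; left; linarith [hx.1, hx.2, h0.1, h0.2, h1.1, h1.2]),
      hs (x - (n : ℝ)) (by rw [lt_abs]; right; linarith [hx.1, hx.2, h0.1, h0.2, h1.1, h1.2])]
  · rw [hkn]
  · have h2 : (n : ℝ) + 1 ≤ (k : ℝ) := by exact_mod_cast hkn
    rw [hs (x - (k : ℝ)) (by rw [lt_abs]; right; linarith [hx.1, hx.2, h0.1, h0.2, h1.1, h1.2]),
      hs (x - (n : ℝ)) (by rw [lt_abs]; left; linarith [hx.1, hx.2, h0.1, h0.2, h1.1, h1.2])]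

theorem per_contDiff {h : ℝ → ℝ} (hs : ∀ x, 7 / 16 < |x| → h x = 0) (hh : ContDiff ℝ ∞ h) :
    ContDiff ℝ ∞ (per h) := by
  rw [contDiff_iff_contDiffAt]
  intro x0
  refine ContDiffAt.congr_of_eventuallyEq ?_ (per_eventuallyEq hs x0)
  exact (hh.comp (contDiff_id.sub contDiff_const)).contDiffAt

theorem iteratedDeriv_per {h : ℝ → ℝ} (hs : ∀ x, 7 / 16 < |x| → h x = 0) (k : ℕ) :
    iteratedDeriv k (per h) = per (iteratedDeriv k h) := by
  funext x0
  rw [(per_eventuallyEq hs x0).iteratedDeriv_eq k, iteratedDeriv_comp_sub_const]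
  rfl

theorem iteratedDeriv_contDiff {h : ℝ → ℝ} (hh : ContDiff ℝ ∞ h) (k : ℕ) :
    ContDiff ℝ ∞ (iteratedDeriv k h) := by
  rw [iteratedDeriv_eq_iterate]
  exact hh.iterate_deriv k

theorem plat_eq_one {N n : ℕ} (hN : 0 < N) {x : ℝ} (h0 : (n : ℝ) / N - 1 / (4 * N) ≤ x)
    (h1 : x ≤ (n : ℝ) / N + 1 / (2 * N)) : plat N n x = 1 := by
  have hNR : (0 : ℝ) < N := by exact_mod_cast hN
  have e0 : (n : ℝ) - 1 / 4 ≤ N * x := by
    have := mul_le_mul_of_nonneg_left h0 hNR.le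
    have e : (N : ℝ) * ((n : ℝ) / N - 1 / (4 * N)) = (n : ℝ) - 1 / 4 := by field_simp
    linarith
  have e1 : N * x ≤ (n : ℝ) + 1 / 2 := by
    have := mul_le_mul_of_nonneg_left h1 hNR.le
    have e : (N : ℝ) * ((n : ℝ) / N + 1 / (2 * N)) = (n : ℝ) + 1 / 2 := by field_simp
    linarith
  unfold plat
  rw [Real.smoothTransition.one_of_one_le (by linarith),
    Real.smoothTransition.zero_of_nonpos (by linarith)]
  ring

theorem plat_eq_zero_left {N n : ℕ} (hN : 0 < N) {x : ℝ} (h0 : x ≤ (n : ℝ) / N - 1 / (2 * N)) :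
    plat N n x = 0 := by
  have hNR : (0 : ℝ) < N := by exact_mod_cast hN
  have e0 : N * x ≤ (n : ℝ) - 1 / 2 := by
    have := mul_le_mul_of_nonneg_left h0 hNR.le
    have e : (N : ℝ) * ((n : ℝ) / N - 1 / (2 * N)) = (n : ℝ) - 1 / 2 := by field_simp
    linarith
  unfold plat
  rw [Real.smoothTransition.zero_of_nonpos (by linarith),
    Real.smoothTransition.zero_of_nonpos (by linarith)]
  ring

theorem plat_eq_zero_right {N n : ℕ} (hN : 0 < N) {x : ℝ} (h0 : (n : ℝ) / N + 3 / (4 * N) ≤ x) :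
    plat N n x = 0 := by
  have hNR : (0 : ℝ) < N := by exact_mod_cast hN
  have e0 : (n : ℝ) + 3 / 4 ≤ N * x := by
    have := mul_le_mul_of_nonneg_left h0 hNR.le
    have e : (N : ℝ) * ((n : ℝ) / N + 3 / (4 * N)) = (n : ℝ) + 3 / 4 := by field_simp
    linarith
  unfold plat
  rw [Real.smoothTransition.one_of_one_le (by linarith),
    Real.smoothTransition.one_of_one_le (by linarith)]
  ring

theorem plat_contDiff (N n : ℕ) : ContDiff ℝ ∞ (plat N n) := by
  unfold plat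
  apply ContDiff.sub
  · exact Real.smoothTransition.contDiff.comp (by fun_prop)
  · exact Real.smoothTransition.contDiff.comp (by fun_prop)

theorem platAff_contDiff (N n : ℕ) (α β : ℚ) : ContDiff ℝ ∞ (platAff N n α β) := by
  unfold platAff
  exact (plat_contDiff N n).mul (by fun_prop)

theorem lam0_contDiff : ContDiff ℝ ∞ lam0 := by
  unfold lam0
  apply contDiff_id.mul
  apply ContDiff.sub
  · exact Real.smoothTransition.contDiff.comp (by fun_prop)
  · exact Real.smoothTransition.contDiff.comp (by fun_prop)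

theorem plat_supp {N n : ℕ} (hN : 8 ≤ N) (hn : 4 * n ≤ N) (x : ℝ) (hx : 7 / 16 < |x|) :
    plat N n x = 0 := by
  have hN0 : 0 < N := by omega
  have hNR : (8 : ℝ) ≤ N := by exact_mod_cast hN
  have hnR : 4 * (n : ℝ) ≤ N := by exact_mod_cast hn
  have hNpos : (0 : ℝ) < N := by linarith
  have hn0 : (0 : ℝ) ≤ n := Nat.cast_nonneg n
  have a1 : (n : ℝ) / N ≤ 1 / 4 := by rw [div_le_iff₀ hNpos]; linarith
  have a0 : 0 ≤ (n : ℝ) / N := by positivity
  have a2 : 1 / (N : ℝ) ≤ 1 / 8 := by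
    rw [div_le_iff₀ hNpos]; linarith
  have a3 : 1 / (2 * (N : ℝ)) = 1 / 2 * (1 / N) := by field_simp
  have a4 : 3 / (4 * (N : ℝ)) = 3 / 4 * (1 / N) := by field_simp
  have a5 : 0 < 1 / (N : ℝ) := by positivity
  rcases lt_abs.1 hx with h | h
  · exact plat_eq_zero_right hN0 (by rw [a4]; linarith)
  · exact plat_eq_zero_left hN0 (by rw [a3]; linarith)

theorem platAff_supp {N n : ℕ} (hN : 8 ≤ N) (hn : 4 * n ≤ N) (α β : ℚ) (x : ℝ)
    (hx : 7 / 16 < |x|) : platAff N n α β x = 0 := by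
  unfold platAff
  rw [plat_supp hN hn x hx, zero_mul]

theorem lam0_supp (x : ℝ) (hx : 7 / 16 < |x|) : lam0 x = 0 := by
  unfold lam0
  rcases lt_abs.1 hx with h | h
  · rw [Real.smoothTransition.one_of_one_le (by linarith),
      Real.smoothTransition.one_of_one_le (by linarith)]
    ring
  · rw [Real.smoothTransition.zero_of_nonpos (by linarith),
      Real.smoothTransition.zero_of_nonpos (by linarith)]
    ring

theorem lam0_eq {x : ℝ} (h0 : -(5 / 16) ≤ x) (h1 : x ≤ 3 / 8) : lam0 x = x := by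
  unfold lam0
  rw [Real.smoothTransition.one_of_one_le (by linarith),
    Real.smoothTransition.zero_of_nonpos (by linarith)]
  ring

theorem pP_contDiff {N n : ℕ} (hN : 8 ≤ N) (hn : 4 * n ≤ N) : ContDiff ℝ ∞ (pP N n) :=
  per_contDiff (plat_supp hN hn) (plat_contDiff N n)

theorem pQ_contDiff {N n : ℕ} (hN : 8 ≤ N) (hn : 4 * n ≤ N) (α β : ℚ) :
    ContDiff ℝ ∞ (pQ N n α β) :=
  per_contDiff (platAff_supp hN hn α β) (platAff_contDiff N n α β)

theorem pL_contDiff : ContDiff ℝ ∞ pL := per_contDiff lam0_supp lam0_contDiff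

theorem iteratedDeriv_per_add_one {h : ℝ → ℝ} (hs : ∀ x, 7 / 16 < |x| → h x = 0) (k : ℕ)
    (x : ℝ) : iteratedDeriv k (per h) (x + 1) = iteratedDeriv k (per h) x := by
  rw [iteratedDeriv_per hs, per_add_one]

end Vale.Agent.P113.ToolsE
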