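import Vale.Agent.P113.Tools
import Vale.Agent.P113.Code
import Vale.Agent.P113.ToolsPer
import Vale.Agent.P113.ToolsLap

namespace Vale.Agent.P113

open Set ToolsE
open scoped ContDiff

/-- the block number `n` at scale `N`. -/
def Blk (N n : ℕ) : Set ℝ := Icc ((n : ℝ) / N) ((n : ℝ) / N + 1 / (4 * N))

theorem pL_eq {x : ℝ} (h0 : 0 ≤ x) (h1 : x ≤ 3 / 8) : pL x = x := by
  unfold pL
  rw [per_of_abs_lt (by linarith) (by linarith), lam0_eq (by linarith) h1]

theorem Blk_bounds {N n : ℕ} (hN : 8 ≤ N) (hn : 4 * n ≤ N) {x : ℝ} (hx : x ∈ Blk N n) :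
    0 ≤ x ∧ x ≤ 9 / 32 := by
  have hNR : (8 : ℝ) ≤ N := by exact_mod_cast hN
  have hnR : 4 * (n : ℝ) ≤ N := by exact_mod_cast hn
  have hNpos : (0 : ℝ) < N := by linarith
  have a1 : (n : ℝ) / N ≤ 1 / 4 := by rw [div_le_iff₀ hNpos]; linarith
  have a0 : 0 ≤ (n : ℝ) / N := by positivity
  have a2 : 1 / (4 * (N : ℝ)) ≤ 1 / 32 := by
    rw [div_le_iff₀ (by positivity)]; linarith
  exact ⟨le_trans a0 hx.1, by linarith [hx.2]⟩

theorem plat_Blk_self {N n : ℕ} (hN : 0 < N) {x : ℝ} (hx : x ∈ Blk N n) : plat N n x = 1 := by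
  have hNpos : (0 : ℝ) < N := by exact_mod_cast hN
  have a1 : 0 < 1 / (4 * (N : ℝ)) := by positivity
  have a2 : 1 / (4 * (N : ℝ)) ≤ 1 / (2 * (N : ℝ)) := by
    apply one_div_le_one_div_of_le (by positivity); linarith
  exact plat_eq_one hN (by linarith [hx.1]) (by linarith [hx.2])

theorem plat_Blk_ne {N n m : ℕ} (hN : 0 < N) (hmn : m ≠ n) {x : ℝ} (hx : x ∈ Blk N n) :
    plat N m x = 0 := by
  have hNpos : (0 : ℝ) < N := by exact_mod_cast hN
  have e1 : 1 / (4 * (N : ℝ)) = 1 / 4 * (1 / N) := by field_simp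
  have e2 : 1 / (2 * (N : ℝ)) = 1 / 2 * (1 / N) := by field_simp
  have e3 : 3 / (4 * (N : ℝ)) = 3 / 4 * (1 / N) := by field_simp
  have a5 : 0 < 1 / (N : ℝ) := by positivity
  rcases lt_or_gt_of_ne hmn with h | h
  · have h2 : (m : ℝ) + 1 ≤ n := by exact_mod_cast h
    have h3 : (m : ℝ) / N + 1 / N ≤ (n : ℝ) / N := by
      rw [← add_div]; exact div_le_div_of_nonneg_right h2 hNpos.le
    exact plat_eq_zero_right hN (by rw [e3]; linarith [hx.1])
  · have h2 : (n : ℝ) + 1 ≤ m := by exact_mod_cast h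
    have h3 : (n : ℝ) / N + 1 / N ≤ (m : ℝ) / N := by
      rw [← add_div]; exact div_le_div_of_nonneg_right h2 hNpos.le
    have := hx.2
    rw [e1] at this
    exact plat_eq_zero_left hN (by rw [e2]; linarith)

theorem pP_Blk {N n m : ℕ} (hN : 8 ≤ N) (hn : 4 * n ≤ N) {x : ℝ} (hx : x ∈ Blk N n) :
    pP N m x = if m = n then 1 else 0 := by
  have hb := Blk_bounds hN hn hx
  unfold pP
  rw [per_of_abs_lt (by linarith [hb.1]) (by linarith [hb.2])]
  split_ifs with h
  · subst h; exact plat_Blk_self (by omega) hx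
  · exact plat_Blk_ne (by omega) h hx

theorem pQ_Blk {N n m : ℕ} (hN : 8 ≤ N) (hn : 4 * n ≤ N) (α β : ℚ) {x : ℝ} (hx : x ∈ Blk N n) :
    pQ N m α β x = if m = n then (α : ℝ) * x + (β : ℝ) else 0 := by
  have hb := Blk_bounds hN hn hx
  unfold pQ
  rw [per_of_abs_lt (by linarith [hb.1]) (by linarith [hb.2])]
  unfold platAff
  split_ifs with h
  · subst h; rw [plat_Blk_self (by omega) hx, one_mul]
  · rw [plat_Blk_ne (by omega) h hx, zero_mul]

theorem lift_periodic {a : ℝ → ℝ} (ha : ∀ t, a (t + 1) = a t) (x : E3) (k c : Fin 3) :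
    a ((x + Pi.single k (1 : ℝ) : E3) c) = a (x c) := by
  by_cases h : c = k
  · subst h; simp [ha]
  · simp [h]

theorem lift2_periodic {F : ℝ → ℝ → ℝ} (h1 : ∀ s t, F (s + 1) t = F s t)
    (h2 : ∀ s t, F s (t + 1) = F s t) (x : E3) (k c o : Fin 3) :
    F ((x + Pi.single k (1 : ℝ) : E3) c) ((x + Pi.single k (1 : ℝ) : E3) o) = F (x c) (x o) := by
  have e1 : F ((x + Pi.single k (1 : ℝ) : E3) c) ((x + Pi.single k (1 : ℝ) : E3) o)
      = F (x c) ((x + Pi.single k (1 : ℝ) : E3) o) :=
    lift_periodic (a := fun s => F s ((x + Pi.single k (1 : ℝ) : E3) o)) (fun t => h1 t _) x k c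
  rw [e1]
  exact lift_periodic (a := fun t => F (x c) t) (fun t => h2 _ t) x k o

theorem per_lift {a : ℝ → ℝ} (ha : ∀ t, a (t + 1) = a t) (c : Fin 3) :
    Per (fun x : E3 => a (x c)) := fun x k => lift_periodic ha x k c

theorem per_lift2 {F : ℝ → ℝ → ℝ} (h1 : ∀ s t, F (s + 1) t = F s t)
    (h2 : ∀ s t, F s (t + 1) = F s t) (c o : Fin 3) :
    Per (fun x : E3 => F (x c) (x o)) := fun x k => lift2_periodic h1 h2 x k c o

theorem Per.sub' {G H : E3 → ℝ} (hG : Per G) (hH : Per H) : Per (fun x => G x - H x) :=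
  fun x k => by
    show G _ - H _ = G x - H x
    rw [hG x k, hH x k]

theorem Per.neg' {G : E3 → ℝ} (hG : Per G) : Per (fun x => - G x) :=
  fun x k => by
    show - G _ = - G x
    rw [hG x k]

section
variable {ι : Type} [Fintype ι] {N : ℕ} {bn : ι → ℕ} (hN : 8 ≤ N) (hbn : Function.Injective bn)
  (hle : ∀ i, 4 * bn i ≤ N)
include hN hbn hle

theorem FT_eq (T : ι → ι → ℚ × ℚ) {i j : ι} {x y : ℝ} (hx : x ∈ Blk N (bn i))
    (hy : y ∈ Blk N (bn j)) : FT N bn T x y = ((T i j).1 : ℝ) * y + ((T i j).2 : ℝ) := by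
  unfold FT
  rw [Finset.sum_eq_single i, Finset.sum_eq_single j]
  · rw [pP_Blk hN (hle i) hx, pQ_Blk hN (hle j) _ _ hy]
    simp
  · intro k _ hk
    rw [pQ_Blk hN (hle j) _ _ hy, if_neg (fun h => hk (hbn h)), mul_zero]
  · intro h; exact absurd (Finset.mem_univ j) h
  · intro k _ hk
    apply Finset.sum_eq_zero
    intro l _
    rw [pP_Blk hN (hle i) hx, if_neg (fun h => hk (hbn h)), zero_mul]
  · intro h; exact absurd (Finset.mem_univ i) h

theorem haltShear_g_eq (fl : ι → Bool) {i : ι} {x : E3} (hx : x 0 ∈ Blk N (bn i)) :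
    (haltShear N bn fl).g x = if fl i then 1 / 2 else 0 := by
  unfold haltShear
  simp only
  rw [Finset.sum_eq_single i]
  · rw [pP_Blk hN (hle i) hx]
    simp
  · intro k _ hk
    rw [pP_Blk hN (hle i) hx, if_neg (fun h => hk (hbn h)), mul_zero]
  · intro h; exact absurd (Finset.mem_univ i) h

omit hbn in
theorem FT_contDiff (T : ι → ι → ℚ × ℚ) (c o : Fin 3) :
    ContDiff ℝ ∞ (fun x : E3 => FT N bn T (x c) (x o)) := by
  unfold FT
  apply ContDiff.sum
  intro i _
  apply ContDiff.sum
  intro j _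
  exact (contDiff_lift (pP_contDiff hN (hle i)) c).mul (contDiff_lift (pQ_contDiff hN (hle j) _ _) o)

omit hbn in
theorem FTlap_contDiff (T : ι → ι → ℚ × ℚ) (c o : Fin 3) :
    ContDiff ℝ ∞ (fun x : E3 => FTlap N bn T (x c) (x o)) := by
  unfold FTlap
  apply ContDiff.sum
  intro i _
  apply ContDiff.sum
  intro j _
  apply ContDiff.add
  · exact (contDiff_lift (iteratedDeriv_contDiff (pP_contDiff hN (hle i)) 2) c).mul
      (contDiff_lift (pQ_contDiff hN (hle j) _ _) o)
  · exact (contDiff_lift (pP_contDiff hN (hle i)) c).mul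
      (contDiff_lift (iteratedDeriv_contDiff (pQ_contDiff hN (hle j) _ _) 2) o)

omit hbn in
theorem FT_lap (T : ι → ι → ℚ × ℚ) {c o : Fin 3} (hco : c ≠ o) (x : E3) :
    lap3 (fun x : E3 => FT N bn T (x c) (x o)) x = FTlap N bn T (x c) (x o) := by
  unfold FT FTlap
  rw [lap3_sum]
  · apply Finset.sum_congr rfl
    intro i _
    rw [lap3_sum]
    · apply Finset.sum_congr rfl
      intro j _
      exact lap3_prod (pP_contDiff hN (hle i)) (pQ_contDiff hN (hle j) _ _) hco x
    · intro j
      exact (contDiff_lift (pP_contDiff hN (hle i)) c).mul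
        (contDiff_lift (pQ_contDiff hN (hle j) _ _) o)
  · intro i
    apply ContDiff.sum
    intro j _
    exact (contDiff_lift (pP_contDiff hN (hle i)) c).mul
      (contDiff_lift (pQ_contDiff hN (hle j) _ _) o)

omit hN hbn hle in
theorem FT_per1 (T : ι → ι → ℚ × ℚ) (s t : ℝ) : FT N bn T (s + 1) t = FT N bn T s t := by
  unfold FT pP
  simp only [per_add_one]

omit hN hbn hle in
theorem FT_per2 (T : ι → ι → ℚ × ℚ) (s t : ℝ) : FT N bn T s (t + 1) = FT N bn T s t := by
  unfold FT pQ
  simp only [per_add_one]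

omit hbn in
theorem FTlap_per1 (T : ι → ι → ℚ × ℚ) (s t : ℝ) :
    FTlap N bn T (s + 1) t = FTlap N bn T s t := by
  unfold FTlap
  apply Finset.sum_congr rfl
  intro i _
  apply Finset.sum_congr rfl
  intro j _
  have h1 : iteratedDeriv 2 (pP N (bn i)) (s + 1) = iteratedDeriv 2 (pP N (bn i)) s :=
    iteratedDeriv_per_add_one (plat_supp hN (hle i)) 2 s
  have h2 : pP N (bn i) (s + 1) = pP N (bn i) s := per_add_one _ _
  rw [h1, h2]

omit hbn in
theorem FTlap_per2 (T : ι → ι → ℚ × ℚ) (s t : ℝ) :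
    FTlap N bn T s (t + 1) = FTlap N bn T s t := by
  unfold FTlap
  apply Finset.sum_congr rfl
  intro i _
  apply Finset.sum_congr rfl
  intro j _
  have h1 : iteratedDeriv 2 (pQ N (bn j) (T i j).1 (T i j).2) (t + 1)
      = iteratedDeriv 2 (pQ N (bn j) (T i j).1 (T i j).2) t :=
    iteratedDeriv_per_add_one (platAff_supp hN (hle j) _ _) 2 t
  have h2 : pQ N (bn j) (T i j).1 (T i j).2 (t + 1) = pQ N (bn j) (T i j).1 (T i j).2 t :=
    per_add_one _ _
  rw [h1, h2]

omit hbn in
theorem haltShear_good (fl : ι → Bool) : (haltShear N bn fl).Good where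
  smooth_g := by
    unfold haltShear
    apply ContDiff.sum
    intro i _
    exact contDiff_const.mul (contDiff_lift (pP_contDiff hN (hle i)) 0)
  smooth_lap := by
    unfold haltShear
    apply ContDiff.sum
    intro i _
    exact contDiff_const.mul (contDiff_lift (iteratedDeriv_contDiff (pP_contDiff hN (hle i)) 2) 0)
  per_g := by
    intro x k
    unfold haltShear
    apply Finset.sum_congr rfl
    intro i _
    rw [lift_periodic (a := pP N (bn i)) (per_add_one _) x k 0]
  per_lap := by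
    intro x k
    unfold haltShear
    apply Finset.sum_congr rfl
    intro i _
    rw [lift_periodic (a := iteratedDeriv 2 (pP N (bn i)))
      (iteratedDeriv_per_add_one (plat_supp hN (hle i)) 2) x k 0]
  indep := by
    intro x r
    unfold haltShear
    simp
  lap_eq := by
    intro x
    change lap3 (fun x : E3 => ∑ i, (if fl i then (1 / 2 : ℝ) else 0) * pP N (bn i) (x 0)) x
      = ∑ i, (if fl i then (1 / 2 : ℝ) else 0) * iteratedDeriv 2 (pP N (bn i)) (x 0)
    rw [lap3_sum]
    · apply Finset.sum_congr rfl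
      intro i _
      rw [lap3_const_mul (contDiff_lift (pP_contDiff hN (hle i)) 0),
        lap3_single (pP_contDiff hN (hle i))]
    · intro i
      exact contDiff_const.mul (contDiff_lift (pP_contDiff hN (hle i)) 0)

omit hbn in
theorem shearA_good (ctl own : Fin 3) (hco : ctl ≠ own) (hc2 : ctl ≠ 2) (ho2 : own ≠ 2)
    (T : ι → ι → ℚ × ℚ) :
    Shear.Good ⟨2, fun x => FT N bn T (x ctl) (x own), fun x => FTlap N bn T (x ctl) (x own)⟩ where
  smooth_g := FT_contDiff hN hle T ctl own
  smooth_lap := FTlap_contDiff hN hle T ctl own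
  per_g := per_lift2 (FT_per1 T) (FT_per2 T) ctl own
  per_lap := per_lift2 (FTlap_per1 hN hle T) (FTlap_per2 hN hle T) ctl own
  indep := by
    intro x r
    change FT N bn T (Function.update x 2 r ctl) (Function.update x 2 r own)
      = FT N bn T (x ctl) (x own)
    rw [Function.update_of_ne hc2, Function.update_of_ne ho2]
  lap_eq := by
    intro x
    change lap3 (fun x : E3 => FT N bn T (x ctl) (x own)) x = FTlap N bn T (x ctl) (x own)
    exact FT_lap hN hle T hco x

omit hbn in
theorem shearB_good (ctl own : Fin 3) (hco : ctl ≠ own) (hc2 : ctl ≠ 2) (ho2 : own ≠ 2)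
    (T' : ι → ι → ℚ × ℚ) :
    Shear.Good ⟨own, fun x => pL (x 2) - FT N bn T' (x ctl) (x 2),
      fun x => iteratedDeriv 2 pL (x 2) - FTlap N bn T' (x ctl) (x 2)⟩ where
  smooth_g := (contDiff_lift pL_contDiff 2).sub (FT_contDiff hN hle T' ctl 2)
  smooth_lap := (contDiff_lift (iteratedDeriv_contDiff pL_contDiff 2) 2).sub
    (FTlap_contDiff hN hle T' ctl 2)
  per_g := (per_lift (a := pL) (per_add_one _) 2).sub' (per_lift2 (FT_per1 T') (FT_per2 T') ctl 2)
  per_lap := (per_lift (a := iteratedDeriv 2 pL) (iteratedDeriv_per_add_one lam0_supp 2) 2).sub'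
    (per_lift2 (FTlap_per1 hN hle T') (FTlap_per2 hN hle T') ctl 2)
  indep := by
    intro x r
    change pL (Function.update x own r 2)
        - FT N bn T' (Function.update x own r ctl) (Function.update x own r 2)
      = pL (x 2) - FT N bn T' (x ctl) (x 2)
    rw [Function.update_of_ne hco, Function.update_of_ne (Ne.symm ho2)]
  lap_eq := by
    intro x
    change lap3 (fun x : E3 => pL (x 2) - FT N bn T' (x ctl) (x 2)) x
      = iteratedDeriv 2 pL (x 2) - FTlap N bn T' (x ctl) (x 2)
    rw [lap3_sub (contDiff_lift pL_contDiff 2) (FT_contDiff hN hle T' ctl 2),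
      lap3_single pL_contDiff, FT_lap hN hle T' hc2]

omit hN hbn hle in
theorem shearC_good (own : Fin 3) (ho2 : own ≠ 2) :
    Shear.Good ⟨2, fun x => - pL (x own), fun x => - iteratedDeriv 2 pL (x own)⟩ where
  smooth_g := (contDiff_lift pL_contDiff own).neg
  smooth_lap := (contDiff_lift (iteratedDeriv_contDiff pL_contDiff 2) own).neg
  per_g := (per_lift (a := pL) (per_add_one _) own).neg'
  per_lap := (per_lift (a := iteratedDeriv 2 pL) (iteratedDeriv_per_add_one lam0_supp 2) own).neg'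
  indep := by
    intro x r
    change - pL (Function.update x 2 r own) = - pL (x own)
    rw [Function.update_of_ne ho2]
  lap_eq := by
    intro x
    change lap3 (fun x : E3 => - pL (x own)) x = - iteratedDeriv 2 pL (x own)
    rw [lap3_neg, lap3_single pL_contDiff]

omit hbn in
theorem slotShear_good (ctl own : Fin 3) (hco : ctl ≠ own) (hc2 : ctl ≠ 2) (ho2 : own ≠ 2)
    (T T' : ι → ι → ℚ × ℚ) (k : ℕ) : (slotShear ctl own N bn T T' k).Good := by
  rcases k with _ | _ | k
  · exact shearA_good hN hle ctl own hco hc2 ho2 T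
  · exact shearB_good hN hle ctl own hco hc2 ho2 T'
  · exact shearC_good own ho2

theorem sched_good (fl : ι → Bool) (T1 T1' T2 T2' T3 T3' : ι → ι → ℚ × ℚ) (j : ℕ) :
    (sched N bn fl T1 T1' T2 T2' T3 T3' j).Good := by
  unfold sched
  split_ifs
  · exact haltShear_good hN hle fl
  · exact slotShear_good hN hle 0 1 (by decide) (by decide) (by decide) T1 T1' _
  · exact slotShear_good hN hle 1 0 (by decide) (by decide) (by decide) T2 T2' _
  · exact slotShear_good hN hle 0 1 (by decide) (by decide) (by decide) T3 T3' _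

/-- The three shears of a slot. -/
theorem slot_run (ctl own : Fin 3) (hco : ctl ≠ own) (hc2 : ctl ≠ 2) (ho2 : own ≠ 2)
    (T T' : ι → ι → ℚ × ℚ) {i j j' : ι} {x : E3} {y' : ℝ} (hz : x 2 = 0)
    (hx : x ctl ∈ Blk N (bn i)) (hy : x own ∈ Blk N (bn j)) (hy' : y' ∈ Blk N (bn j'))
    (hT : ((T i j).1 : ℝ) * x own + ((T i j).2 : ℝ) = y')
    (hT' : ((T' i j').1 : ℝ) * y' + ((T' i j').2 : ℝ) = x own) :
    shearMap (slotShear ctl own N bn T T' 0) x = Function.update x 2 y' ∧
    shearMap (slotShear ctl own N bn T T' 1) (Function.update x 2 y')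
      = Function.update (Function.update x 2 y') own y' ∧
    shearMap (slotShear ctl own N bn T T' 2) (Function.update (Function.update x 2 y') own y')
      = Function.update x own y' := by
  have hb := Blk_bounds hN (hle j') hy'
  refine ⟨?_, ?_, ?_⟩
  · change x + Pi.single 2 (FT N bn T (x ctl) (x own)) = Function.update x 2 y'
    rw [FT_eq hN hbn hle T hx hy, hT]
    funext k
    by_cases hk : k = 2
    · subst hk; simp [hz]
    · simp [hk]
  · change Function.update x 2 y' + Pi.single own (pL (Function.update x 2 y' 2)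
        - FT N bn T' (Function.update x 2 y' ctl) (Function.update x 2 y' 2))
      = Function.update (Function.update x 2 y') own y'
    rw [Function.update_self, Function.update_of_ne hc2, FT_eq hN hbn hle T' hx hy', hT',
      pL_eq hb.1 (by linarith [hb.2])]
    funext k
    by_cases hk : k = own
    · subst hk; simp [ho2]
    · simp [hk]
  · change Function.update (Function.update x 2 y') own y'
        + Pi.single 2 (- pL (Function.update (Function.update x 2 y') own y' own))
      = Function.update x own y'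
    rw [Function.update_self, pL_eq hb.1 (by linarith [hb.2])]
    funext k
    by_cases hk : k = 2
    · subst hk; simp [Ne.symm ho2, hz]
    · by_cases hk2 : k = own
      · subst hk2; simp [hk]
      · simp [hk, hk2]

end

end Vale.Agent.P113
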