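import Vale.Agent.P113.Code
import Vale.Agent.P113.ToolsLemmas

namespace Vale.Agent.P113

open Set

variable {Γ Λ : Type} [Fintype Γ] [Fintype Λ] [DecidableEq Γ] [DecidableEq Λ] [Inhabited Γ]

theorem dig_blank : dig (blank : Sym Γ Λ) = 0 := by simp [dig]

theorem dig_le (s : Sym Γ Λ) : dig s ≤ Fintype.card (Sym Γ Λ) := by
  unfold dig
  split_ifs
  · omega
  · have := (Fintype.equivFin (Sym Γ Λ) s).isLt
    omega

theorem dig_injective : Function.Injective (dig : Sym Γ Λ → ℕ) := by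
  intro s t h
  unfold dig at h
  by_cases h1 : s = blank
  · by_cases h2 : t = blank
    · rw [h1, h2]
    · rw [if_pos h1, if_neg h2] at h
      omega
  · by_cases h2 : t = blank
    · rw [if_neg h1, if_pos h2] at h
      omega
    · rw [if_neg h1, if_neg h2] at h
      have h3 : (Fintype.equivFin (Sym Γ Λ) s : ℕ) = (Fintype.equivFin (Sym Γ Λ) t : ℕ) := by
        omega
      exact (Fintype.equivFin (Sym Γ Λ)).injective (Fin.ext h3)

theorem four_dig_le (s : Sym Γ Λ) : 4 * (dig s + 1) ≤ base Γ Λ := by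
  have := dig_le s
  unfold base
  omega

omit [DecidableEq Γ] [DecidableEq Λ] in
theorem base_ge : 8 ≤ base Γ Λ := by
  have : 0 < Fintype.card (Sym Γ Λ) := Fintype.card_pos_iff.2 ⟨blank⟩
  unfold base
  omega

omit [DecidableEq Γ] [DecidableEq Λ] in
theorem baseQ_pos : (0 : ℚ) < (base Γ Λ : ℚ) := by
  have := base_ge (Γ := Γ) (Λ := Λ)
  exact_mod_cast (by omega : 0 < base Γ Λ)

theorem encQ_nonneg (l : List (Sym Γ Λ)) : 0 ≤ encQ l := by
  induction l with
  | nil => simp [encQ]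
  | cons a l ih =>
    simp only [encQ]
    have := baseQ_pos (Γ := Γ) (Λ := Λ)
    positivity

theorem encQ_le (l : List (Sym Γ Λ)) : encQ l ≤ 1 / 4 := by
  induction l with
  | nil => simp [encQ]
  | cons a l ih =>
    simp only [encQ]
    have hB := baseQ_pos (Γ := Γ) (Λ := Λ)
    rw [div_le_iff₀ hB]
    have h1 : (4 : ℚ) * ((dig a : ℚ) + 1) ≤ (base Γ Λ : ℚ) := by exact_mod_cast four_dig_le a
    linarith

theorem encQ_append (p m : List (Sym Γ Λ)) :
    encQ (p ++ m) = encQ p + encQ m / (base Γ Λ : ℚ) ^ p.length := by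
  have hB := (baseQ_pos (Γ := Γ) (Λ := Λ)).ne'
  induction p with
  | nil => simp [encQ]
  | cons a p ih =>
    simp only [List.cons_append, encQ, ih, List.length_cons]
    field_simp
    ring

theorem encQ_take_drop (l : List (Sym Γ Λ)) (k : ℕ) (hk : k ≤ 3) :
    encQ l = encQ ([(win l).1, (win l).2.1, (win l).2.2].take k) +
      encQ (l.drop k) / (base Γ Λ : ℚ) ^ k := by
  have hB := (baseQ_pos (Γ := Γ) (Λ := Λ)).ne'
  rcases l with _ | ⟨a, _ | ⟨b, _ | ⟨c, t⟩⟩⟩ <;> interval_cases k <;>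
    simp [encQ, win, dig_blank] <;> (try field_simp) <;> (try ring)

theorem encQ_eq_zero (l : List (Sym Γ Λ)) (h : ∀ i, l.getD i blank = blank) : encQ l = 0 := by
  induction l with
  | nil => rfl
  | cons a l ih =>
    have h0 : a = blank := by simpa using h 0
    have h1 : ∀ i, l.getD i blank = blank := fun i => by simpa using h (i + 1)
    simp [encQ, h0, dig_blank, ih h1]

theorem encQ_congr {l l' : List (Sym Γ Λ)} (h : SEq l l') : encQ l = encQ l' := by
  induction l generalizing l' with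
  | nil =>
    rw [encQ_eq_zero l' (fun i => by simpa using (h i).symm)]
    rfl
  | cons a l ih =>
    cases l' with
    | nil =>
      rw [encQ_eq_zero (a :: l) (fun i => by simpa using h i)]
      rfl
    | cons b l' =>
      have h0 : a = b := by simpa using h 0
      have h1 : SEq l l' := fun i => by simpa using h (i + 1)
      simp [encQ, h0, ih h1]

theorem encQ_applyOp (op : Op Γ Λ) (l : List (Sym Γ Λ)) (hop : op.1 ≤ 3) :
    encQ (applyOp op l) = (aff (win l) op).1 * encQ l + (aff (win l) op).2 := by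
  have hB := (baseQ_pos (Γ := Γ) (Λ := Λ)).ne'
  have h1 := encQ_take_drop l op.1 hop
  unfold applyOp aff
  rw [encQ_append]
  simp only
  have h2 : encQ (l.drop op.1) = (base Γ Λ : ℚ) ^ op.1 *
      (encQ l - encQ ([(win l).1, (win l).2.1, (win l).2.2].take op.1)) := by
    rw [h1]
    field_simp
    ring
  rw [h2]
  field_simp
  ring

theorem encQ_win (w : Win Γ Λ) :
    encQ [w.1, w.2.1, w.2.2] = (bn w : ℚ) / (base Γ Λ : ℚ) ^ 3 := by
  have hB := (baseQ_pos (Γ := Γ) (Λ := Λ)).ne'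
  simp only [encQ, bn]
  push_cast
  field_simp
  ring

theorem enc_nonneg (l : List (Sym Γ Λ)) : 0 ≤ enc l := by
  unfold enc
  exact_mod_cast encQ_nonneg l

theorem enc_le (l : List (Sym Γ Λ)) : enc l ≤ 1 / 4 := by
  unfold enc
  have h : ((encQ l : ℚ) : ℝ) ≤ ((1 / 4 : ℚ) : ℝ) := by exact_mod_cast encQ_le l
  push_cast at h
  exact h

theorem enc_mem_blk (l : List (Sym Γ Λ)) : enc l ∈ Blk (base Γ Λ ^ 3) (bn (win l)) := by
  have hB := baseQ_pos (Γ := Γ) (Λ := Λ)
  have h1 := encQ_take_drop l 3 le_rfl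
  simp only [List.take_succ_cons, List.take_zero] at h1
  have h1' : encQ l = (bn (win l) : ℚ) / (base Γ Λ : ℚ) ^ 3 +
      encQ (l.drop 3) / (base Γ Λ : ℚ) ^ 3 := by
    rw [← encQ_win]; simpa using h1
  have h2 := encQ_nonneg (l.drop 3)
  have h3 := encQ_le (l.drop 3)
  have hlo : (bn (win l) : ℚ) / (base Γ Λ : ℚ) ^ 3 ≤ encQ l := by
    rw [h1']
    have : 0 ≤ encQ (l.drop 3) / (base Γ Λ : ℚ) ^ 3 := by positivity
    linarith
  have hhi : encQ l ≤ (bn (win l) : ℚ) / (base Γ Λ : ℚ) ^ 3 + 1 / (4 * (base Γ Λ : ℚ) ^ 3) := by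
    rw [h1']
    have : encQ (l.drop 3) / (base Γ Λ : ℚ) ^ 3 ≤ 1 / (4 * (base Γ Λ : ℚ) ^ 3) := by
      rw [div_le_div_iff₀ (by positivity) (by positivity)]
      have : 0 < (base Γ Λ : ℚ) ^ 3 := by positivity
      nlinarith
    linarith
  unfold Blk enc
  constructor
  · have : (((bn (win l) : ℚ) / (base Γ Λ : ℚ) ^ 3 : ℚ) : ℝ) ≤ ((encQ l : ℚ) : ℝ) := by
      exact_mod_cast hlo
    push_cast at this ⊢
    exact this
  · have : ((encQ l : ℚ) : ℝ) ≤
        (((bn (win l) : ℚ) / (base Γ Λ : ℚ) ^ 3 + 1 / (4 * (base Γ Λ : ℚ) ^ 3) : ℚ) : ℝ) := by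
      exact_mod_cast hhi
    push_cast at this ⊢
    exact this

end Vale.Agent.P113
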