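import Vale.Agent.P113.Code
import Vale.Agent.P113.ToolsLemmas
import Vale.Agent.P113.CodingAux

namespace Vale.Agent.P113

open Set

variable {Γ Λ : Type} [Fintype Γ] [Fintype Λ] [DecidableEq Γ] [DecidableEq Λ] [Inhabited Γ]

/-- the box in which the particle stays while the machine has not halted. -/
def Box : Set E3 := {x | ∀ i, 0 ≤ x i ∧ x i ≤ 1 / 4}

theorem bn_le (w : Win Γ Λ) : 4 * bn w ≤ base Γ Λ ^ 3 := by
  have h1 := four_dig_le w.1
  have h2 := four_dig_le w.2.1
  have h3 := four_dig_le w.2.2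
  unfold bn
  generalize base Γ Λ = B at *
  generalize dig w.1 = a at *
  generalize dig w.2.1 = b at *
  generalize dig w.2.2 = c at *
  have e1 : 4 * (a + 1) * B ^ 2 ≤ B * B ^ 2 := Nat.mul_le_mul_right _ h1
  have e2 : 4 * (b + 1) * B ≤ B * B := Nat.mul_le_mul_right _ h2
  nlinarith

theorem digits_inj {B a b c a' b' c' : ℕ} (hb : b < B) (hc : c < B)
    (hb' : b' < B) (hc' : c' < B) (h : a * B ^ 2 + b * B + c = a' * B ^ 2 + b' * B + c') :
    a = a' ∧ b = b' ∧ c = c' := by
  have hB : 0 < B := by omega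
  have h1 : c + B * (a * B + b) = c' + B * (a' * B + b') := by nlinarith
  have hcc : c = c' := by
    have := congrArg (· % B) h1
    simpa [Nat.add_mul_mod_self_left, Nat.mod_eq_of_lt hc, Nat.mod_eq_of_lt hc'] using this
  subst hcc
  have h2 : b + B * a = b' + B * a' := by
    have : B * (a * B + b) = B * (a' * B + b') := by omega
    have := Nat.eq_of_mul_eq_mul_left hB this
    nlinarith
  have hbb : b = b' := by
    have := congrArg (· % B) h2
    simpa [Nat.add_mul_mod_self_left, Nat.mod_eq_of_lt hb, Nat.mod_eq_of_lt hb'] using this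
  subst hbb
  have h3 : B * a = B * a' := by omega
  exact ⟨Nat.eq_of_mul_eq_mul_left hB h3, rfl, rfl⟩

theorem dig_lt (s : Sym Γ Λ) : dig s < base Γ Λ := by
  have := four_dig_le s
  omega

theorem bn_injective : Function.Injective (bn : Win Γ Λ → ℕ) := by
  intro w w' h
  unfold bn at h
  obtain ⟨h1, h2, h3⟩ := digits_inj (dig_lt _) (dig_lt _) (dig_lt _) (dig_lt _) h
  exact Prod.ext (dig_injective h1) (Prod.ext (dig_injective h2) (dig_injective h3))

omit [DecidableEq Γ] [DecidableEq Λ] in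
theorem base3_ge : 8 ≤ base Γ Λ ^ 3 := by
  have h := base_ge (Γ := Γ) (Λ := Λ)
  calc 8 ≤ base Γ Λ := h
    _ = base Γ Λ ^ 1 := (pow_one _).symm
    _ ≤ base Γ Λ ^ 3 := Nat.pow_le_pow_right (by omega) (by omega)

theorem schedOf_good (M : GTM Γ Λ) (j : ℕ) : (schedOf M j).Good :=
  sched_good base3_ge bn_injective bn_le _ _ _ _ _ _ _ j

theorem vec_mem_box {a b c : ℝ} (ha : 0 ≤ a ∧ a ≤ 1 / 4) (hb : 0 ≤ b ∧ b ≤ 1 / 4)
    (hc : 0 ≤ c ∧ c ≤ 1 / 4) : (![a, b, c] : E3) ∈ Box := by
  intro i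
  fin_cases i
  · exact ha
  · exact hb
  · exact hc

theorem enc_box (l : List (Sym Γ Λ)) : 0 ≤ enc l ∧ enc l ≤ 1 / 4 := ⟨enc_nonneg l, enc_le l⟩

theorem pt_mem_box (p : List (Sym Γ Λ) × List (Sym Γ Λ)) : pt p ∈ Box :=
  vec_mem_box (enc_box _) (enc_box _) ⟨le_rfl, by norm_num⟩

theorem enc_applyOp (op : Op Γ Λ) (l : List (Sym Γ Λ)) (hop : op.1 ≤ 3) :
    (((aff (win l) op).1 : ℚ) : ℝ) * enc l + (((aff (win l) op).2 : ℚ) : ℝ) = enc (applyOp op l) := by
  unfold enc
  rw [encQ_applyOp op l hop]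
  push_cast
  ring

theorem enc_congr {l l' : List (Sym Γ Λ)} (h : SEq l l') : enc l = enc l' := by
  unfold enc
  rw [encQ_congr h]

/-- a slot acting on the second stack. -/
theorem slotY (f f' : Win Γ Λ → Win Γ Λ → Op Γ Λ) (hf : ∀ a b, (f a b).1 ≤ 3)
    (hf' : ∀ a b, (f' a b).1 ≤ 3) (X Y : List (Sym Γ Λ))
    (hok : SEq (applyOp (f' (win X) (win (applyOp (f (win X) (win Y)) Y)))
      (applyOp (f (win X) (win Y)) Y)) Y) :
    shearMap (slotShear 0 1 (base Γ Λ ^ 3) bn (tab f) (tab f') 0) ![enc X, enc Y, 0]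
      = ![enc X, enc Y, enc (applyOp (f (win X) (win Y)) Y)] ∧
    shearMap (slotShear 0 1 (base Γ Λ ^ 3) bn (tab f) (tab f') 1)
        ![enc X, enc Y, enc (applyOp (f (win X) (win Y)) Y)]
      = ![enc X, enc (applyOp (f (win X) (win Y)) Y), enc (applyOp (f (win X) (win Y)) Y)] ∧
    shearMap (slotShear 0 1 (base Γ Λ ^ 3) bn (tab f) (tab f') 2)
        ![enc X, enc (applyOp (f (win X) (win Y)) Y), enc (applyOp (f (win X) (win Y)) Y)]
      = ![enc X, enc (applyOp (f (win X) (win Y)) Y), 0] := by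
  set Y' := applyOp (f (win X) (win Y)) Y with hY'
  have key := slot_run (N := base Γ Λ ^ 3) (bn := (bn : Win Γ Λ → ℕ)) base3_ge bn_injective bn_le
    0 1 (by decide) (by decide) (by decide) (tab f) (tab f')
    (i := win X) (j := win Y) (j' := win Y') (x := ![enc X, enc Y, 0]) (y' := enc Y')
    rfl (enc_mem_blk X) (enc_mem_blk Y) (enc_mem_blk Y')
    (enc_applyOp _ Y (hf _ _))
    (by
      have h1 := enc_applyOp (f' (win X) (win Y')) Y' (hf' _ _)
      rw [enc_congr hok] at h1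
      exact h1)
  have u1 : Function.update (![enc X, enc Y, 0] : E3) 2 (enc Y') = ![enc X, enc Y, enc Y'] := by
    ext i; fin_cases i <;> simp [Function.update]
  have u2 : Function.update (![enc X, enc Y, enc Y'] : E3) 1 (enc Y')
      = ![enc X, enc Y', enc Y'] := by
    ext i; fin_cases i <;> simp [Function.update]
  have u3 : Function.update (![enc X, enc Y, 0] : E3) 1 (enc Y') = ![enc X, enc Y', 0] := by
    ext i; fin_cases i <;> simp [Function.update]
  rw [u1, u2, u3] at key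
  exact key

/-- a slot acting on the first stack. -/
theorem slotX (f f' : Win Γ Λ → Win Γ Λ → Op Γ Λ) (hf : ∀ a b, (f a b).1 ≤ 3)
    (hf' : ∀ a b, (f' a b).1 ≤ 3) (X Y : List (Sym Γ Λ))
    (hok : SEq (applyOp (f' (win Y) (win (applyOp (f (win Y) (win X)) X)))
      (applyOp (f (win Y) (win X)) X)) X) :
    shearMap (slotShear 1 0 (base Γ Λ ^ 3) bn (tab f) (tab f') 0) ![enc X, enc Y, 0]
      = ![enc X, enc Y, enc (applyOp (f (win Y) (win X)) X)] ∧
    shearMap (slotShear 1 0 (base Γ Λ ^ 3) bn (tab f) (tab f') 1)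
        ![enc X, enc Y, enc (applyOp (f (win Y) (win X)) X)]
      = ![enc (applyOp (f (win Y) (win X)) X), enc Y, enc (applyOp (f (win Y) (win X)) X)] ∧
    shearMap (slotShear 1 0 (base Γ Λ ^ 3) bn (tab f) (tab f') 2)
        ![enc (applyOp (f (win Y) (win X)) X), enc Y, enc (applyOp (f (win Y) (win X)) X)]
      = ![enc (applyOp (f (win Y) (win X)) X), enc Y, 0] := by
  set X' := applyOp (f (win Y) (win X)) X with hX'
  have key := slot_run (N := base Γ Λ ^ 3) (bn := (bn : Win Γ Λ → ℕ)) base3_ge bn_injective bn_le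
    1 0 (by decide) (by decide) (by decide) (tab f) (tab f')
    (i := win Y) (j := win X) (j' := win X') (x := ![enc X, enc Y, 0]) (y' := enc X')
    rfl (enc_mem_blk Y) (enc_mem_blk X) (enc_mem_blk X')
    (enc_applyOp _ X (hf _ _))
    (by
      have h1 := enc_applyOp (f' (win Y) (win X')) X' (hf' _ _)
      rw [enc_congr hok] at h1
      exact h1)
  have u1 : Function.update (![enc X, enc Y, 0] : E3) 2 (enc X') = ![enc X, enc Y, enc X'] := by
    ext i; fin_cases i <;> simp [Function.update]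
  have u2 : Function.update (![enc X, enc Y, enc X'] : E3) 0 (enc X')
      = ![enc X', enc Y, enc X'] := by
    ext i; fin_cases i <;> simp [Function.update]
  have u3 : Function.update (![enc X, enc Y, 0] : E3) 0 (enc X') = ![enc X', enc Y, 0] := by
    ext i; fin_cases i <;> simp [Function.update]
  rw [u1, u2, u3] at key
  exact key

omit [Fintype Γ] [Fintype Λ] [DecidableEq Γ] [DecidableEq Λ] [Inhabited Γ] in
theorem fwd1_le (M : GTM Γ Λ) (a b : Win Γ Λ) : (fwd1 M a b).1 ≤ 3 := by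
  unfold fwd1
  split
  · split <;> simp
  · simp
  · simp

omit [Fintype Γ] [Fintype Λ] [DecidableEq Γ] [DecidableEq Λ] [Inhabited Γ] in
theorem bwd1_le (M : GTM Γ Λ) (a b : Win Γ Λ) : (bwd1 M a b).1 ≤ 3 := by
  unfold bwd1 fwd1
  split
  · split <;> simp
  · simp
  · simp

omit [Fintype Γ] [Fintype Λ] [DecidableEq Γ] [DecidableEq Λ] [Inhabited Γ] in
theorem fwd2_le (M : GTM Γ Λ) (a b : Win Γ Λ) : (fwd2 M a b).1 ≤ 3 := by
  unfold fwd2
  split
  · split <;> simp
  all_goals simp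

omit [Fintype Γ] [Fintype Λ] [DecidableEq Γ] [DecidableEq Λ] [Inhabited Γ] in
theorem bwd2_le (M : GTM Γ Λ) (a b : Win Γ Λ) : (bwd2 M a b).1 ≤ 3 := by
  unfold bwd2
  split
  · split <;> simp
  · split <;> simp
  · split <;> simp
  all_goals simp

omit [Fintype Γ] [Fintype Λ] [DecidableEq Γ] [DecidableEq Λ] [Inhabited Γ] in
theorem fwd3_le (M : GTM Γ Λ) (a b : Win Γ Λ) : (fwd3 M a b).1 ≤ 3 := by
  unfold fwd3
  split <;> simp

omit [Fintype Γ] [Fintype Λ] [DecidableEq Γ] [DecidableEq Λ] [Inhabited Γ] in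
theorem bwd3_le (M : GTM Γ Λ) (a b : Win Γ Λ) : (bwd3 M a b).1 ≤ 3 := by
  unfold bwd3
  split <;> simp

theorem halt_g (M : GTM Γ Λ) (p : List (Sym Γ Λ) × List (Sym Γ Λ)) :
    (schedOf M 0).g (pt p) = if flag M (win p.1) then 1 / 2 else 0 := by
  have h : schedOf M 0 = haltShear (base Γ Λ ^ 3) bn (flag M) := by
    simp [schedOf, sched]
  rw [h]
  exact haltShear_g_eq base3_ge bn_injective bn_le (flag M) (i := win p.1) (x := pt p)
    (enc_mem_blk p.1)

theorem halt_dir (M : GTM Γ Λ) : (schedOf M 0).dir = 2 := by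
  simp [schedOf, sched, haltShear]

/-- one period without halting flag. -/
theorem run_period (M : GTM Γ Λ) (p : List (Sym Γ Λ) × List (Sym Γ Λ))
    (hf : flag M (win p.1) = false) (hok : SlotsOK M p) :
    runShears (schedOf M) 10 (pt p) = pt (periodMap M p) ∧
      ∀ k ≤ 10, runShears (schedOf M) k (pt p) ∈ Box := by
  obtain ⟨X, Y⟩ := p
  obtain ⟨ok1, ok2, ok3⟩ := hok
  obtain ⟨a1, a2, a3⟩ := slotY (fwd1 M) (bwd1 M) (fwd1_le M) (bwd1_le M) X Y ok1
  obtain ⟨b1, b2, b3⟩ := slotX (fwd2 M) (bwd2 M) (fwd2_le M) (bwd2_le M) X (slot1 M (X, Y)).2 ok2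
  obtain ⟨c1, c2, c3⟩ := slotY (fwd3 M) (bwd3 M) (fwd3_le M) (bwd3_le M)
    (slot2 M (slot1 M (X, Y))).1 (slot2 M (slot1 M (X, Y))).2 ok3
  have s1 : schedOf M 1 = slotShear 0 1 (base Γ Λ ^ 3) bn (tab (fwd1 M)) (tab (bwd1 M)) 0 := by
    simp [schedOf, sched]
  have s2 : schedOf M 2 = slotShear 0 1 (base Γ Λ ^ 3) bn (tab (fwd1 M)) (tab (bwd1 M)) 1 := by
    simp [schedOf, sched]
  have s3 : schedOf M 3 = slotShear 0 1 (base Γ Λ ^ 3) bn (tab (fwd1 M)) (tab (bwd1 M)) 2 := by
    simp [schedOf, sched]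
  have s4 : schedOf M 4 = slotShear 1 0 (base Γ Λ ^ 3) bn (tab (fwd2 M)) (tab (bwd2 M)) 0 := by
    simp [schedOf, sched]
  have s5 : schedOf M 5 = slotShear 1 0 (base Γ Λ ^ 3) bn (tab (fwd2 M)) (tab (bwd2 M)) 1 := by
    simp [schedOf, sched]
  have s6 : schedOf M 6 = slotShear 1 0 (base Γ Λ ^ 3) bn (tab (fwd2 M)) (tab (bwd2 M)) 2 := by
    simp [schedOf, sched]
  have s7 : schedOf M 7 = slotShear 0 1 (base Γ Λ ^ 3) bn (tab (fwd3 M)) (tab (bwd3 M)) 0 := by
    simp [schedOf, sched]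
  have s8 : schedOf M 8 = slotShear 0 1 (base Γ Λ ^ 3) bn (tab (fwd3 M)) (tab (bwd3 M)) 1 := by
    simp [schedOf, sched]
  have s9 : schedOf M 9 = slotShear 0 1 (base Γ Λ ^ 3) bn (tab (fwd3 M)) (tab (bwd3 M)) 2 := by
    simp [schedOf, sched]
  have r0 : runShears (schedOf M) 0 (pt (X, Y)) = ![enc X, enc Y, 0] := rfl
  have r1 : runShears (schedOf M) 1 (pt (X, Y)) = ![enc X, enc Y, 0] := by
    show shearMap (schedOf M 0) (runShears (schedOf M) 0 (pt (X, Y))) = _
    rw [r0]
    unfold shearMap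
    have := halt_g M (X, Y)
    rw [hf] at this
    have h2 : (schedOf M 0).g ![enc X, enc Y, 0] = 0 := by simpa [pt] using this
    rw [h2]
    simp
  have r2 : runShears (schedOf M) 2 (pt (X, Y)) =
      ![enc X, enc Y, enc (slot1 M (X, Y)).2] := by
    show shearMap (schedOf M 1) (runShears (schedOf M) 1 (pt (X, Y))) = _
    rw [r1, s1]; exact a1
  have r3 : runShears (schedOf M) 3 (pt (X, Y)) =
      ![enc X, enc (slot1 M (X, Y)).2, enc (slot1 M (X, Y)).2] := by
    show shearMap (schedOf M 2) (runShears (schedOf M) 2 (pt (X, Y))) = _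
    rw [r2, s2]; exact a2
  have r4 : runShears (schedOf M) 4 (pt (X, Y)) =
      ![enc X, enc (slot1 M (X, Y)).2, 0] := by
    show shearMap (schedOf M 3) (runShears (schedOf M) 3 (pt (X, Y))) = _
    rw [r3, s3]; exact a3
  have r5 : runShears (schedOf M) 5 (pt (X, Y)) =
      ![enc X, enc (slot1 M (X, Y)).2, enc (slot2 M (slot1 M (X, Y))).1] := by
    show shearMap (schedOf M 4) (runShears (schedOf M) 4 (pt (X, Y))) = _
    rw [r4, s4]; exact b1
  have r6 : runShears (schedOf M) 6 (pt (X, Y)) =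
      ![enc (slot2 M (slot1 M (X, Y))).1, enc (slot1 M (X, Y)).2, enc (slot2 M (slot1 M (X, Y))).1] := by
    show shearMap (schedOf M 5) (runShears (schedOf M) 5 (pt (X, Y))) = _
    rw [r5, s5]; exact b2
  have r7 : runShears (schedOf M) 7 (pt (X, Y)) =
      ![enc (slot2 M (slot1 M (X, Y))).1, enc (slot1 M (X, Y)).2, 0] := by
    show shearMap (schedOf M 6) (runShears (schedOf M) 6 (pt (X, Y))) = _
    rw [r6, s6]; exact b3
  have r8 : runShears (schedOf M) 8 (pt (X, Y)) =
      ![enc (slot2 M (slot1 M (X, Y))).1, enc (slot1 M (X, Y)).2, enc (periodMap M (X, Y)).2] := by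
    show shearMap (schedOf M 7) (runShears (schedOf M) 7 (pt (X, Y))) = _
    rw [r7, s7]; exact c1
  have r9 : runShears (schedOf M) 9 (pt (X, Y)) =
      ![enc (slot2 M (slot1 M (X, Y))).1, enc (periodMap M (X, Y)).2, enc (periodMap M (X, Y)).2] := by
    show shearMap (schedOf M 8) (runShears (schedOf M) 8 (pt (X, Y))) = _
    rw [r8, s8]; exact c2
  have r10 : runShears (schedOf M) 10 (pt (X, Y)) =
      ![enc (slot2 M (slot1 M (X, Y))).1, enc (periodMap M (X, Y)).2, 0] := by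
    show shearMap (schedOf M 9) (runShears (schedOf M) 9 (pt (X, Y))) = _
    rw [r9, s9]; exact c3
  have z : (0 : ℝ) ≤ 0 ∧ (0 : ℝ) ≤ 1 / 4 := ⟨le_rfl, by norm_num⟩
  refine ⟨r10, ?_⟩
  intro k hk
  interval_cases k
  · rw [r0]; exact vec_mem_box (enc_box _) (enc_box _) z
  · rw [r1]; exact vec_mem_box (enc_box _) (enc_box _) z
  · rw [r2]; exact vec_mem_box (enc_box _) (enc_box _) (enc_box _)
  · rw [r3]; exact vec_mem_box (enc_box _) (enc_box _) (enc_box _)
  · rw [r4]; exact vec_mem_box (enc_box _) (enc_box _) z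
  · rw [r5]; exact vec_mem_box (enc_box _) (enc_box _) (enc_box _)
  · rw [r6]; exact vec_mem_box (enc_box _) (enc_box _) (enc_box _)
  · rw [r7]; exact vec_mem_box (enc_box _) (enc_box _) z
  · rw [r8]; exact vec_mem_box (enc_box _) (enc_box _) (enc_box _)
  · rw [r9]; exact vec_mem_box (enc_box _) (enc_box _) (enc_box _)
  · rw [r10]; exact vec_mem_box (enc_box _) (enc_box _) z

/-- a period with halting flag: the first shear lifts the ancilla to `1/2`. -/
theorem run_flag (M : GTM Γ Λ) (p : List (Sym Γ Λ) × List (Sym Γ Λ))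
    (hf : flag M (win p.1) = true) : runShears (schedOf M) 1 (pt p) 2 = 1 / 2 := by
  show shearMap (schedOf M 0) (pt p) 2 = 1 / 2
  unfold shearMap
  rw [halt_g, hf, halt_dir]
  simp [pt]

/-- one step of the recursion computing the numerator of the code of a constant word. -/
def kstep (d B : ℕ) (s : ℕ × ℕ) : ℕ × ℕ := (d * s.2 + s.1, B * s.2)

theorem kstep_snd (d B n : ℕ) : ((kstep d B)^[n] (0, 1)).2 = B ^ n := by
  induction n with
  | zero => simp
  | succ n ih =>
    rw [Function.iterate_succ_apply']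
    simp only [kstep, ih]
    ring

theorem encQ_replicate (c : Sym Γ Λ) (n : ℕ) : encQ (List.replicate n c) =
    (((kstep (dig c) (base Γ Λ))^[n] (0, 1)).1 : ℚ) / (base Γ Λ : ℚ) ^ n := by
  have hB := (baseQ_pos (Γ := Γ) (Λ := Λ)).ne'
  induction n with
  | zero => simp [encQ]
  | succ n ih =>
    rw [Function.iterate_succ_apply', List.replicate_succ]
    simp only [encQ, ih, kstep, kstep_snd]
    push_cast
    field_simp
    ring

theorem kstep_primrec (d B : ℕ) : Primrec (fun n : ℕ => (kstep d B)^[n] (0, 1)) := by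
  have h : Primrec₂ (fun (_ : ℕ) (s : ℕ × ℕ) => kstep d B s) :=
    (Primrec.pair
      (Primrec.nat_add.comp
        (Primrec.nat_mul.comp (Primrec.const d) (Primrec.snd.comp Primrec.snd))
        (Primrec.fst.comp Primrec.snd))
      (Primrec.nat_mul.comp (Primrec.const B) (Primrec.snd.comp Primrec.snd))).to₂
  exact Primrec.nat_iterate Primrec.id (Primrec.const (0, 1)) h

/-- the kick amplitude is a computable rational. -/
theorem kick_computable (q0 : Λ) (A b : Γ) : ∃ cq : ℕ → ℕ × ℕ × ℕ, Computable cq ∧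
    ∀ n, qv (cq n) = enc (startStacks q0 (A :: List.replicate n b)).1 := by
  set B := base Γ Λ with hBdef
  set ds := dig (Sym.st q0 Mv.N : Sym Γ Λ) with hds
  set dA := dig (Sym.live A : Sym Γ Λ) with hdA
  set d := dig (Sym.live b : Sym Γ Λ) with hd
  have hk := kstep_primrec d B
  refine ⟨fun n => (ds * (B * ((kstep d B)^[n] (0, 1)).2) + dA * ((kstep d B)^[n] (0, 1)).2
    + ((kstep d B)^[n] (0, 1)).1, 0, B * B * ((kstep d B)^[n] (0, 1)).2 - 1), ?_, ?_⟩
  · apply Primrec.to_comp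
    refine Primrec.pair ?_ (Primrec.pair (Primrec.const 0) ?_)
    · exact Primrec.nat_add.comp
        (Primrec.nat_add.comp
          (Primrec.nat_mul.comp (Primrec.const ds)
            (Primrec.nat_mul.comp (Primrec.const B) (Primrec.snd.comp hk)))
          (Primrec.nat_mul.comp (Primrec.const dA) (Primrec.snd.comp hk)))
        (Primrec.fst.comp hk)
    · exact Primrec.nat_sub.comp
        (Primrec.nat_mul.comp (Primrec.const (B * B)) (Primrec.snd.comp hk)) (Primrec.const 1)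
  · intro n
    have hBq := baseQ_pos (Γ := Γ) (Λ := Λ)
    have hBpos : 0 < B := by
      have := base_ge (Γ := Γ) (Λ := Λ)
      omega
    have hpos : 1 ≤ B * B * B ^ n := Nat.succ_le_of_lt (by positivity)
    have hBr : (B : ℝ) ≠ 0 := by exact_mod_cast hBpos.ne'
    have e1 : (startStacks q0 (A :: List.replicate n b)).1
        = Sym.st q0 Mv.N :: Sym.live A :: List.replicate n (Sym.live b : Sym Γ Λ) := by
      simp [startStacks]
    rw [e1]
    unfold enc qv
    simp only [encQ, encQ_replicate, kstep_snd]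
    rw [← hBdef, ← hds, ← hdA, ← hd]
    push_cast [Nat.cast_sub hpos]
    field_simp
    ring

end Vale.Agent.P113
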