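import Mathlib

namespace Vale.Agent.P113

open Set MeasureTheory
open scoped ContDiff

/-- Points of the universal cover of the flat torus; fields on the torus are the
`1`-periodic fields on `E3`. -/
abbrev E3 : Type := Fin 3 → ℝ

/-- `g` is `1`-periodic in each of the three coordinates. -/
def Per {β : Type} (g : E3 → β) : Prop :=
  ∀ (x : E3) (k : Fin 3), g (x + Pi.single k 1) = g x

/-- Derivative of a scalar field in the coordinate direction `j`. -/
noncomputable def dx (j : Fin 3) (g : E3 → ℝ) (x : E3) : ℝ :=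
  fderiv ℝ g x (Pi.single j 1)

/-- The pair `u`, `p` is a classical solution on `[0, T]` of the forced incompressible
Navier-Stokes system on the flat torus, started from rest. -/
structure IsClassicalSol (ν : ℝ) (f : ℝ → E3 → E3) (T : ℝ)
    (u : ℝ → E3 → E3) (p : ℝ → E3 → ℝ) : Prop where
  per_u : ∀ t ∈ Icc (0 : ℝ) T, Per (u t)
  per_p : ∀ t ∈ Icc (0 : ℝ) T, Per (p t)
  diff_t : ∀ t ∈ Icc (0 : ℝ) T, ∀ x,
    DifferentiableWithinAt ℝ (fun s => u s x) (Icc (0 : ℝ) T) t
  c2_u : ∀ t ∈ Icc (0 : ℝ) T, ContDiff ℝ 2 (u t)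
  c1_p : ∀ t ∈ Icc (0 : ℝ) T, ContDiff ℝ 1 (p t)
  cont_u : ContinuousOn (fun z : ℝ × E3 => u z.1 z.2) (Icc (0 : ℝ) T ×ˢ univ)
  cont_ut : ContinuousOn
    (fun z : ℝ × E3 => derivWithin (fun s => u s z.2) (Icc (0 : ℝ) T) z.1) (Icc (0 : ℝ) T ×ˢ univ)
  cont_du : ContinuousOn (fun z : ℝ × E3 => fderiv ℝ (u z.1) z.2) (Icc (0 : ℝ) T ×ˢ univ)
  cont_ddu : ContinuousOn
    (fun z : ℝ × E3 => fderiv ℝ (fderiv ℝ (u z.1)) z.2) (Icc (0 : ℝ) T ×ˢ univ)
  cont_p : ContinuousOn (fun z : ℝ × E3 => p z.1 z.2) (Icc (0 : ℝ) T ×ˢ univ)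
  cont_dp : ContinuousOn (fun z : ℝ × E3 => fderiv ℝ (p z.1) z.2) (Icc (0 : ℝ) T ×ˢ univ)
  mean_p : ∀ t ∈ Icc (0 : ℝ) T, ∫ x in Icc (0 : E3) 1, p t x = 0
  rest : ∀ x, u 0 x = 0
  div_free : ∀ t ∈ Icc (0 : ℝ) T, ∀ x, ∑ j, dx j (fun y => u t y j) x = 0
  momentum : ∀ t ∈ Icc (0 : ℝ) T, ∀ x i,
    derivWithin (fun s => u s x i) (Icc (0 : ℝ) T) t + ∑ j, u t x j * dx j (fun y => u t y i) x
      = - dx i (p t) x + ν * ∑ j, dx j (dx j (fun y => u t y i)) x + f t x i

/-- `X` is the particle trajectory of the velocity field `u` starting at `a`. -/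
def IsTrajectory (u : ℝ → E3 → E3) (a : E3) (X : ℝ → E3) : Prop :=
  X 0 = a ∧ ∀ t, 0 ≤ t → HasDerivWithinAt X (u t (X t)) (Ici 0) t

/-- A transition rule `q s q' s' right`: in state `q` reading `s`, write `s'`, go to
state `q'` and move the head one cell to the right if `right`, else to the left. -/
abbrev Rule : Type := (ℕ × ℕ) × (ℕ × ℕ × Bool)

/-- A one-tape machine: start state, list of halting states, finite list of rules (the first
applicable rule is used).  States and tape symbols are natural numbers, the blank is `0`. -/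
abbrev Machine : Type := ℕ × List ℕ × List Rule

/-- A configuration: state, cells to the left of the head (nearest first), and the head cell
followed by the cells to its right.  Cells beyond the lists are blank. -/
abbrev Cfg : Type := ℕ × List ℕ × List ℕ

/-- One step of the machine (a configuration without applicable rule is left unchanged). -/
def stepCfg (M : Machine) (c : Cfg) : Cfg :=
  match M.2.2.lookup (c.1, c.2.2.headD 0) with
  | none => c
  | some (q', s', true) => (q', s' :: c.2.1, c.2.2.tail)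
  | some (q', s', false) => (q', c.2.1.tail, c.2.1.headD 0 :: s' :: c.2.2.tail)

/-- Start configuration: the word `w` on a blank tape, head on its first cell. -/
def initCfg (M : Machine) (w : List ℕ) : Cfg := (M.1, [], w)

/-- `M` reaches a halting state after finitely many steps (possibly none) on input `w`. -/
def Halts (M : Machine) (w : List ℕ) : Prop :=
  ∃ n : ℕ, ((stepCfg M)^[n] (initCfg M w)).1 ∈ M.2.1

/-- The rational number `a - b` over `c + 1` coded by a triple of natural numbers. -/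
noncomputable def qv (r : ℕ × ℕ × ℕ) : ℝ := ((r.1 : ℝ) - (r.2.1 : ℝ)) / ((r.2.2 : ℝ) + 1)

/-- A real number with a program computing rational approximations of any accuracy. -/
def IsComputableReal (ν : ℝ) : Prop :=
  ∃ a : ℕ → ℕ × ℕ × ℕ, Computable a ∧ ∀ n : ℕ, |qv (a n) - ν| ≤ 1 / ((n : ℝ) + 1)

/-- Derivative of a space-time scalar function in the direction `v`. -/
noncomputable def dirD (v : ℝ × E3) (F : ℝ × E3 → ℝ) : ℝ × E3 → ℝ :=
  fun z => fderiv ℝ F z v

/-- The mixed derivative of order `a` in time and `b j` in the `j`-th space coordinate. -/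
noncomputable def mixedD (a : ℕ) (b : Fin 3 → ℕ) (F : ℝ × E3 → ℝ) : ℝ × E3 → ℝ :=
  (dirD (1, 0))^[a] ((dirD (0, Pi.single 0 1))^[b 0] ((dirD (0, Pi.single 1 1))^[b 1]
    ((dirD (0, Pi.single 2 1))^[b 2] F)))

/-- A smooth force on the torus. -/
def IsSmoothForce (f : ℝ → E3 → E3) : Prop :=
  ContDiff ℝ ∞ (fun z : ℝ × E3 => f z.1 z.2) ∧ ∀ t, Per (f t)

/-- The program `c` returns every mixed derivative of every component of `f`, at every rational
point, within `1 / (n + 1)`, for every `n`. -/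
def IsProgramFor (c : Nat.Partrec.Code) (f : ℝ → E3 → E3) : Prop :=
  ∀ (i : Fin 3) (a : ℕ) (b : Fin 3 → ℕ) (t : ℕ × ℕ × ℕ) (x : Fin 3 → ℕ × ℕ × ℕ) (n : ℕ),
    ∃ r : ℕ × ℕ × ℕ,
      c.eval (Encodable.encode (i, a, (b 0, b 1, b 2), t, (x 0, x 1, x 2), n))
        = Part.some (Encodable.encode r) ∧
      |qv r - mixedD a b (fun z => f z.1 z.2 i) (qv t, fun j => qv (x j))| ≤ 1 / ((n : ℝ) + 1)

/-- The full statement of the question for the viscosity `ν`. -/
def HaltingDetection (ν : ℝ) : Prop :=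
  ∃ (a : E3) (O : Set E3) (T0 : ℝ) (f : Machine → List ℕ → ℝ → E3 → E3)
    (compiler : Machine × List ℕ → Nat.Partrec.Code),
    IsOpen O ∧ (∀ (x : E3) (k : Fin 3), x + Pi.single k 1 ∈ O ↔ x ∈ O) ∧ 0 ≤ T0 ∧
    Computable compiler ∧
    (∀ M w, IsSmoothForce (f M w) ∧ IsProgramFor (compiler (M, w)) (f M w)) ∧
    (∀ M, ∃ P : ℝ, 0 < P ∧ ∀ w t x, T0 ≤ t → f M w (t + P) x = f M w t x) ∧
    (∀ M w w' t x, T0 ≤ t → f M w t x = f M w' t x) ∧
    ∀ M w, ∃ (u : ℝ → E3 → E3) (p : ℝ → E3 → ℝ),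
      ContDiff ℝ ∞ (fun z : ℝ × E3 => u z.1 z.2) ∧ ContDiff ℝ ∞ (fun z : ℝ × E3 => p z.1 z.2) ∧
      (∀ T, 0 < T → IsClassicalSol ν (f M w) T u p) ∧
      (∀ T, 0 < T → ∀ v π, IsClassicalSol ν (f M w) T v π →
        ∀ t ∈ Icc (0 : ℝ) T, v t = u t ∧ π t = p t) ∧
      ∃ X : ℝ → E3, IsTrajectory u a X ∧
        (∀ X', IsTrajectory u a X' → ∀ t, 0 ≤ t → X' t = X t) ∧
        ((∃ t, 0 ≤ t ∧ X t ∈ O) ↔ Halts M w)

end Vale.Agent.P113
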