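import Vale.Agent.P113.GTM

namespace Vale.Agent.P113

set_option linter.unusedSectionVars false

variable {Γ Λ : Type} [Inhabited Γ]

def IsCell : Sym Γ Λ → Prop
  | Sym.st _ _ => False
  | _ => True

def Cells (l : List (Sym Γ Λ)) : Prop := ∀ x ∈ l, IsCell x

def eraseSym : Sym Γ Λ → Option Γ
  | Sym.live a => some a
  | _ => none

def erase (l : List (Sym Γ Λ)) : List Γ := l.filterMap eraseSym

@[simp] lemma erase_nil : erase ([] : List (Sym Γ Λ)) = [] := rfl
@[simp] lemma erase_live (a : Γ) (l : List (Sym Γ Λ)) :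
    erase (Sym.live a :: l) = a :: erase l := by simp [erase, eraseSym]
@[simp] lemma erase_dead (q : Λ) (m : Mv) (a : Γ) (l : List (Sym Γ Λ)) :
    erase (Sym.dead q m a :: l) = erase l := by
  simp only [erase]
  rw [List.filterMap_cons_none]
  rfl

@[simp] lemma erase_st (q : Λ) (m : Mv) (l : List (Sym Γ Λ)) :
    erase (Sym.st q m :: l) = erase l := by
  simp only [erase]
  rw [List.filterMap_cons_none]
  rfl

lemma win_cons (x : Sym Γ Λ) (l : List (Sym Γ Λ)) :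
    win (x :: l) = (x, l.getD 0 blank, l.getD 1 blank) := by
  simp [win]

lemma cells_nil : Cells ([] : List (Sym Γ Λ)) := by intro x hx; simp at hx

lemma cells_cons {x : Sym Γ Λ} {l : List (Sym Γ Λ)} : Cells (x :: l) ↔ IsCell x ∧ Cells l := by
  simp [Cells]

lemma cells_tail {l : List (Sym Γ Λ)} (h : Cells l) : Cells l.tail := by
  intro x hx; exact h x (List.mem_of_mem_tail hx)

lemma isCell_getD {l : List (Sym Γ Λ)} (h : Cells l) (i : ℕ) : IsCell (l.getD i blank) := by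
  by_cases hi : i < l.length
  · rw [List.getD_eq_getElem _ _ hi]; exact h _ (List.getElem_mem hi)
  · rw [List.getD_eq_default _ _ (by omega)]; trivial

lemma top_cases {X1 : List (Sym Γ Λ)} {s : Γ} (htop : X1.getD 0 blank = Sym.live s) :
    (X1 = [] ∧ s = default) ∨ ∃ r, X1 = Sym.live s :: r := by
  rcases X1 with _ | ⟨x, r⟩
  · left
    refine ⟨rfl, ?_⟩
    simp only [List.getD_nil, blank, Sym.live.injEq] at htop
    exact htop.symm
  · right
    simp only [List.getD_cons_zero] at htop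
    exact ⟨r, by rw [htop]⟩

lemma period_live_N (M : GTM Γ Λ) {q q' : Λ} {m : Mv} {s s' : Γ} {X1 Y : List (Sym Γ Λ)}
    (htop : X1.getD 0 blank = Sym.live s) (hδ : M.δ q s = some (q', s', Mv.N)) :
    periodMap M (Sym.st q m :: X1, Y)
      = (Sym.st q' Mv.N :: Sym.live s' :: X1.tail, Sym.dead q m s :: Y) := by
  rcases top_cases htop with ⟨rfl, rfl⟩ | ⟨r, rfl⟩ <;>
  simp [periodMap, slot1, slot2, slot3, win, blank, fwd1, fwd2, fwd3, hδ, applyOp]

lemma period_live_R (M : GTM Γ Λ) {q q' : Λ} {m : Mv} {s s' : Γ} {X1 Y : List (Sym Γ Λ)}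
    (htop : X1.getD 0 blank = Sym.live s) (hδ : M.δ q s = some (q', s', Mv.R)) :
    periodMap M (Sym.st q m :: X1, Y)
      = (Sym.st q' Mv.R :: X1.tail, Sym.live s' :: Sym.dead q m s :: Y) := by
  rcases top_cases htop with ⟨rfl, rfl⟩ | ⟨r, rfl⟩ <;>
  simp [periodMap, slot1, slot2, slot3, win, blank, fwd1, fwd2, fwd3, hδ, applyOp]

lemma period_live_L (M : GTM Γ Λ) {q q' : Λ} {m : Mv} {s s' : Γ} {X1 Y : List (Sym Γ Λ)}
    (htop : X1.getD 0 blank = Sym.live s) (hδ : M.δ q s = some (q', s', Mv.L)) :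
    periodMap M (Sym.st q m :: X1, Y)
      = (Sym.st q' Mv.L :: Y.getD 0 blank :: Sym.live s' :: X1.tail,
          Sym.dead q m s :: Y.tail) := by
  rcases top_cases htop with ⟨rfl, rfl⟩ | ⟨r, rfl⟩ <;>
  simp [periodMap, slot1, slot2, slot3, win, blank, fwd1, fwd2, fwd3, hδ, applyOp]

lemma period_skipR (M : GTM Γ Λ) {q q1 : Λ} {m1 : Mv} {a1 : Γ} {r Y : List (Sym Γ Λ)} :
    periodMap M (Sym.st q Mv.R :: Sym.dead q1 m1 a1 :: r, Y)
      = (Sym.st q Mv.R :: r, Sym.dead q1 m1 a1 :: Y) := by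
  simp [periodMap, slot1, slot2, slot3, win, blank, fwd1, fwd2, fwd3, applyOp]

lemma period_skipL (M : GTM Γ Λ) {q q1 : Λ} {m1 : Mv} {a1 : Γ} {r Y : List (Sym Γ Λ)} :
    periodMap M (Sym.st q Mv.L :: Sym.dead q1 m1 a1 :: r, Y)
      = (Sym.st q Mv.L :: Y.getD 0 blank :: Sym.dead q1 m1 a1 :: r, Y.tail) := by
  simp [periodMap, slot1, slot2, slot3, win, blank, fwd1, fwd2, fwd3, applyOp]



def RelLive (c : GCfg Γ Λ) (p : List (Sym Γ Λ) × List (Sym Γ Λ)) : Prop :=
  ∃ (q : Λ) (m : Mv) (X1 Y : List (Sym Γ Λ)) (s : Γ), p = (Sym.st q m :: X1, Y) ∧ Cells X1 ∧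
    Cells Y ∧ X1.getD 0 blank = Sym.live s ∧ c = (q, erase Y, erase X1)

def RelR (c : GCfg Γ Λ) (p : List (Sym Γ Λ) × List (Sym Γ Λ)) : Prop :=
  ∃ (q q1 : Λ) (m1 : Mv) (a1 : Γ) (r Y : List (Sym Γ Λ)),
    p = (Sym.st q Mv.R :: Sym.dead q1 m1 a1 :: r, Y) ∧ Cells r ∧ Cells Y ∧
      c = (q, erase Y, erase r)

def RelL (c : GCfg Γ Λ) (p : List (Sym Γ Λ) × List (Sym Γ Λ)) : Prop :=
  ∃ (q q1 : Λ) (m1 : Mv) (a1 : Γ) (r Y : List (Sym Γ Λ)),
    p = (Sym.st q Mv.L :: Sym.dead q1 m1 a1 :: r, Y) ∧ Cells r ∧ Cells Y ∧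
      c = (q, (erase Y).tail, (erase Y).headD default :: erase r)

def Rel (c : GCfg Γ Λ) (p : List (Sym Γ Λ) × List (Sym Γ Λ)) : Prop :=
  RelLive c p ∨ RelR c p ∨ RelL c p

lemma isCell_live (a : Γ) : IsCell (Sym.live a : Sym Γ Λ) := trivial
lemma isCell_dead (q : Λ) (m : Mv) (a : Γ) : IsCell (Sym.dead q m a : Sym Γ Λ) := trivial

lemma rel_of_R (q : Λ) {X1 Y : List (Sym Γ Λ)} (hX : Cells X1) (hY : Cells Y) :
    Rel (q, erase Y, erase X1) (Sym.st q Mv.R :: X1, Y) := by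
  rcases X1 with _ | ⟨x, r⟩
  · exact Or.inl ⟨q, Mv.R, [], Y, default, rfl, hX, hY, rfl, rfl⟩
  · rcases cells_cons.mp hX with ⟨hx, hr⟩
    cases x with
    | live a => exact Or.inl ⟨q, Mv.R, _, Y, a, rfl, hX, hY, rfl, rfl⟩
    | dead q1 m1 a1 => exact Or.inr (Or.inl ⟨q, q1, m1, a1, r, Y, rfl, hr, hY, by simp⟩)
    | st q1 m1 => exact absurd hx (by simp [IsCell])

lemma rel_of_L (q : Λ) {t : Sym Γ Λ} {r Y : List (Sym Γ Λ)} (ht : IsCell t) (hr : Cells r)
    (hY : Cells Y) :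
    Rel (q, (erase (t :: Y)).tail, (erase (t :: Y)).headD default :: erase r)
      (Sym.st q Mv.L :: t :: r, Y) := by
  cases t with
  | live a =>
    exact Or.inl ⟨q, Mv.L, _, Y, a, rfl, cells_cons.mpr ⟨ht, hr⟩, hY, rfl, by simp⟩
  | dead q1 m1 a1 => exact Or.inr (Or.inr ⟨q, q1, m1, a1, r, Y, rfl, hr, hY, by simp⟩)
  | st q1 m1 => exact absurd ht (by simp [IsCell])

lemma erase_getD_tail (Y : List (Sym Γ Λ)) :
    (erase (Y.getD 0 blank :: Y.tail)).tail = (erase Y).tail ∧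
    (erase (Y.getD 0 blank :: Y.tail)).headD default = (erase Y).headD default := by
  rcases Y with _ | ⟨t, Y'⟩
  · simp [blank]
  · simp

lemma erase_top {X1 : List (Sym Γ Λ)} {s : Γ} (htop : X1.getD 0 blank = Sym.live s) :
    (erase X1).headD default = s ∧ (erase X1).tail = erase X1.tail := by
  rcases top_cases htop with ⟨rfl, rfl⟩ | ⟨r, rfl⟩ <;> simp

lemma flag_live (M : GTM Γ Λ) {q : Λ} {m : Mv} {s : Γ} {X1 : List (Sym Γ Λ)}
    (htop : X1.getD 0 blank = Sym.live s) :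
    flag M (win (Sym.st q m :: X1)) = (M.δ q s).isNone := by
  rcases top_cases htop with ⟨rfl, rfl⟩ | ⟨r, rfl⟩ <;> simp [win, blank, flag]

lemma flag_dead (M : GTM Γ Λ) {q q1 : Λ} {m m1 : Mv} {a1 : Γ} {r : List (Sym Γ Λ)} :
    flag M (win (Sym.st q m :: Sym.dead q1 m1 a1 :: r)) = false := by
  simp [win, flag]

lemma live_step (M : GTM Γ Λ) {c : GCfg Γ Λ} {p : List (Sym Γ Λ) × List (Sym Γ Λ)}
    (h : RelLive c p) :
    (flag M (win p.1) = true ∧ M.step c = none) ∨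
    (flag M (win p.1) = false ∧ ∃ c', M.step c = some c' ∧ Rel c' (periodMap M p)) := by
  obtain ⟨q, m, X1, Y, s, rfl, hX, hY, htop, rfl⟩ := h
  obtain ⟨e1, e2⟩ := erase_top htop
  rcases hδ : M.δ q s with _ | ⟨q', s', mv⟩
  · left
    refine ⟨by rw [flag_live M htop, hδ]; rfl, ?_⟩
    simp only [GTM.step]
    rw [e1, hδ]
    rfl
  · right
    refine ⟨by rw [flag_live M htop, hδ]; rfl, ?_⟩
    cases mv with
    | N =>
      refine ⟨(q', erase Y, s' :: erase X1.tail), by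
        simp only [GTM.step]
        rw [e1, hδ, e2]
        rfl, ?_⟩
      rw [period_live_N M htop hδ]
      exact Or.inl ⟨q', Mv.N, _, _, s', rfl, cells_cons.mpr ⟨isCell_live _, cells_tail hX⟩,
        cells_cons.mpr ⟨isCell_dead _ _ _, hY⟩, rfl, by simp⟩
    | R =>
      refine ⟨(q', s' :: erase Y, erase X1.tail), by
        simp only [GTM.step]
        rw [e1, hδ, e2]
        rfl, ?_⟩
      rw [period_live_R M htop hδ]
      have := rel_of_R q' (cells_tail hX) (Y := Sym.live s' :: Sym.dead q m s :: Y)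
        (cells_cons.mpr ⟨isCell_live _, cells_cons.mpr ⟨isCell_dead _ _ _, hY⟩⟩)
      simpa using this
    | L =>
      refine ⟨(q', (erase Y).tail, (erase Y).headD default :: s' :: erase X1.tail),
        by
        simp only [GTM.step]
        rw [e1, hδ, e2]
        rfl, ?_⟩
      rw [period_live_L M htop hδ]
      have := rel_of_L q' (t := Y.getD 0 blank) (r := Sym.live s' :: X1.tail)
        (Y := Sym.dead q m s :: Y.tail) (isCell_getD hY 0)
        (cells_cons.mpr ⟨isCell_live _, cells_tail hX⟩)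
        (cells_cons.mpr ⟨isCell_dead _ _ _, cells_tail hY⟩)
      obtain ⟨f1, f2⟩ := erase_getD_tail Y
      have g1 : erase (Y.getD 0 blank :: Sym.dead q m s :: Y.tail)
          = erase (Y.getD 0 blank :: Y.tail) := by
        cases Y.getD 0 blank <;> simp
      rw [g1, f1, f2] at this
      simpa using this

lemma skipR_step (M : GTM Γ Λ) {c : GCfg Γ Λ} {p : List (Sym Γ Λ) × List (Sym Γ Λ)}
    (h : RelR c p) : flag M (win p.1) = false ∧ Rel c (periodMap M p) := by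
  obtain ⟨q, q1, m1, a1, r, Y, rfl, hr, hY, rfl⟩ := h
  refine ⟨flag_dead M, ?_⟩
  rw [period_skipR]
  have := rel_of_R q hr (Y := Sym.dead q1 m1 a1 :: Y) (cells_cons.mpr ⟨isCell_dead _ _ _, hY⟩)
  simpa using this

lemma skipL_step (M : GTM Γ Λ) {c : GCfg Γ Λ} {p : List (Sym Γ Λ) × List (Sym Γ Λ)}
    (h : RelL c p) : flag M (win p.1) = false ∧ Rel c (periodMap M p) := by
  obtain ⟨q, q1, m1, a1, r, Y, rfl, hr, hY, rfl⟩ := h
  refine ⟨flag_dead M, ?_⟩
  rw [period_skipL]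
  have := rel_of_L q (t := Y.getD 0 blank) (r := Sym.dead q1 m1 a1 :: r) (Y := Y.tail)
    (isCell_getD hY 0) (cells_cons.mpr ⟨isCell_dead _ _ _, hr⟩) (cells_tail hY)
  obtain ⟨f1, f2⟩ := erase_getD_tail Y
  rw [f1, f2] at this
  simpa using this

lemma skipR_term (M : GTM Γ Λ) (q : Λ) : ∀ (r Y : List (Sym Γ Λ)) (q1 : Λ) (m1 : Mv) (a1 : Γ),
    Cells r → Cells Y → ∃ k, RelLive (q, erase Y, erase r)
      ((periodMap M)^[k] (Sym.st q Mv.R :: Sym.dead q1 m1 a1 :: r, Y)) := by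
  intro r
  induction r with
  | nil =>
    intro Y q1 m1 a1 hr hY
    refine ⟨1, ?_⟩
    rw [Function.iterate_one, period_skipR]
    exact ⟨q, Mv.R, [], _, default, rfl, hr, cells_cons.mpr ⟨isCell_dead _ _ _, hY⟩, rfl, by simp⟩
  | cons x r' ih =>
    intro Y q1 m1 a1 hr hY
    rcases cells_cons.mp hr with ⟨hx, hr'⟩
    cases x with
    | live a =>
      refine ⟨1, ?_⟩
      rw [Function.iterate_one, period_skipR]
      exact ⟨q, Mv.R, _, _, a, rfl, hr, cells_cons.mpr ⟨isCell_dead _ _ _, hY⟩, rfl, by simp⟩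
    | dead q2 m2 a2 =>
      obtain ⟨k, hk⟩ := ih (Sym.dead q1 m1 a1 :: Y) q2 m2 a2 hr'
        (cells_cons.mpr ⟨isCell_dead _ _ _, hY⟩)
      refine ⟨k + 1, ?_⟩
      rw [Function.iterate_succ_apply, period_skipR]
      simpa using hk
    | st q2 m2 => exact absurd hx (by simp [IsCell])

lemma skipL_term (M : GTM Γ Λ) (q : Λ) : ∀ (Y r : List (Sym Γ Λ)) (q1 : Λ) (m1 : Mv) (a1 : Γ),
    Cells r → Cells Y → ∃ k, RelLive (q, (erase Y).tail, (erase Y).headD default :: erase r)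
      ((periodMap M)^[k] (Sym.st q Mv.L :: Sym.dead q1 m1 a1 :: r, Y)) := by
  intro Y
  induction Y with
  | nil =>
    intro r q1 m1 a1 hr hY
    refine ⟨1, ?_⟩
    rw [Function.iterate_one, period_skipL]
    exact ⟨q, Mv.L, _, _, default, rfl,
      cells_cons.mpr ⟨isCell_live _, cells_cons.mpr ⟨isCell_dead _ _ _, hr⟩⟩, hY, rfl,
      by simp [blank]⟩
  | cons t Y' ih =>
    intro r q1 m1 a1 hr hY
    rcases cells_cons.mp hY with ⟨ht, hY'⟩
    cases t with
    | live a =>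
      refine ⟨1, ?_⟩
      rw [Function.iterate_one, period_skipL]
      exact ⟨q, Mv.L, _, _, a, rfl,
        cells_cons.mpr ⟨isCell_live _, cells_cons.mpr ⟨isCell_dead _ _ _, hr⟩⟩, hY', rfl,
        by simp⟩
    | dead q2 m2 a2 =>
      obtain ⟨k, hk⟩ := ih (Sym.dead q1 m1 a1 :: r) q2 m2 a2
        (cells_cons.mpr ⟨isCell_dead _ _ _, hr⟩) hY'
      refine ⟨k + 1, ?_⟩
      rw [Function.iterate_succ_apply, period_skipL]
      simpa using hk
    | st q2 m2 => exact absurd ht (by simp [IsCell])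

lemma rel_term (M : GTM Γ Λ) {c : GCfg Γ Λ} {p : List (Sym Γ Λ) × List (Sym Γ Λ)}
    (h : Rel c p) : ∃ k, RelLive c ((periodMap M)^[k] p) := by
  rcases h with h | h | h
  · exact ⟨0, h⟩
  · obtain ⟨q, q1, m1, a1, r, Y, rfl, hr, hY, rfl⟩ := h
    exact skipR_term M q r Y q1 m1 a1 hr hY
  · obtain ⟨q, q1, m1, a1, r, Y, rfl, hr, hY, rfl⟩ := h
    exact skipL_term M q Y r q1 m1 a1 hr hY

lemma erase_map_live (w : List Γ) : erase (w.map (Sym.live : Γ → Sym Γ Λ)) = w := by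
  induction w with
  | nil => rfl
  | cons a w ih => simp [ih]

lemma rel_start (q0 : Λ) (w : List Γ) : Rel (q0, [], w) (startStacks q0 w) := by
  left
  refine ⟨q0, Mv.N, w.map Sym.live, [], w.headD default, rfl, ?_, cells_nil, ?_, ?_⟩
  · intro x hx
    obtain ⟨a, _, rfl⟩ := List.mem_map.mp hx
    exact isCell_live a
  · cases w <;> simp [blank]
  · rw [erase_map_live]; rfl

lemma halts_of_flag (M : GTM Γ Λ) : ∀ (n : ℕ) (c : GCfg Γ Λ)
    (p : List (Sym Γ Λ) × List (Sym Γ Λ)), Rel c p →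
    flag M (win ((periodMap M)^[n] p).1) = true → M.HaltsFrom c := by
  intro n
  induction n with
  | zero =>
    intro c p h hf
    rw [Function.iterate_zero, id] at hf
    rcases h with h | h | h
    · rcases live_step M h with ⟨_, h2⟩ | ⟨h1, _⟩
      · exact Part.dom_iff_mem.mpr ⟨c, StateTransition.mem_eval.mpr ⟨Relation.ReflTransGen.refl, h2⟩⟩
      · rw [h1] at hf; exact absurd hf (by simp)
    · rw [(skipR_step M h).1] at hf; exact absurd hf (by simp)
    · rw [(skipL_step M h).1] at hf; exact absurd hf (by simp)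
  | succ n ih =>
    intro c p h hf
    rw [Function.iterate_succ_apply] at hf
    rcases h with h | h | h
    · rcases live_step M h with ⟨_, h2⟩ | ⟨_, c', h2, h3⟩
      · exact Part.dom_iff_mem.mpr ⟨c, StateTransition.mem_eval.mpr ⟨Relation.ReflTransGen.refl, h2⟩⟩
      · have := ih c' _ h3 hf
        unfold GTM.HaltsFrom at this ⊢
        rw [StateTransition.reaches_eval (Relation.ReflTransGen.single (by rw [h2]; rfl))]
        exact this
    · exact ih c _ (skipR_step M h).2 hf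
    · exact ih c _ (skipL_step M h).2 hf

lemma flag_of_halts (M : GTM Γ Λ) (c : GCfg Γ Λ) (hc : M.HaltsFrom c) :
    ∀ p : List (Sym Γ Λ) × List (Sym Γ Λ), Rel c p →
      ∃ n, flag M (win ((periodMap M)^[n] p).1) = true := by
  obtain ⟨b, hb⟩ := Part.dom_iff_mem.mp hc
  refine StateTransition.evalInduction (C := fun c => ∀ p : List (Sym Γ Λ) × List (Sym Γ Λ),
    Rel c p → ∃ n, flag M (win ((periodMap M)^[n] p).1) = true) hb ?_
  intro a _ IH p hp
  obtain ⟨k, hk⟩ := rel_term M hp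
  rcases live_step M hk with ⟨h1, _⟩ | ⟨_, c', h2, h3⟩
  · exact ⟨k, h1⟩
  · obtain ⟨n, hn⟩ := IH c' h2 _ h3
    refine ⟨n + (1 + k), ?_⟩
    rw [Function.iterate_add_apply, Function.iterate_add_apply, Function.iterate_one]
    exact hn

theorem sim_halts (M : GTM Γ Λ) (q0 : Λ) (w : List Γ) :
    M.HaltsFrom (q0, [], w) ↔
      ∃ n, flag M (win ((periodMap M)^[n] (startStacks q0 w)).1) = true := by
  constructor
  · intro h
    exact flag_of_halts M _ h _ (rel_start q0 w)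
  · rintro ⟨n, hn⟩
    exact halts_of_flag M n _ _ (rel_start q0 w) hn



lemma seq_refl (l : List (Sym Γ Λ)) : SEq l l := fun _ => rfl

lemma seq_cons (x : Sym Γ Λ) {l l' : List (Sym Γ Λ)} (h : SEq l l') : SEq (x :: l) (x :: l') := by
  intro i
  cases i with
  | zero => simp
  | succ i => simpa using h i

lemma seq_blank : SEq [(Sym.live default : Sym Γ Λ)] [] := by
  intro i
  cases i with
  | zero => simp [blank]
  | succ i => simp

lemma seq_getD_tail (Y : List (Sym Γ Λ)) : SEq (Y.getD 0 blank :: Y.tail) Y := by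
  rcases Y with _ | ⟨t, Y'⟩
  · simpa [blank] using (seq_blank (Γ := Γ) (Λ := Λ))
  · simpa using seq_refl (t :: Y')

lemma slotsOK_live (M : GTM Γ Λ) {q q' : Λ} {m mv : Mv} {s s' : Γ} {X1 Y : List (Sym Γ Λ)}
    (htop : X1.getD 0 blank = Sym.live s) (hδ : M.δ q s = some (q', s', mv)) :
    SlotsOK M (Sym.st q m :: X1, Y) := by
  have hb := seq_cons (Sym.st q m) (seq_blank (Γ := Γ) (Λ := Λ))
  cases mv with
  | N =>
    rcases top_cases htop with ⟨rfl, rfl⟩ | ⟨r, rfl⟩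
    · simp [SlotsOK, periodMap, slot1, slot2, slot3, win, blank, fwd1, fwd2, fwd3, bwd1, bwd2,
        bwd3, hδ, applyOp, seq_refl, hb]
    · simp [SlotsOK, periodMap, slot1, slot2, slot3, win, blank, fwd1, fwd2, fwd3, bwd1, bwd2,
        bwd3, hδ, applyOp, seq_refl]
  | R =>
    rcases top_cases htop with ⟨rfl, rfl⟩ | ⟨r, rfl⟩
    · simp [SlotsOK, periodMap, slot1, slot2, slot3, win, blank, fwd1, fwd2, fwd3, bwd1, bwd2,
        bwd3, hδ, applyOp, seq_refl, hb]
    · simp [SlotsOK, periodMap, slot1, slot2, slot3, win, blank, fwd1, fwd2, fwd3, bwd1, bwd2,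
        bwd3, hδ, applyOp, seq_refl]
  | L =>
    have hY := seq_cons (Sym.dead q m s) (seq_getD_tail Y)
    rcases top_cases htop with ⟨rfl, rfl⟩ | ⟨r, rfl⟩
    · rcases Y with _ | ⟨t, Y'⟩
      · simpa [SlotsOK, periodMap, slot1, slot2, slot3, win, blank, fwd1, fwd2, fwd3, bwd1, bwd2,
          bwd3, hδ, applyOp, seq_refl, hb] using hY
      · simp [SlotsOK, periodMap, slot1, slot2, slot3, win, blank, fwd1, fwd2, fwd3, bwd1, bwd2,
          bwd3, hδ, applyOp, seq_refl, hb]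
    · rcases Y with _ | ⟨t, Y'⟩
      · simpa [SlotsOK, periodMap, slot1, slot2, slot3, win, blank, fwd1, fwd2, fwd3, bwd1, bwd2,
          bwd3, hδ, applyOp, seq_refl] using hY
      · simp [SlotsOK, periodMap, slot1, slot2, slot3, win, blank, fwd1, fwd2, fwd3, bwd1, bwd2,
          bwd3, hδ, applyOp, seq_refl]

lemma slotsOK_skipR (M : GTM Γ Λ) {q q1 : Λ} {m1 : Mv} {a1 : Γ} {r Y : List (Sym Γ Λ)} :
    SlotsOK M (Sym.st q Mv.R :: Sym.dead q1 m1 a1 :: r, Y) := by
  simp [SlotsOK, periodMap, slot1, slot2, slot3, win, blank, fwd1, fwd2, fwd3, bwd1, bwd2,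
    bwd3, applyOp, seq_refl]

lemma slotsOK_skipL (M : GTM Γ Λ) {q q1 : Λ} {m1 : Mv} {a1 : Γ} {r Y : List (Sym Γ Λ)} :
    SlotsOK M (Sym.st q Mv.L :: Sym.dead q1 m1 a1 :: r, Y) := by
  have hY := seq_getD_tail Y
  rcases Y with _ | ⟨t, Y'⟩
  · simpa [SlotsOK, periodMap, slot1, slot2, slot3, win, blank, fwd1, fwd2, fwd3, bwd1, bwd2,
      bwd3, applyOp, seq_refl] using hY
  · simp [SlotsOK, periodMap, slot1, slot2, slot3, win, blank, fwd1, fwd2, fwd3, bwd1, bwd2,
      bwd3, applyOp, seq_refl]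

lemma slotsOK_of_rel (M : GTM Γ Λ) {c : GCfg Γ Λ} {p : List (Sym Γ Λ) × List (Sym Γ Λ)}
    (h : Rel c p) (hf : flag M (win p.1) = false) : SlotsOK M p := by
  rcases h with h | h | h
  · obtain ⟨q, m, X1, Y, s, rfl, hX, hY, htop, rfl⟩ := h
    rw [flag_live M htop] at hf
    rcases hδ : M.δ q s with _ | ⟨q', s', mv⟩
    · rw [hδ] at hf; exact absurd hf (by simp)
    · exact slotsOK_live M htop hδ
  · obtain ⟨q, q1, m1, a1, r, Y, rfl, hr, hY, rfl⟩ := h
    exact slotsOK_skipR M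
  · obtain ⟨q, q1, m1, a1, r, Y, rfl, hr, hY, rfl⟩ := h
    exact slotsOK_skipL M

lemma rel_step (M : GTM Γ Λ) {c : GCfg Γ Λ} {p : List (Sym Γ Λ) × List (Sym Γ Λ)}
    (h : Rel c p) (hf : flag M (win p.1) = false) : ∃ c', Rel c' (periodMap M p) := by
  rcases h with h | h | h
  · rcases live_step M h with ⟨h1, _⟩ | ⟨_, c', _, h3⟩
    · rw [h1] at hf; exact absurd hf (by simp)
    · exact ⟨c', h3⟩
  · exact ⟨c, (skipR_step M h).2⟩
  · exact ⟨c, (skipL_step M h).2⟩

lemma rel_iterate (M : GTM Γ Λ) (q0 : Λ) (w : List Γ) : ∀ n : ℕ,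
    (∀ k < n, flag M (win ((periodMap M)^[k] (startStacks q0 w)).1) = false) →
    ∃ c, Rel c ((periodMap M)^[n] (startStacks q0 w)) := by
  intro n
  induction n with
  | zero => intro _; exact ⟨_, rel_start q0 w⟩
  | succ n ih =>
    intro h
    obtain ⟨c, hc⟩ := ih (fun k hk => h k (by omega))
    rw [Function.iterate_succ_apply']
    exact rel_step M hc (h n (by omega))

theorem sim_ok (M : GTM Γ Λ) (q0 : Λ) (w : List Γ) (n : ℕ)
    (h : ∀ k ≤ n, flag M (win ((periodMap M)^[k] (startStacks q0 w)).1) = false) :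
    SlotsOK M ((periodMap M)^[n] (startStacks q0 w)) := by
  obtain ⟨c, hc⟩ := rel_iterate M q0 w n (fun k hk => h k (by omega))
  exact slotsOK_of_rel M hc (h n le_rfl)

end Vale.Agent.P113
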