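import Vale.Agent.P113.Defs
import Vale.Agent.P113.Coding
import Vale.Agent.P113.GTMSim

namespace Vale.Agent.P113

open Set
open scoped ContDiff

/-- the target open set: third coordinate in the open interval from `2/5` to `3/5` modulo `1`. -/
def targetO : Set E3 := {x | ∃ n : ℤ, x 2 - (n : ℝ) ∈ Ioo (2 / 5 : ℝ) (3 / 5)}

theorem targetO_open : IsOpen targetO := by
  have : targetO = ⋃ n : ℤ, (fun x : E3 => x 2 - (n : ℝ)) ⁻¹' Ioo (2 / 5 : ℝ) (3 / 5) := by
    ext x; simp [targetO]
  rw [this]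
  refine isOpen_iUnion fun n => isOpen_Ioo.preimage ?_
  fun_prop

theorem targetO_per (x : E3) (k : Fin 3) : x + Pi.single k 1 ∈ targetO ↔ x ∈ targetO := by
  by_cases hk : k = 2
  · subst hk
    constructor
    · rintro ⟨n, hn⟩
      refine ⟨n - 1, ?_⟩
      simp only [Pi.add_apply, Pi.single_eq_same] at hn
      push_cast
      convert hn using 1
      ring
    · rintro ⟨n, hn⟩
      refine ⟨n + 1, ?_⟩
      simp only [Pi.add_apply, Pi.single_eq_same]
      push_cast
      convert hn using 1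
      ring
  · have : (x + (Pi.single k 1 : E3)) 2 = x 2 := by
      simp [Ne.symm hk]
    show (∃ n : ℤ, (x + (Pi.single k 1 : E3)) 2 - (n : ℝ) ∈ Ioo (2 / 5 : ℝ) (3 / 5)) ↔
      ∃ n : ℤ, x 2 - (n : ℝ) ∈ Ioo (2 / 5 : ℝ) (3 / 5)
    rw [this]

theorem box_not_target {x : E3} (hx : x ∈ Box) : x ∉ targetO := by
  rintro ⟨n, h1, h2⟩
  have h0 := (hx 2).1
  have h4 := (hx 2).2
  rcases le_or_gt n (-1) with hn | hn
  · have : (n : ℝ) ≤ -1 := by exact_mod_cast hn
    linarith
  · have : (0 : ℝ) ≤ n := by exact_mod_cast (by omega : (0 : ℤ) ≤ n)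
    linarith

section dyn

variable {Γ Λ : Type} [Fintype Γ] [Fintype Λ] [DecidableEq Γ] [DecidableEq Λ] [Inhabited Γ]
variable (U : GTM Γ Λ) (q0 : Λ) (w : List Γ)

/-- the stk after `n` periods. -/
def stk (n : ℕ) : List (Sym Γ Λ) × List (Sym Γ Λ) := (periodMap U)^[n] (startStacks q0 w)

/-- the kick vector. -/
noncomputable def kick : E3 := Pi.single 0 (enc (startStacks q0 w).1)

theorem kick_eq_pt : kick q0 w = pt (startStacks q0 w) := by
  funext i
  fin_cases i <;> simp [kick, pt, startStacks, enc, encQ]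

theorem posSeq_shear (c a : E3) (sh : ℕ → Shear) (n k : ℕ) (hk : k ≤ 10) :
    posSeq c 10 sh a (12 * n + 1 + k) = runShears sh k (posSeq c 10 sh a (12 * n + 1)) := by
  induction k with
  | zero => rfl
  | succ k ih =>
    have hk' : k ≤ 10 := by omega
    rw [← add_assoc, posSeq, ih hk', runShears, shearMap, disp]
    have h1 : (12 * n + 1 + k) % (10 + 2) = k + 1 := by omega
    have h0 : 12 * n + 1 + k ≠ 0 := by omega
    rw [if_neg h0, h1, if_pos (by omega)]
    simp

theorem posSeq_idle (c a : E3) (sh : ℕ → Shear) (n : ℕ) :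
    posSeq c 10 sh a (12 * n + 12) = posSeq c 10 sh a (12 * n + 11) ∧
    posSeq c 10 sh a (12 * n + 13) = posSeq c 10 sh a (12 * n + 11) := by
  have e1 : posSeq c 10 sh a (12 * n + 12) = posSeq c 10 sh a (12 * n + 11) := by
    show posSeq c 10 sh a (12 * n + 11 + 1) = _
    rw [posSeq, disp]
    have h1 : (12 * n + 11) % (10 + 2) = 11 := by omega
    rw [if_neg (by omega), h1, if_neg (by omega)]
    simp
  refine ⟨e1, ?_⟩
  show posSeq c 10 sh a (12 * n + 12 + 1) = _
  rw [posSeq, disp]
  have h1 : (12 * n + 12) % (10 + 2) = 0 := by omega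
  rw [if_neg (by omega), h1, if_neg (by omega), e1]
  simp

theorem dyn_main (n : ℕ) (h : ∀ k < n, flag U (win (stk U q0 w k).1) = false) :
    posSeq (kick q0 w) 10 (schedOf U) 0 (12 * n + 1) = pt (stk U q0 w n) ∧
      ∀ m ≤ 12 * n + 1, posSeq (kick q0 w) 10 (schedOf U) 0 m ∈ Box := by
  induction n with
  | zero =>
    have h1 : posSeq (kick q0 w) 10 (schedOf U) 0 1 = pt (stk U q0 w 0) := by
      show posSeq (kick q0 w) 10 (schedOf U) 0 0 + disp _ _ _ 0 _ = _
      simp [posSeq, disp, kick_eq_pt, stk]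
    refine ⟨h1, fun m hm => ?_⟩
    have : m = 0 ∨ m = 1 := by omega
    rcases this with rfl | rfl
    · intro i; simp [posSeq]
    · rw [h1]; exact pt_mem_box _
  | succ n ih =>
    obtain ⟨e, hb⟩ := ih (fun k hk => h k (by omega))
    have hf := h n (by omega)
    have hok : SlotsOK U (stk U q0 w n) :=
      sim_ok U q0 w n (fun k hk => h k (by omega))
    obtain ⟨r1, r2⟩ := run_period U (stk U q0 w n) hf hok
    have hs : stk U q0 w (n + 1) = periodMap U (stk U q0 w n) := by
      simp [stk, Function.iterate_succ_apply']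
    have e11 : posSeq (kick q0 w) 10 (schedOf U) 0 (12 * n + 11) = pt (stk U q0 w (n + 1)) := by
      have := posSeq_shear (kick q0 w) 0 (schedOf U) n 10 le_rfl
      rw [e, r1, ← hs] at this
      exact this
    obtain ⟨i1, i2⟩ := posSeq_idle (kick q0 w) 0 (schedOf U) n
    refine ⟨by rw [show 12 * (n + 1) + 1 = 12 * n + 13 by ring, i2, e11], fun m hm => ?_⟩
    rcases le_or_gt m (12 * n + 1) with h1 | h1
    · exact hb m h1
    · rcases le_or_gt m (12 * n + 11) with h2 | h2
      · obtain ⟨k, rfl⟩ : ∃ k, m = 12 * n + 1 + k := ⟨m - (12 * n + 1), by omega⟩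
        rw [posSeq_shear _ _ _ _ _ (by omega), e]
        exact r2 k (by omega)
      · have : m = 12 * n + 12 ∨ m = 12 * n + 13 := by omega
        rcases this with rfl | rfl
        · rw [i1, e11]; exact pt_mem_box _
        · rw [i2, e11]; exact pt_mem_box _

theorem traj_nat (c a : E3) (K : ℕ) (sh : ℕ → Shear) (m : ℕ) :
    traj c K sh a (m : ℝ) = posSeq c K sh a m := by
  simp [traj, Real.smoothTransition.zero_of_nonpos]

theorem traj_mem_box (c a : E3) (K : ℕ) (sh : ℕ → Shear)
    (h : ∀ m, posSeq c K sh a m ∈ Box) (t : ℝ) : traj c K sh a t ∈ Box := by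
  intro i
  have h0 := h ⌊t⌋₊ i
  have h1 := h (⌊t⌋₊ + 1) i
  rw [posSeq] at h1
  simp only [Pi.add_apply] at h1
  simp only [traj, Pi.add_apply, Pi.smul_apply, smul_eq_mul]
  set s := Real.smoothTransition (t - (⌊t⌋₊ : ℝ))
  have s0 : 0 ≤ s := Real.smoothTransition.nonneg _
  have s1 : s ≤ 1 := Real.smoothTransition.le_one _
  set p := posSeq c K sh a ⌊t⌋₊ i
  set d := disp c K sh ⌊t⌋₊ (posSeq c K sh a ⌊t⌋₊) i
  constructor
  · have : p + s * d = (1 - s) * p + s * (p + d) := by ring
    rw [this]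
    have := mul_nonneg (sub_nonneg.2 s1) h0.1
    have := mul_nonneg s0 h1.1
    linarith
  · have : p + s * d = (1 - s) * p + s * (p + d) := by ring
    rw [this]
    have := mul_le_mul_of_nonneg_left h0.2 (sub_nonneg.2 s1)
    have := mul_le_mul_of_nonneg_left h1.2 s0
    linarith

theorem traj_hits_iff :
    (∃ t, 0 ≤ t ∧ traj (kick q0 w) 10 (schedOf U) 0 t ∈ targetO) ↔ U.HaltsFrom (q0, [], w) := by
  rw [sim_halts]
  constructor
  · rintro ⟨t, -, ht⟩
    by_contra hne
    simp only [not_exists] at hne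
    have hall : ∀ k, flag U (win (stk U q0 w k).1) = false := fun k => by
      simpa [stk] using hne k
    refine box_not_target (traj_mem_box _ _ _ _ (fun m => ?_) t) ht
    exact (dyn_main U q0 w m (fun k _ => hall k)).2 m (by omega)
  · intro hex
    classical
    let n := Nat.find hex
    have hn : flag U (win (stk U q0 w n).1) = true := Nat.find_spec hex
    have hlt : ∀ k < n, flag U (win (stk U q0 w k).1) = false := fun k hk => by
      simpa [stk] using Nat.find_min hex hk
    obtain ⟨e, -⟩ := dyn_main U q0 w n hlt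
    have h2 := posSeq_shear (kick q0 w) 0 (schedOf U) n 1 (by omega)
    rw [e] at h2
    refine ⟨((12 * n + 1 + 1 : ℕ) : ℝ), by positivity, ?_⟩
    rw [traj_nat, h2]
    refine ⟨0, ?_⟩
    rw [run_flag U _ hn]
    norm_num

end dyn

end Vale.Agent.P113
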