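import Vale.Agent.P113.CRLib
import Vale.Agent.P113.CRStep
import Vale.Agent.P113.Tools

namespace Vale.Agent.P113

open scoped ContDiff Topology

theorem Eff1.of_eq {h k : ℝ → ℝ} (hh : Eff1 h) (e : ∀ x, h x = k x) : Eff1 k := by
  have : h = k := funext e
  rwa [← this]

theorem Eff1.cda {h : ℝ → ℝ} (hh : Eff1 h) (n : ℕ) (x : ℝ) : ContDiffAt ℝ (n : ℕ∞ω) h x :=
  (hh.1.of_le (by exact_mod_cast le_top)).contDiffAt

theorem Eff1.cd {h : ℝ → ℝ} (hh : Eff1 h) (n : ℕ) : ContDiff ℝ (n : ℕ∞ω) h :=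
  hh.1.of_le (by exact_mod_cast le_top)

theorem Eff1.const (q : ℚ) : Eff1 (fun _ => (q : ℝ)) := by
  refine ⟨contDiff_const, ?_⟩
  have h1 : CompReal (fun p : ℕ × Q3 => if (p.1 == 0) then (q : ℝ) else ((0 : ℚ) : ℝ)) := by
    exact CompReal.ite (p := fun p : ℕ × Q3 => p.1 == 0)
      (Primrec.beq.comp Primrec.fst (Primrec.const 0)).to_comp (CompReal.const_rat q)
      (CompReal.const_rat 0)
  refine h1.of_eq (fun p => ?_)
  rw [iteratedDeriv_const]
  by_cases h : p.1 = 0 <;> simp [h]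

theorem Eff1.add {h k : ℝ → ℝ} (hh : Eff1 h) (hk : Eff1 k) : Eff1 (fun x => h x + k x) := by
  refine ⟨hh.1.add hk.1, ?_⟩
  refine (hh.2.add hk.2).of_eq (fun p => ?_)
  rw [iteratedDeriv_fun_add (hh.cda _ _) (hk.cda _ _)]

theorem Eff1.neg {h : ℝ → ℝ} (hh : Eff1 h) : Eff1 (fun x => - h x) := by
  refine ⟨hh.1.neg, ?_⟩
  refine hh.2.neg.of_eq (fun p => ?_)
  exact (iteratedDeriv_neg p.1 h (qv p.2)).symm

theorem Eff1.sub {h k : ℝ → ℝ} (hh : Eff1 h) (hk : Eff1 k) : Eff1 (fun x => h x - k x) := by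
  refine (hh.add hk.neg).of_eq (fun x => ?_)
  ring

theorem iteratedDeriv_comp_affine {h : ℝ → ℝ} (n : ℕ) (hh : ContDiff ℝ (n : ℕ∞ω) h) (a b : ℝ) :
    iteratedDeriv n (fun x => h (a * x + b)) = fun x => a ^ n * iteratedDeriv n h (a * x + b) := by
  have h1 : ContDiff ℝ (n : ℕ∞ω) (fun z => h (z + b)) :=
    hh.comp (contDiff_id.add contDiff_const)
  have h2 := iteratedDeriv_comp_const_mul h1 a
  rw [h2, iteratedDeriv_comp_add_const]

theorem Eff1.comp_affine {h : ℝ → ℝ} (hh : Eff1 h) (a b : ℚ) :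
    Eff1 (fun x => h ((a : ℝ) * x + (b : ℝ))) := by
  refine ⟨hh.1.comp ((contDiff_const.mul contDiff_id).add contDiff_const), ?_⟩
  obtain ⟨g, hg, hg'⟩ := exists_qaffine a b
  have h1 : CompReal (fun p : ℕ × Q3 => (a : ℝ) ^ p.1) :=
    (CompReal.rat_pow a).comp Computable.fst
  have h2 : CompReal (fun p : ℕ × Q3 => iteratedDeriv p.1 h (qv (g p.2))) :=
    hh.2.comp (g := fun p : ℕ × Q3 => (p.1, g p.2))
      (Computable.pair Computable.fst (hg.comp Computable.snd))
  refine (h1.mul h2).of_eq (fun p => ?_)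
  rw [iteratedDeriv_comp_affine p.1 (hh.cd _), hg']

theorem iteratedDeriv_mul_affine {h : ℝ → ℝ} (hh : ContDiff ℝ ∞ h) (a b : ℝ) (n : ℕ) :
    iteratedDeriv (n + 1) (fun x => h x * (a * x + b)) = fun x =>
      iteratedDeriv (n + 1) h x * (a * x + b) + ((n : ℝ) + 1) * a * iteratedDeriv n h x := by
  have hd : ∀ m : ℕ, Differentiable ℝ (iteratedDeriv m h) := fun m =>
    hh.differentiable_iteratedDeriv m (by exact_mod_cast WithTop.coe_lt_top _)
  have haff : ∀ x : ℝ, HasDerivAt (fun x => a * x + b) a x := by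
    intro x
    simpa using ((hasDerivAt_id x).const_mul a).add_const b
  induction n with
  | zero =>
    funext x
    rw [zero_add, iteratedDeriv_one, iteratedDeriv_one, iteratedDeriv_zero]
    have h0 : HasDerivAt h (deriv h x) x := by
      have := (hd 0 x).hasDerivAt
      simpa [iteratedDeriv_zero] using this
    have h3 : HasDerivAt (fun x => h x * (a * x + b)) _ x := h0.mul (haff x)
    rw [h3.deriv]
    push_cast
    ring
  | succ n ih =>
    funext x
    rw [iteratedDeriv_succ, ih]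
    have h1 : HasDerivAt (iteratedDeriv (n + 1) h) (iteratedDeriv (n + 1 + 1) h x) x := by
      rw [iteratedDeriv_succ (n := n + 1)]
      exact (hd (n + 1) x).hasDerivAt
    have h2 : HasDerivAt (iteratedDeriv n h) (iteratedDeriv (n + 1) h x) x := by
      rw [iteratedDeriv_succ (n := n)]
      exact (hd n x).hasDerivAt
    have h3 : HasDerivAt (fun x => iteratedDeriv (n + 1) h x * (a * x + b)
        + ((n : ℝ) + 1) * a * iteratedDeriv n h x) _ x :=
      (h1.mul (haff x)).add (h2.const_mul (((n : ℝ) + 1) * a))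
    rw [h3.deriv]
    push_cast
    ring

theorem Eff1.mul_affine {h : ℝ → ℝ} (hh : Eff1 h) (a b : ℚ) :
    Eff1 (fun x => h x * ((a : ℝ) * x + (b : ℝ))) := by
  refine ⟨hh.1.mul ((contDiff_const.mul contDiff_id).add contDiff_const), ?_⟩
  obtain ⟨g, hg, hg'⟩ := exists_qaffine a b
  have h1 : CompReal (fun p : ℕ × Q3 => qv (g p.2)) :=
    CompReal.of_rat (hg.comp Computable.snd)
  have h2 : CompReal (fun p : ℕ × Q3 => iteratedDeriv (p.1 - 1) h (qv p.2)) :=
    hh.2.comp (g := fun p : ℕ × Q3 => (p.1 - 1, p.2))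
      (Computable.pair ((Primrec.nat_sub.comp Primrec.fst (Primrec.const 1)).to_comp)
        Computable.snd)
  have h3 : CompReal (fun p : ℕ × Q3 => (p.1 : ℝ)) := CompReal.natCast.comp Computable.fst
  have h4 : CompReal (fun _ : ℕ × Q3 => (a : ℝ)) := CompReal.const_rat a
  refine ((hh.2.mul h1).add ((h3.mul h4).mul h2)).of_eq (fun p => ?_)
  obtain ⟨k, r⟩ := p
  cases k with
  | zero => simp [hg']
  | succ n =>
    rw [iteratedDeriv_mul_affine hh.1]
    simp only [hg', Nat.add_sub_cancel]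
    push_cast
    ring

theorem Eff1.iteratedDeriv {h : ℝ → ℝ} (hh : Eff1 h) (k : ℕ) : Eff1 (iteratedDeriv k h) := by
  refine ⟨?_, ?_⟩
  · rw [iteratedDeriv_eq_iterate]
    exact ContDiff.iterate_deriv k hh.1
  · have h1 : CompReal (fun p : ℕ × Q3 => _root_.iteratedDeriv (p.1 + k) h (qv p.2)) :=
      hh.2.comp (g := fun p : ℕ × Q3 => (p.1 + k, p.2))
        (Computable.pair ((Primrec.nat_add.comp Primrec.fst (Primrec.const k)).to_comp)
          Computable.snd)
    refine h1.of_eq (fun p => ?_)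
    rw [iteratedDeriv_eq_iterate, iteratedDeriv_eq_iterate, iteratedDeriv_eq_iterate,
      Function.iterate_add_apply]
theorem Eff1.of_local_shift {h k : ℝ → ℝ} (hh : Eff1 h) (σ : ℝ → ℝ)
    (hloc : ∀ x0, k =ᶠ[𝓝 x0] fun x => h (x - σ x0))
    (g : Q3 → Q3) (hg : Computable g) (hg' : ∀ r, qv (g r) = qv r - σ (qv r)) : Eff1 k := by
  refine ⟨?_, ?_⟩
  · rw [contDiff_iff_contDiffAt]
    intro x0
    have h1 : ContDiffAt ℝ ∞ (fun x => h (x - σ x0)) x0 :=
      (hh.1.comp (contDiff_id.sub contDiff_const)).contDiffAt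
    exact h1.congr_of_eventuallyEq (hloc x0)
  · have h2 : CompReal (fun p : ℕ × Q3 => _root_.iteratedDeriv p.1 h (qv (g p.2))) :=
      hh.2.comp (g := fun p : ℕ × Q3 => (p.1, g p.2))
        (Computable.pair Computable.fst (hg.comp Computable.snd))
    refine h2.of_eq (fun p => ?_)
    rw [(hloc (qv p.2)).iteratedDeriv_eq p.1, iteratedDeriv_comp_sub_const, hg']

theorem eventually_abs_sub_lt (x0 : ℝ) {ε : ℝ} (hε : 0 < ε) : ∀ᶠ x in 𝓝 x0, |x - x0| < ε := by
  have := Metric.ball_mem_nhds x0 hε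
  filter_upwards [this] with x hx
  simpa [Real.dist_eq] using hx

/-- periodization of a function vanishing outside `[-7/16, 7/16]`. -/
theorem Eff1.per {h : ℝ → ℝ} (hh : Eff1 h) (hs : ∀ x, 7 / 16 < |x| → h x = 0) :
    Eff1 (per h) := by
  obtain ⟨g, hg, hg'⟩ := exists_qround
  refine hh.of_local_shift (fun x => (round x : ℝ)) (fun x0 => ?_) g hg hg'
  filter_upwards [eventually_abs_sub_lt x0 (by norm_num : (0 : ℝ) < 1 / 32)] with x hx
  show h (x - (round x : ℝ)) = h (x - (round x0 : ℝ))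
  by_cases hmn : round x = round x0
  · rw [hmn]
  · have h1 : (1 : ℝ) ≤ |((round x : ℤ) : ℝ) - ((round x0 : ℤ) : ℝ)| := by
      have : (1 : ℤ) ≤ |round x - round x0| := Int.one_le_abs (sub_ne_zero.mpr hmn)
      exact_mod_cast this
    have h2 : |x0 - (round x0 : ℝ)| ≤ 1 / 2 := abs_sub_round x0
    have h3 : |x - (round x : ℝ)| ≤ |x - (round x0 : ℝ)| := round_le x (round x0)
    have h4 : |((round x : ℤ) : ℝ) - ((round x0 : ℤ) : ℝ)| ≤
        |x - (round x : ℝ)| + |x - x0| + |x0 - (round x0 : ℝ)| := by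
      have e : ((round x : ℤ) : ℝ) - ((round x0 : ℤ) : ℝ)
          = -(x - (round x : ℝ)) + (x - x0) + (x0 - (round x0 : ℝ)) := by ring
      rw [e]
      refine (abs_add_le _ _).trans ?_
      refine add_le_add ((abs_add_le _ _).trans ?_) le_rfl
      rw [abs_neg]
    rw [hs _ (by linarith), hs _ (by linarith)]

/-- time periodization of a function vanishing outside `[1, P - 1]`. -/
theorem Eff1.tmod {h : ℝ → ℝ} (hh : Eff1 h) (P : ℕ) (hP : 0 < P)
    (hs : ∀ x, (x < 1 ∨ (P : ℝ) - 1 < x) → h x = 0) : Eff1 (fun t => h (tmod (P : ℝ) t)) := by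
  obtain ⟨g, hg, hg'⟩ := exists_qtmod P hP
  have hP' : (0 : ℝ) < P := by exact_mod_cast hP
  refine hh.of_local_shift (fun t => (P : ℝ) * (⌊t / (P : ℝ)⌋ : ℝ)) (fun t0 => ?_) g hg hg'
  filter_upwards [eventually_abs_sub_lt t0 (by norm_num : (0 : ℝ) < 1)] with t ht
  show h (t - (P : ℝ) * (⌊t / (P : ℝ)⌋ : ℝ)) = h (t - (P : ℝ) * (⌊t0 / (P : ℝ)⌋ : ℝ))
  rw [abs_lt] at ht
  have a1 : (P : ℝ) * (⌊t / (P : ℝ)⌋ : ℝ) ≤ t := by
    have := Int.floor_le (t / (P : ℝ))
    rw [le_div_iff₀ hP'] at this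
    linarith
  have a2 : t < (P : ℝ) * ((⌊t / (P : ℝ)⌋ : ℝ) + 1) := by
    have := Int.lt_floor_add_one (t / (P : ℝ))
    rw [div_lt_iff₀ hP'] at this
    linarith
  have b1 : (P : ℝ) * (⌊t0 / (P : ℝ)⌋ : ℝ) ≤ t0 := by
    have := Int.floor_le (t0 / (P : ℝ))
    rw [le_div_iff₀ hP'] at this
    linarith
  have b2 : t0 < (P : ℝ) * ((⌊t0 / (P : ℝ)⌋ : ℝ) + 1) := by
    have := Int.lt_floor_add_one (t0 / (P : ℝ))
    rw [div_lt_iff₀ hP'] at this
    linarith
  generalize ⌊t / (P : ℝ)⌋ = m at *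
  generalize ⌊t0 / (P : ℝ)⌋ = n at *
  rcases lt_trichotomy m n with hmn | hmn | hmn
  · have c : (m : ℝ) + 1 ≤ n := by exact_mod_cast hmn
    have c' : (P : ℝ) * ((m : ℝ) + 1) ≤ (P : ℝ) * n := mul_le_mul_of_nonneg_left c hP'.le
    rw [hs _ (Or.inr (by linarith)), hs _ (Or.inl (by linarith))]
  · rw [hmn]
  · have c : (n : ℝ) + 1 ≤ m := by exact_mod_cast hmn
    have c' : (P : ℝ) * ((n : ℝ) + 1) ≤ (P : ℝ) * m := mul_le_mul_of_nonneg_left c hP'.le
    rw [hs _ (Or.inl (by linarith)), hs _ (Or.inr (by linarith))]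

theorem eff1_S1 : Eff1 S1 := by
  have := eff1_smoothTransition.iteratedDeriv 1
  rwa [iteratedDeriv_one] at this

theorem eff1_S2 : Eff1 S2 := by
  have := eff1_S1.iteratedDeriv 1
  rwa [iteratedDeriv_one] at this

theorem eff1_plat (N n : ℕ) : Eff1 (plat N n) := by
  have h1 := eff1_smoothTransition.comp_affine (4 * (N : ℚ)) (- 4 * (n : ℚ) + 2)
  have h2 := eff1_smoothTransition.comp_affine (4 * (N : ℚ)) (- 4 * (n : ℚ) - 2)
  refine (h1.sub h2).of_eq (fun x => ?_)
  unfold plat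
  push_cast
  congr 2 <;> ring

theorem plat_supp {N n : ℕ} (hN : 8 ≤ N) (hn : 4 * n ≤ N) (x : ℝ) (hx : 7 / 16 < |x|) :
    plat N n x = 0 := by
  have hN' : (8 : ℝ) ≤ N := by exact_mod_cast hN
  have hn' : 4 * (n : ℝ) ≤ N := by exact_mod_cast hn
  have hn0 : (0 : ℝ) ≤ n := Nat.cast_nonneg n
  unfold plat
  rcases lt_abs.mp hx with h | h
  · rw [Real.smoothTransition.one_of_one_le, Real.smoothTransition.one_of_one_le]
    · ring
    · nlinarith
    · nlinarith
  · rw [Real.smoothTransition.zero_of_nonpos, Real.smoothTransition.zero_of_nonpos]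
    · ring
    · nlinarith
    · nlinarith

theorem eff1_pP {N n : ℕ} (hN : 8 ≤ N) (hn : 4 * n ≤ N) : Eff1 (pP N n) :=
  (eff1_plat N n).per (plat_supp hN hn)

theorem eff1_pQ {N n : ℕ} (hN : 8 ≤ N) (hn : 4 * n ≤ N) (a b : ℚ) : Eff1 (pQ N n a b) := by
  refine ((eff1_plat N n).mul_affine a b).per (fun x hx => ?_)
  rw [plat_supp hN hn x hx, zero_mul]

theorem eff1_pL : Eff1 pL := by
  have h1 := eff1_smoothTransition.comp_affine 16 6
  have h2 := eff1_smoothTransition.comp_affine 16 (-6)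
  have h3 : Eff1 lam0 := by
    refine ((h1.sub h2).mul_affine 1 0).of_eq (fun x => ?_)
    unfold lam0
    push_cast
    rw [← sub_eq_add_neg]
    ring
  refine h3.per (fun x hx => ?_)
  unfold lam0
  rcases lt_abs.mp hx with h | h
  · rw [Real.smoothTransition.one_of_one_le, Real.smoothTransition.one_of_one_le]
    · ring
    · linarith
    · linarith
  · rw [Real.smoothTransition.zero_of_nonpos, Real.smoothTransition.zero_of_nonpos]
    · ring
    · linarith
    · linarith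

end Vale.Agent.P113
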