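import Vale.Agent.P113.Flow

namespace Vale.Agent.P113

open Set Filter
open scoped ContDiff Topology

theorem deriv_eq_zero_of_const_left {g : ℝ → ℝ} (hg : Continuous (deriv g)) {a C : ℝ}
    (h : ∀ t, t ≤ a → g t = C) : ∀ t, t ≤ a → deriv g t = 0 := by
  have h1 : ∀ t, t < a → deriv g t = 0 := by
    intro t ht
    have : g =ᶠ[𝓝 t] fun _ => C := by
      filter_upwards [Iio_mem_nhds ht] with s hs
      exact h s (le_of_lt hs)
    rw [this.deriv_eq, deriv_const]
  have hcl : IsClosed {t | deriv g t = 0} := isClosed_eq hg continuous_const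
  have hsub : Iio a ⊆ {t | deriv g t = 0} := fun t ht => h1 t ht
  have := hcl.closure_subset_iff.2 hsub
  rw [closure_Iio] at this
  exact fun t ht => this ht

theorem deriv_eq_zero_of_const_right {g : ℝ → ℝ} (hg : Continuous (deriv g)) {a C : ℝ}
    (h : ∀ t, a ≤ t → g t = C) : ∀ t, a ≤ t → deriv g t = 0 := by
  have h1 : ∀ t, a < t → deriv g t = 0 := by
    intro t ht
    have : g =ᶠ[𝓝 t] fun _ => C := by
      filter_upwards [Ioi_mem_nhds ht] with s hs
      exact h s (le_of_lt hs)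
    rw [this.deriv_eq, deriv_const]
  have hcl : IsClosed {t | deriv g t = 0} := isClosed_eq hg continuous_const
  have hsub : Ioi a ⊆ {t | deriv g t = 0} := fun t ht => h1 t ht
  have := hcl.closure_subset_iff.2 hsub
  rw [closure_Ioi] at this
  exact fun t ht => this ht

theorem S1_contDiff : ContDiff ℝ ∞ S1 :=
  (contDiff_infty_iff_deriv.1 Real.smoothTransition.contDiff).2

theorem S2_contDiff : ContDiff ℝ ∞ S2 :=
  (contDiff_infty_iff_deriv.1 S1_contDiff).2

theorem hasDerivAt_smoothTransition (t : ℝ) : HasDerivAt Real.smoothTransition (S1 t) t :=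
  ((Real.smoothTransition.contDiff (n := 1)).differentiable (by simp) t).hasDerivAt

theorem hasDerivAt_S1 (t : ℝ) : HasDerivAt S1 (S2 t) t :=
  (S1_contDiff.differentiable (by simp) t).hasDerivAt

theorem S1_of_nonpos {t : ℝ} (h : t ≤ 0) : S1 t = 0 :=
  deriv_eq_zero_of_const_left (C := 0) S1_contDiff.continuous
    (fun _ hs => Real.smoothTransition.zero_of_nonpos hs) t h

theorem S1_of_one_le {t : ℝ} (h : 1 ≤ t) : S1 t = 0 :=
  deriv_eq_zero_of_const_right (C := 1) S1_contDiff.continuous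
    (fun _ hs => Real.smoothTransition.one_of_one_le hs) t h

theorem S2_of_nonpos {t : ℝ} (h : t ≤ 0) : S2 t = 0 :=
  deriv_eq_zero_of_const_left (C := 0) S2_contDiff.continuous
    (fun _ hs => S1_of_nonpos hs) t h

theorem S2_of_one_le {t : ℝ} (h : 1 ≤ t) : S2 t = 0 :=
  deriv_eq_zero_of_const_right (C := 0) S2_contDiff.continuous
    (fun _ hs => S1_of_one_le hs) t h

theorem tmod_nonneg {P : ℝ} (hP : 0 < P) (t : ℝ) : 0 ≤ tmod P t := by
  unfold tmod
  have := Int.floor_le (t / P)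
  rw [le_div_iff₀ hP] at this
  linarith

theorem tmod_lt {P : ℝ} (hP : 0 < P) (t : ℝ) : tmod P t < P := by
  unfold tmod
  have := Int.lt_floor_add_one (t / P)
  rw [div_lt_iff₀ hP] at this
  linarith

theorem tmod_add_period {P : ℝ} (hP : 0 < P) (t : ℝ) : tmod P (t + P) = tmod P t := by
  unfold tmod
  have : (t + P) / P = t / P + 1 := by field_simp
  rw [this, Int.floor_add_one]
  push_cast
  ring

theorem tmod_of_mem {P t : ℝ} (hP : 0 < P) (h0 : 0 ≤ t) (h1 : t < P) : tmod P t = t := by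
  unfold tmod
  have : ⌊t / P⌋ = 0 := by
    rw [Int.floor_eq_iff]
    constructor
    · simpa using div_nonneg h0 hP.le
    · simpa using (div_lt_one hP).2 h1
  rw [this]
  simp

theorem comp_tmod_eventuallyEq {P : ℝ} {h : ℝ → ℝ} {a b : ℝ} (ha : 0 < a) (hb : b < P)
    (h0 : ∀ s, s ≤ a → h s = 0) (h1 : ∀ s, b ≤ s → h s = 0) (hP : 0 < P) (t0 : ℝ) :
    (fun t => h (tmod P t)) =ᶠ[𝓝 t0] fun t => h (t - P * (⌊t0 / P⌋ : ℝ)) := by
  set n : ℤ := ⌊t0 / P⌋ with hn
  have hl : P * (n : ℝ) ≤ t0 := by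
    have := tmod_nonneg hP t0
    unfold tmod at this
    linarith
  have hr : t0 < P * (n : ℝ) + P := by
    have := tmod_lt hP t0
    unfold tmod at this
    linarith
  have hU : Ioo (P * (n : ℝ) - (P - b)) (P * (n : ℝ) + P + a) ∈ 𝓝 t0 :=
    Ioo_mem_nhds (by linarith) (by linarith)
  filter_upwards [hU] with t ht
  set k : ℤ := ⌊t / P⌋ with hk
  have hs0 : 0 ≤ t - P * (k : ℝ) := tmod_nonneg hP t
  have hs1 : t - P * (k : ℝ) < P := tmod_lt hP t
  change h (t - P * (k : ℝ)) = h (t - P * (n : ℝ))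
  rcases lt_trichotomy k n with hkn | hkn | hkn
  · have h2 : (k : ℝ) + 1 ≤ (n : ℝ) := by exact_mod_cast hkn
    have h3 : P * ((k : ℝ) + 1) ≤ P * (n : ℝ) := by gcongr
    rw [h0 (t - P * (n : ℝ)) (by linarith), h1 (t - P * (k : ℝ)) (by linarith [ht.1])]
  · rw [hkn]
  · have h2 : (n : ℝ) + 1 ≤ (k : ℝ) := by exact_mod_cast hkn
    have h3 : P * ((n : ℝ) + 1) ≤ P * (k : ℝ) := by gcongr
    rw [h1 (t - P * (n : ℝ)) (by linarith), h0 (t - P * (k : ℝ)) (by linarith [ht.2])]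

theorem contDiff_comp_tmod {P : ℝ} {h : ℝ → ℝ} {a b : ℝ} (ha : 0 < a) (hb : b < P)
    (h0 : ∀ s, s ≤ a → h s = 0) (h1 : ∀ s, b ≤ s → h s = 0) (hP : 0 < P)
    (hh : ContDiff ℝ ∞ h) : ContDiff ℝ ∞ (fun t => h (tmod P t)) := by
  rw [contDiff_iff_contDiffAt]
  intro t0
  refine ContDiffAt.congr_of_eventuallyEq ?_ (comp_tmod_eventuallyEq ha hb h0 h1 hP t0)
  exact (hh.comp (contDiff_id.sub contDiff_const)).contDiffAt

theorem hasDerivAt_comp_tmod {P : ℝ} {h h' : ℝ → ℝ} {a b : ℝ} (ha : 0 < a) (hb : b < P)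
    (h0 : ∀ s, s ≤ a → h s = 0) (h1 : ∀ s, b ≤ s → h s = 0) (hP : 0 < P)
    (hh : ∀ s, HasDerivAt h (h' s) s) (t0 : ℝ) :
    HasDerivAt (fun t => h (tmod P t)) (h' (tmod P t0)) t0 := by
  refine HasDerivAt.congr_of_eventuallyEq ?_ (comp_tmod_eventuallyEq ha hb h0 h1 hP t0)
  have := (hh (t0 - P * (⌊t0 / P⌋ : ℝ))).comp_sub_const t0 (P * (⌊t0 / P⌋ : ℝ))
  exact this

/-- time profile of the `j`-th slot. -/
noncomputable def tau (K j : ℕ) (t : ℝ) : ℝ := S1 (tmod ((K : ℝ) + 2) t - ((j : ℝ) + 1))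

/-- its time derivative. -/
noncomputable def tau' (K j : ℕ) (t : ℝ) : ℝ := S2 (tmod ((K : ℝ) + 2) t - ((j : ℝ) + 1))

theorem tau_contDiff {K j : ℕ} (hj : j < K) : ContDiff ℝ ∞ (tau K j) := by
  have hjK : (j : ℝ) + 1 ≤ K := by exact_mod_cast hj
  have hj0 : (0 : ℝ) ≤ j := Nat.cast_nonneg j
  refine contDiff_comp_tmod (h := fun s => S1 (s - ((j : ℝ) + 1))) (a := 1) (b := (K : ℝ) + 1)
    one_pos (by linarith) (fun s hs => S1_of_nonpos (by linarith))
    (fun s hs => S1_of_one_le (by linarith)) (by positivity) ?_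
  exact S1_contDiff.comp (contDiff_id.sub contDiff_const)

theorem tau'_contDiff {K j : ℕ} (hj : j < K) : ContDiff ℝ ∞ (tau' K j) := by
  have hjK : (j : ℝ) + 1 ≤ K := by exact_mod_cast hj
  have hj0 : (0 : ℝ) ≤ j := Nat.cast_nonneg j
  refine contDiff_comp_tmod (h := fun s => S2 (s - ((j : ℝ) + 1))) (a := 1) (b := (K : ℝ) + 1)
    one_pos (by linarith) (fun s hs => S2_of_nonpos (by linarith))
    (fun s hs => S2_of_one_le (by linarith)) (by positivity) ?_
  exact S2_contDiff.comp (contDiff_id.sub contDiff_const)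

theorem hasDerivAt_tau {K j : ℕ} (hj : j < K) (t : ℝ) : HasDerivAt (tau K j) (tau' K j t) t := by
  have hjK : (j : ℝ) + 1 ≤ K := by exact_mod_cast hj
  have hj0 : (0 : ℝ) ≤ j := Nat.cast_nonneg j
  refine hasDerivAt_comp_tmod (h := fun s => S1 (s - ((j : ℝ) + 1)))
    (h' := fun s => S2 (s - ((j : ℝ) + 1))) (a := 1) (b := (K : ℝ) + 1)
    one_pos (by linarith) (fun s hs => S1_of_nonpos (by linarith))
    (fun s hs => S1_of_one_le (by linarith)) (by positivity) ?_ t
  intro s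
  exact (hasDerivAt_S1 (s - ((j : ℝ) + 1))).comp_sub_const s ((j : ℝ) + 1)

/-- at each time at most one of the profiles is active. -/
theorem active_cases (K : ℕ) (t : ℝ) :
    (∀ j, tau K j t = 0) ∨ (S1 t = 0 ∧ ∃ k, ∀ j, j ≠ k → tau K j t = 0) := by
  have hP : (0 : ℝ) < (K : ℝ) + 2 := by positivity
  by_cases h : ∃ k, tau K k t ≠ 0
  · right
    obtain ⟨k, hk⟩ := h
    have hk0 : 0 < tmod ((K : ℝ) + 2) t - ((k : ℝ) + 1) := by
      by_contra hcon
      exact hk (S1_of_nonpos (not_lt.1 hcon))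
    have hk1 : tmod ((K : ℝ) + 2) t - ((k : ℝ) + 1) < 1 := by
      by_contra hcon
      exact hk (S1_of_one_le (not_lt.1 hcon))
    refine ⟨?_, k, ?_⟩
    · by_contra hS
      have ht0 : 0 < t := by
        by_contra hcon
        exact hS (S1_of_nonpos (not_lt.1 hcon))
      have ht1 : t < 1 := by
        by_contra hcon
        exact hS (S1_of_one_le (not_lt.1 hcon))
      have := tmod_of_mem hP ht0.le (by linarith [(Nat.cast_nonneg K : (0 : ℝ) ≤ K)])
      rw [this] at hk0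
      linarith [(Nat.cast_nonneg k : (0 : ℝ) ≤ k)]
    · intro j hj
      rcases lt_or_gt_of_ne hj with hjk | hjk
      · have : (j : ℝ) + 1 ≤ k := by exact_mod_cast hjk
        exact S1_of_one_le (by linarith)
      · have : (k : ℝ) + 1 ≤ j := by exact_mod_cast hjk
        exact S1_of_nonpos (by linarith)
  · left
    push Not at h
    exact h

end Vale.Agent.P113
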