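import Vale.Agent.P113.CRLib

namespace Vale.Agent.P113

open scoped ContDiff

/-- product of functions of the four single variables. -/
def tens (h0 h1 h2 h3 : ℝ → ℝ) : ℝ × E3 → ℝ :=
  fun z => h0 z.1 * h1 (z.2 0) * h2 (z.2 1) * h3 (z.2 2)

theorem contDiff_coord (i : Fin 3) : ContDiff ℝ ∞ (fun z : ℝ × E3 => z.2 i) :=
  (contDiff_apply ℝ ℝ i).comp contDiff_snd

theorem tens_contDiff {h0 h1 h2 h3 : ℝ → ℝ} (H0 : ContDiff ℝ ∞ h0) (H1 : ContDiff ℝ ∞ h1)
    (H2 : ContDiff ℝ ∞ h2) (H3 : ContDiff ℝ ∞ h3) : ContDiff ℝ ∞ (tens h0 h1 h2 h3) :=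
  (((H0.comp contDiff_fst).mul (H1.comp (contDiff_coord 0))).mul (H2.comp (contDiff_coord 1))).mul
    (H3.comp (contDiff_coord 2))

theorem dirD_eq_deriv {F : ℝ × E3 → ℝ} (hF : ContDiff ℝ ∞ F) (v z : ℝ × E3) :
    dirD v F z = deriv (fun s : ℝ => F (z + s • v)) 0 :=
  ((hF.differentiable (by simp) z).lineDeriv_eq_fderiv (v := v)).symm

theorem dirD_contDiff {F : ℝ × E3 → ℝ} (hF : ContDiff ℝ ∞ F) (v : ℝ × E3) :
    ContDiff ℝ ∞ (dirD v F) :=
  (hF.fderiv_right (m := ∞) (by simp)).clm_apply contDiff_const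

theorem iter_dirD_contDiff {F : ℝ × E3 → ℝ} (hF : ContDiff ℝ ∞ F) (v : ℝ × E3) (n : ℕ) :
    ContDiff ℝ ∞ ((dirD v)^[n] F) := by
  induction n with
  | zero => exact hF
  | succ n ih =>
    rw [Function.iterate_succ_apply']
    exact dirD_contDiff ih v

theorem deriv_shift {h : ℝ → ℝ} (H : ContDiff ℝ ∞ h) (x : ℝ) :
    HasDerivAt (fun s : ℝ => h (x + s)) (deriv h x) 0 := by
  have h1 : HasDerivAt h (deriv h x) (x + 0) := by
    rw [add_zero]
    exact (H.differentiable (by simp) x).hasDerivAt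
  exact h1.comp_const_add x 0

theorem dirD_tens_time {h0 h1 h2 h3 : ℝ → ℝ} (H0 : ContDiff ℝ ∞ h0) (H1 : ContDiff ℝ ∞ h1)
    (H2 : ContDiff ℝ ∞ h2) (H3 : ContDiff ℝ ∞ h3) :
    dirD (1, 0) (tens h0 h1 h2 h3) = tens (deriv h0) h1 h2 h3 := by
  funext z
  rw [dirD_eq_deriv (tens_contDiff H0 H1 H2 H3)]
  have : (fun s : ℝ => tens h0 h1 h2 h3 (z + s • ((1 : ℝ), (0 : E3))))
      = fun s => h0 (z.1 + s) * h1 (z.2 0) * h2 (z.2 1) * h3 (z.2 2) := by
    funext s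
    simp [tens]
  rw [this]
  exact ((((deriv_shift H0 z.1).mul_const _).mul_const _).mul_const _).deriv

theorem dirD_tens_0 {h0 h1 h2 h3 : ℝ → ℝ} (H0 : ContDiff ℝ ∞ h0) (H1 : ContDiff ℝ ∞ h1)
    (H2 : ContDiff ℝ ∞ h2) (H3 : ContDiff ℝ ∞ h3) :
    dirD (0, Pi.single 0 1) (tens h0 h1 h2 h3) = tens h0 (deriv h1) h2 h3 := by
  funext z
  rw [dirD_eq_deriv (tens_contDiff H0 H1 H2 H3)]
  have : (fun s : ℝ => tens h0 h1 h2 h3 (z + s • ((0 : ℝ), (Pi.single 0 1 : E3))))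
      = fun s => h0 z.1 * h1 (z.2 0 + s) * h2 (z.2 1) * h3 (z.2 2) := by
    funext s
    simp [tens]
  rw [this]
  exact ((((deriv_shift H1 (z.2 0)).const_mul _).mul_const _).mul_const _).deriv

theorem dirD_tens_1 {h0 h1 h2 h3 : ℝ → ℝ} (H0 : ContDiff ℝ ∞ h0) (H1 : ContDiff ℝ ∞ h1)
    (H2 : ContDiff ℝ ∞ h2) (H3 : ContDiff ℝ ∞ h3) :
    dirD (0, Pi.single 1 1) (tens h0 h1 h2 h3) = tens h0 h1 (deriv h2) h3 := by
  funext z
  rw [dirD_eq_deriv (tens_contDiff H0 H1 H2 H3)]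
  have : (fun s : ℝ => tens h0 h1 h2 h3 (z + s • ((0 : ℝ), (Pi.single 1 1 : E3))))
      = fun s => h0 z.1 * h1 (z.2 0) * h2 (z.2 1 + s) * h3 (z.2 2) := by
    funext s
    simp [tens]
  rw [this]
  exact (((deriv_shift H2 (z.2 1)).const_mul _).mul_const _).deriv

theorem dirD_tens_2 {h0 h1 h2 h3 : ℝ → ℝ} (H0 : ContDiff ℝ ∞ h0) (H1 : ContDiff ℝ ∞ h1)
    (H2 : ContDiff ℝ ∞ h2) (H3 : ContDiff ℝ ∞ h3) :
    dirD (0, Pi.single 2 1) (tens h0 h1 h2 h3) = tens h0 h1 h2 (deriv h3) := by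
  funext z
  rw [dirD_eq_deriv (tens_contDiff H0 H1 H2 H3)]
  have : (fun s : ℝ => tens h0 h1 h2 h3 (z + s • ((0 : ℝ), (Pi.single 2 1 : E3))))
      = fun s => h0 z.1 * h1 (z.2 0) * h2 (z.2 1) * h3 (z.2 2 + s) := by
    funext s
    simp [tens]
  rw [this]
  exact ((deriv_shift H3 (z.2 2)).const_mul _).deriv

theorem contDiff_iteratedDeriv {h : ℝ → ℝ} (H : ContDiff ℝ ∞ h) (n : ℕ) :
    ContDiff ℝ ∞ (iteratedDeriv n h) := by
  rw [iteratedDeriv_eq_iterate]
  exact ContDiff.iterate_deriv n H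

theorem mixedD_tens {h0 h1 h2 h3 : ℝ → ℝ} (H0 : ContDiff ℝ ∞ h0) (H1 : ContDiff ℝ ∞ h1)
    (H2 : ContDiff ℝ ∞ h2) (H3 : ContDiff ℝ ∞ h3) (a : ℕ) (b : Fin 3 → ℕ) :
    mixedD a b (tens h0 h1 h2 h3) =
      tens (iteratedDeriv a h0) (iteratedDeriv (b 0) h1) (iteratedDeriv (b 1) h2)
        (iteratedDeriv (b 2) h3) := by
  have e3 : ∀ n, (dirD (0, Pi.single 2 1))^[n] (tens h0 h1 h2 h3)
      = tens h0 h1 h2 (iteratedDeriv n h3) := by
    intro n
    induction n with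
    | zero => simp
    | succ n ih =>
      rw [Function.iterate_succ_apply', ih,
        dirD_tens_2 H0 H1 H2 (contDiff_iteratedDeriv H3 n), iteratedDeriv_succ]
  have e2 : ∀ (k3 : ℝ → ℝ), ContDiff ℝ ∞ k3 → ∀ n, (dirD (0, Pi.single 1 1))^[n] (tens h0 h1 h2 k3)
      = tens h0 h1 (iteratedDeriv n h2) k3 := by
    intro k3 K3 n
    induction n with
    | zero => simp
    | succ n ih =>
      rw [Function.iterate_succ_apply', ih,
        dirD_tens_1 H0 H1 (contDiff_iteratedDeriv H2 n) K3, iteratedDeriv_succ]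
  have e1 : ∀ (k2 k3 : ℝ → ℝ), ContDiff ℝ ∞ k2 → ContDiff ℝ ∞ k3 →
      ∀ n, (dirD (0, Pi.single 0 1))^[n] (tens h0 h1 k2 k3)
      = tens h0 (iteratedDeriv n h1) k2 k3 := by
    intro k2 k3 K2 K3 n
    induction n with
    | zero => simp
    | succ n ih =>
      rw [Function.iterate_succ_apply', ih,
        dirD_tens_0 H0 (contDiff_iteratedDeriv H1 n) K2 K3, iteratedDeriv_succ]
  have e0 : ∀ (k1 k2 k3 : ℝ → ℝ), ContDiff ℝ ∞ k1 → ContDiff ℝ ∞ k2 → ContDiff ℝ ∞ k3 →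
      ∀ n, (dirD (1, 0))^[n] (tens h0 k1 k2 k3)
      = tens (iteratedDeriv n h0) k1 k2 k3 := by
    intro k1 k2 k3 K1 K2 K3 n
    induction n with
    | zero => simp
    | succ n ih =>
      rw [Function.iterate_succ_apply', ih,
        dirD_tens_time (contDiff_iteratedDeriv H0 n) K1 K2 K3, iteratedDeriv_succ]
  unfold mixedD
  rw [e3, e2 _ (contDiff_iteratedDeriv H3 _), e1 _ _ (contDiff_iteratedDeriv H2 _)
    (contDiff_iteratedDeriv H3 _), e0 _ _ _ (contDiff_iteratedDeriv H1 _)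
    (contDiff_iteratedDeriv H2 _) (contDiff_iteratedDeriv H3 _)]

theorem dirD_add {F G : ℝ × E3 → ℝ} (hF : ContDiff ℝ ∞ F) (hG : ContDiff ℝ ∞ G) (v : ℝ × E3) :
    dirD v (fun z => F z + G z) = fun z => dirD v F z + dirD v G z := by
  funext z
  unfold dirD
  rw [fderiv_fun_add (hF.differentiable (by simp) z) (hG.differentiable (by simp) z)]
  rfl

theorem dirD_const_mul {F : ℝ × E3 → ℝ} (hF : ContDiff ℝ ∞ F) (r : ℝ) (v : ℝ × E3) :
    dirD v (fun z => r * F z) = fun z => r * dirD v F z := by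
  funext z
  unfold dirD
  rw [fderiv_const_mul (hF.differentiable (by simp) z)]
  rfl

theorem iter_dirD_add {F G : ℝ × E3 → ℝ} (hF : ContDiff ℝ ∞ F) (hG : ContDiff ℝ ∞ G)
    (v : ℝ × E3) (n : ℕ) :
    (dirD v)^[n] (fun z => F z + G z) = fun z => (dirD v)^[n] F z + (dirD v)^[n] G z := by
  induction n with
  | zero => rfl
  | succ n ih =>
    rw [Function.iterate_succ_apply', ih,
      dirD_add (iter_dirD_contDiff hF v n) (iter_dirD_contDiff hG v n)]
    simp only [Function.iterate_succ_apply']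

theorem iter_dirD_const_mul {F : ℝ × E3 → ℝ} (hF : ContDiff ℝ ∞ F) (r : ℝ)
    (v : ℝ × E3) (n : ℕ) :
    (dirD v)^[n] (fun z => r * F z) = fun z => r * (dirD v)^[n] F z := by
  induction n with
  | zero => rfl
  | succ n ih =>
    rw [Function.iterate_succ_apply', ih, dirD_const_mul (iter_dirD_contDiff hF v n)]
    simp only [Function.iterate_succ_apply']

theorem mixedD_add {F G : ℝ × E3 → ℝ} (hF : ContDiff ℝ ∞ F) (hG : ContDiff ℝ ∞ G) (a : ℕ)
    (b : Fin 3 → ℕ) : mixedD a b (fun z => F z + G z) = fun z => mixedD a b F z + mixedD a b G z := by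
  unfold mixedD
  have F3 := iter_dirD_contDiff hF (0, Pi.single 2 1) (b 2)
  have G3 := iter_dirD_contDiff hG (0, Pi.single 2 1) (b 2)
  have F2 := iter_dirD_contDiff F3 (0, Pi.single 1 1) (b 1)
  have G2 := iter_dirD_contDiff G3 (0, Pi.single 1 1) (b 1)
  have F1 := iter_dirD_contDiff F2 (0, Pi.single 0 1) (b 0)
  have G1 := iter_dirD_contDiff G2 (0, Pi.single 0 1) (b 0)
  rw [iter_dirD_add hF hG, iter_dirD_add F3 G3, iter_dirD_add F2 G2, iter_dirD_add F1 G1]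

theorem mixedD_const_mul {F : ℝ × E3 → ℝ} (hF : ContDiff ℝ ∞ F) (r : ℝ) (a : ℕ)
    (b : Fin 3 → ℕ) : mixedD a b (fun z => r * F z) = fun z => r * mixedD a b F z := by
  unfold mixedD
  have F3 := iter_dirD_contDiff hF (0, Pi.single 2 1) (b 2)
  have F2 := iter_dirD_contDiff F3 (0, Pi.single 1 1) (b 1)
  have F1 := iter_dirD_contDiff F2 (0, Pi.single 0 1) (b 0)
  rw [iter_dirD_const_mul hF, iter_dirD_const_mul F3, iter_dirD_const_mul F2,
    iter_dirD_const_mul F1]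

theorem mixedD_zero (a : ℕ) (b : Fin 3 → ℕ) :
    mixedD a b (fun _ => (0 : ℝ)) = fun _ => 0 := by
  have := mixedD_const_mul (F := fun _ => (0 : ℝ)) contDiff_const 0 a b
  simpa using this

theorem mixedD_sum {ι : Type} (s : Finset ι) (F : ι → ℝ × E3 → ℝ)
    (hF : ∀ i ∈ s, ContDiff ℝ ∞ (F i)) (a : ℕ) (b : Fin 3 → ℕ) :
    mixedD a b (fun z => ∑ i ∈ s, F i z) = fun z => ∑ i ∈ s, mixedD a b (F i) z := by
  classical
  induction s using Finset.induction_on with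
  | empty => simpa using mixedD_zero a b
  | insert i s hi ih =>
    have h1 : ContDiff ℝ ∞ (F i) := hF i (Finset.mem_insert_self i s)
    have h2 : ∀ j ∈ s, ContDiff ℝ ∞ (F j) := fun j hj => hF j (Finset.mem_insert_of_mem hj)
    have h3 : ContDiff ℝ ∞ (fun z => ∑ j ∈ s, F j z) := ContDiff.sum h2
    simp only [Finset.sum_insert hi]
    rw [mixedD_add h1 h3, ih h2]

/-- the type of queries: orders of differentiation and a rational space-time point. -/
abbrev Query : Type := ℕ × (ℕ × ℕ × ℕ) × Q3 × (Q3 × Q3 × Q3)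

/-- A smooth space-time function all of whose mixed derivatives are uniformly computable at
rational points. -/
def Eff4 (F : ℝ × E3 → ℝ) : Prop :=
  ContDiff ℝ ∞ F ∧ CompReal (fun q : Query =>
    mixedD q.1 ![q.2.1.1, q.2.1.2.1, q.2.1.2.2] F
      (qv q.2.2.1, ![qv q.2.2.2.1, qv q.2.2.2.2.1, qv q.2.2.2.2.2]))

theorem Eff4.tens {h0 h1 h2 h3 : ℝ → ℝ} (H0 : Eff1 h0) (H1 : Eff1 h1) (H2 : Eff1 h2)
    (H3 : Eff1 h3) : Eff4 (tens h0 h1 h2 h3) := by
  refine ⟨tens_contDiff H0.1 H1.1 H2.1 H3.1, ?_⟩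
  have c0 : CompReal (fun q : Query => iteratedDeriv q.1 h0 (qv q.2.2.1)) :=
    H0.2.comp (g := fun q : Query => (q.1, q.2.2.1))
      (Computable.fst.pair (Computable.fst.comp (Computable.snd.comp Computable.snd)))
  have c1 : CompReal (fun q : Query => iteratedDeriv q.2.1.1 h1 (qv q.2.2.2.1)) :=
    H1.2.comp (g := fun q : Query => (q.2.1.1, q.2.2.2.1))
      ((Computable.fst.comp (Computable.fst.comp Computable.snd)).pair
        (Computable.fst.comp (Computable.snd.comp (Computable.snd.comp Computable.snd))))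
  have c2 : CompReal (fun q : Query => iteratedDeriv q.2.1.2.1 h2 (qv q.2.2.2.2.1)) :=
    H2.2.comp (g := fun q : Query => (q.2.1.2.1, q.2.2.2.2.1))
      ((Computable.fst.comp (Computable.snd.comp (Computable.fst.comp Computable.snd))).pair
        (Computable.fst.comp (Computable.snd.comp
          (Computable.snd.comp (Computable.snd.comp Computable.snd)))))
  have c3 : CompReal (fun q : Query => iteratedDeriv q.2.1.2.2 h3 (qv q.2.2.2.2.2)) :=
    H3.2.comp (g := fun q : Query => (q.2.1.2.2, q.2.2.2.2.2))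
      ((Computable.snd.comp (Computable.snd.comp (Computable.fst.comp Computable.snd))).pair
        (Computable.snd.comp (Computable.snd.comp
          (Computable.snd.comp (Computable.snd.comp Computable.snd)))))
  refine (((c0.mul c1).mul c2).mul c3).of_eq ?_
  intro q
  rw [mixedD_tens H0.1 H1.1 H2.1 H3.1]
  simp [Vale.Agent.P113.tens]

theorem Eff4.add {F G : ℝ × E3 → ℝ} (hF : Eff4 F) (hG : Eff4 G) : Eff4 (fun z => F z + G z) := by
  refine ⟨hF.1.add hG.1, (hF.2.add hG.2).of_eq ?_⟩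
  intro q
  rw [mixedD_add hF.1 hG.1]

theorem Eff4.const_mul {F : ℝ × E3 → ℝ} (hF : Eff4 F) {r : ℝ} (hr : IsComputableReal r) :
    Eff4 (fun z => r * F z) := by
  refine ⟨contDiff_const.mul hF.1, ((CompReal.const_real hr).mul hF.2).of_eq ?_⟩
  intro q
  rw [mixedD_const_mul hF.1]

theorem Eff4.sum {ι : Type} (s : Finset ι) (F : ι → ℝ × E3 → ℝ) (hF : ∀ i ∈ s, Eff4 (F i)) :
    Eff4 (fun z => ∑ i ∈ s, F i z) := by
  refine ⟨ContDiff.sum (fun i hi => (hF i hi).1),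
    (CompReal.finset_sum s _ (fun i hi => (hF i hi).2)).of_eq ?_⟩
  intro q
  rw [mixedD_sum s F (fun i hi => (hF i hi).1)]

end Vale.Agent.P113
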