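import Vale.Agent.P113.CR
import Vale.Agent.P113.CRStep
import Vale.Agent.P113.Tools
import Vale.Agent.P113.Tens
import Vale.Agent.P113.Eff1Lib
import Vale.Agent.P113.FlowBasic

namespace Vale.Agent.P113

open scoped ContDiff

theorem Eff4.congr {F G : ℝ × E3 → ℝ} (hF : Eff4 F) (h : ∀ z, F z = G z) : Eff4 G := by
  have : F = G := funext h
  rwa [← this]

theorem Eff1.congr {F G : ℝ → ℝ} (hF : Eff1 F) (h : ∀ z, F z = G z) : Eff1 G := by
  have : F = G := funext h
  rwa [← this]

theorem isComputableReal_rat (q : ℚ) : IsComputableReal (q : ℝ) := by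
  obtain ⟨a, ha, hb⟩ := CompReal.const_rat (α := Unit) q
  refine ⟨fun n => a () n, ?_, fun n => hb () n⟩
  exact ha.comp (Computable.const ()) Computable.id

theorem eff1_one : Eff1 (fun _ => (1 : ℝ)) :=
  (Eff1.const 1).congr (fun _ => by simp)

/-- a space factor: its product with any effective time factor is effective. -/
def EffS (g : E3 → ℝ) : Prop := ∀ h0 : ℝ → ℝ, Eff1 h0 → Eff4 (fun z => h0 z.1 * g z.2)

theorem EffS.congr {g g' : E3 → ℝ} (hg : EffS g) (h : ∀ x, g x = g' x) : EffS g' := by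
  have : g = g' := funext h
  rwa [← this]

theorem EffS.coord {h : ℝ → ℝ} (hh : Eff1 h) (k : Fin 3) : EffS (fun x => h (x k)) := by
  intro h0 H0
  fin_cases k
  · exact (Eff4.tens H0 hh eff1_one eff1_one).congr (fun z => by simp [tens])
  · exact (Eff4.tens H0 eff1_one hh eff1_one).congr (fun z => by simp [tens])
  · exact (Eff4.tens H0 eff1_one eff1_one hh).congr (fun z => by simp [tens])

theorem EffS.coord2 {h h' : ℝ → ℝ} (hh : Eff1 h) (hh' : Eff1 h') (k l : Fin 3) (hkl : k ≠ l) :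
    EffS (fun x => h (x k) * h' (x l)) := by
  intro h0 H0
  fin_cases k <;> fin_cases l
  · exact absurd rfl hkl
  · exact (Eff4.tens H0 hh hh' eff1_one).congr (fun z => by simp [tens]; ring)
  · exact (Eff4.tens H0 hh eff1_one hh').congr (fun z => by simp [tens]; ring)
  · exact (Eff4.tens H0 hh' hh eff1_one).congr (fun z => by simp [tens]; ring)
  · exact absurd rfl hkl
  · exact (Eff4.tens H0 eff1_one hh hh').congr (fun z => by simp [tens]; ring)
  · exact (Eff4.tens H0 hh' eff1_one hh).congr (fun z => by simp [tens]; ring)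
  · exact (Eff4.tens H0 eff1_one hh' hh).congr (fun z => by simp [tens]; ring)
  · exact absurd rfl hkl

theorem EffS.add {g g' : E3 → ℝ} (hg : EffS g) (hg' : EffS g') : EffS (fun x => g x + g' x) := by
  intro h0 H0
  exact ((hg h0 H0).add (hg' h0 H0)).congr (fun z => by ring)

theorem EffS.neg {g : E3 → ℝ} (hg : EffS g) : EffS (fun x => - g x) := by
  intro h0 H0
  exact (hg _ H0.neg).congr (fun z => by ring)

theorem EffS.sub {g g' : E3 → ℝ} (hg : EffS g) (hg' : EffS g') : EffS (fun x => g x - g' x) :=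
  (hg.add hg'.neg).congr (fun x => by ring)

theorem EffS.rat_mul {g : E3 → ℝ} (hg : EffS g) (q : ℚ) : EffS (fun x => (q : ℝ) * g x) := by
  intro h0 H0
  exact ((hg h0 H0).const_mul (isComputableReal_rat q)).congr (fun z => by ring)

theorem EffS.sum {ι : Type} (s : Finset ι) (g : ι → E3 → ℝ) (hg : ∀ i ∈ s, EffS (g i)) :
    EffS (fun x => ∑ i ∈ s, g i x) := by
  intro h0 H0
  exact (Eff4.sum s (fun i z => h0 z.1 * g i z.2) (fun i hi => hg i hi h0 H0)).congr
    (fun z => by rw [Finset.mul_sum])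

section sched

variable {ι : Type} [Fintype ι] {N : ℕ} (hN : 8 ≤ N) {bn : ι → ℕ} (hle : ∀ i, 4 * bn i ≤ N)

include hN hle

theorem effS_FT (T : ι → ι → ℚ × ℚ) (k l : Fin 3) (hkl : k ≠ l) :
    EffS (fun x => FT N bn T (x k) (x l)) := by
  unfold FT
  apply EffS.sum
  intro i _
  apply EffS.sum
  intro j _
  exact EffS.coord2 (eff1_pP hN (hle i)) (eff1_pQ hN (hle j) _ _) k l hkl

theorem effS_FTlap (T : ι → ι → ℚ × ℚ) (k l : Fin 3) (hkl : k ≠ l) :
    EffS (fun x => FTlap N bn T (x k) (x l)) := by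
  unfold FTlap
  apply EffS.sum
  intro i _
  apply EffS.sum
  intro j _
  exact (EffS.coord2 ((eff1_pP hN (hle i)).iteratedDeriv 2) (eff1_pQ hN (hle j) _ _) k l hkl).add
    (EffS.coord2 (eff1_pP hN (hle i)) ((eff1_pQ hN (hle j) _ _).iteratedDeriv 2) k l hkl)

theorem effS_slotShear (ctl own : Fin 3) (hco : ctl ≠ own) (hc2 : ctl ≠ 2)
    (T T' : ι → ι → ℚ × ℚ) (m : ℕ) :
    EffS (slotShear ctl own N bn T T' m).g ∧ EffS (slotShear ctl own N bn T T' m).lap := by
  match m with
  | 0 => exact ⟨effS_FT hN hle T ctl own hco, effS_FTlap hN hle T ctl own hco⟩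
  | 1 =>
    exact ⟨(EffS.coord eff1_pL 2).sub (effS_FT hN hle T' ctl 2 hc2),
      (EffS.coord (eff1_pL.iteratedDeriv 2) 2).sub (effS_FTlap hN hle T' ctl 2 hc2)⟩
  | (n + 2) =>
    exact ⟨(EffS.coord eff1_pL own).neg, (EffS.coord (eff1_pL.iteratedDeriv 2) own).neg⟩

theorem effS_haltShear (fl : ι → Bool) :
    EffS (haltShear N bn fl).g ∧ EffS (haltShear N bn fl).lap := by
  constructor
  · apply EffS.sum
    intro i _
    exact ((EffS.coord (eff1_pP hN (hle i)) 0).rat_mul (if fl i then 1 / 2 else 0)).congr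
      (fun x => by split_ifs <;> simp)
  · apply EffS.sum
    intro i _
    exact ((EffS.coord ((eff1_pP hN (hle i)).iteratedDeriv 2) 0).rat_mul
      (if fl i then 1 / 2 else 0)).congr (fun x => by split_ifs <;> simp)

theorem effS_sched (fl : ι → Bool) (T1 T1' T2 T2' T3 T3' : ι → ι → ℚ × ℚ) (j : ℕ) :
    EffS (sched N bn fl T1 T1' T2 T2' T3 T3' j).g ∧
      EffS (sched N bn fl T1 T1' T2 T2' T3 T3' j).lap := by
  unfold sched
  split_ifs
  · exact effS_haltShear hN hle fl
  · exact effS_slotShear hN hle 0 1 (by decide) (by decide) T1 T1' _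
  · exact effS_slotShear hN hle 1 0 (by decide) (by decide) T2 T2' _
  · exact effS_slotShear hN hle 0 1 (by decide) (by decide) T3 T3' _

end sched

theorem eff1_time {h : ℝ → ℝ} (hh : Eff1 h) (h0 : ∀ t, t ≤ 0 → h t = 0)
    (h1 : ∀ t, 1 ≤ t → h t = 0) (j : ℕ) (hj : j < 10) :
    Eff1 (fun t => h (tmod (((10 : ℕ) : ℝ) + 2) t - ((j : ℝ) + 1))) := by
  have hk := hh.comp_affine 1 (-((j : ℚ) + 1))
  have hj' : (j : ℝ) ≤ 9 := by
    have : j ≤ 9 := by omega
    exact_mod_cast this
  have hj0 : (0 : ℝ) ≤ j := Nat.cast_nonneg j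
  have := Eff1.tmod hk 12 (by norm_num) (by
    intro x hx
    rcases hx with hx | hx
    · apply h0
      push_cast
      linarith
    · apply h1
      push_cast at hx ⊢
      linarith)
  refine this.congr (fun t => ?_)
  have e : (((12 : ℕ) : ℝ)) = ((10 : ℕ) : ℝ) + 2 := by norm_num
  rw [e]
  congr 1
  push_cast
  ring


/-- the part of the `i`-th component of the force that does not depend on the kick. -/
noncomputable def forceRest (ν : ℝ) (sh : ℕ → Shear) (i : Fin 3) (z : ℝ × E3) : ℝ :=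
  ∑ j ∈ Finset.range 10,
    (S2 (tmod (((10 : ℕ) : ℝ) + 2) z.1 - ((j : ℝ) + 1)) * (sh j).g z.2
      - ν * (S1 (tmod (((10 : ℕ) : ℝ) + 2) z.1 - ((j : ℝ) + 1)) * (sh j).lap z.2)) *
        (Pi.single (sh j).dir (1 : ℝ) : E3) i

theorem force_apply_eff (ν : ℝ) (c : E3) (sh : ℕ → Shear) (t : ℝ) (x : E3) (i : Fin 3) :
    force ν c 10 sh t x i = c i * (S2 t * 1) + forceRest ν sh i (t, x) := by
  simp only [force, forceRest, Pi.add_apply, Pi.smul_apply, Finset.sum_apply, smul_eq_mul]
  ring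

theorem eff4_forceRest {ν : ℝ} (hν : IsComputableReal ν) (sh : ℕ → Shear)
    (hsh : ∀ j, EffS (sh j).g ∧ EffS (sh j).lap) (i : Fin 3) : Eff4 (forceRest ν sh i) := by
  unfold forceRest
  apply Eff4.sum
  intro j hj
  have hj' : j < 10 := Finset.mem_range.1 hj
  have hA := (hsh j).1 _ (eff1_time eff1_S2 (fun t => S2_of_nonpos) (fun t => S2_of_one_le) j hj')
  have hB := (hsh j).2 _ (eff1_time eff1_S1 (fun t => S1_of_nonpos) (fun t => S1_of_one_le) j hj')
  have he : IsComputableReal ((Pi.single (sh j).dir (1 : ℝ) : E3) i) := by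
    by_cases h : i = (sh j).dir
    · rw [h, Pi.single_eq_same]
      simpa using isComputableReal_rat 1
    · rw [Pi.single_eq_of_ne h]
      simpa using isComputableReal_rat 0
  have hm1 : IsComputableReal (-1 : ℝ) := by simpa using isComputableReal_rat (-1)
  exact ((hA.const_mul he).add (((hB.const_mul hν).const_mul hm1).const_mul he)).congr
    (fun z => by ring)

theorem eff4_kick : Eff4 (fun z : ℝ × E3 => S2 z.1 * 1) :=
  (EffS.coord eff1_one 0) S2 eff1_S2

/-- the point and orders of differentiation described by a query. -/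
noncomputable def evalQ (F : ℝ × E3 → ℝ) (q : Query) : ℝ :=
  mixedD q.1 ![q.2.1.1, q.2.1.2.1, q.2.1.2.2] F
    (qv q.2.2.1, ![qv q.2.2.2.1, qv q.2.2.2.2.1, qv q.2.2.2.2.2])

theorem evalQ_force {ν : ℝ} (hν : IsComputableReal ν) (c : E3) (sh : ℕ → Shear)
    (hsh : ∀ j, EffS (sh j).g ∧ EffS (sh j).lap) (i : Fin 3) (q : Query) :
    evalQ (fun z => force ν c 10 sh z.1 z.2 i) q
      = c i * evalQ (fun z : ℝ × E3 => S2 z.1 * 1) q + evalQ (forceRest ν sh i) q := by
  have e : (fun z : ℝ × E3 => force ν c 10 sh z.1 z.2 i)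
      = fun z => c i * (S2 z.1 * 1) + forceRest ν sh i z := by
    funext z
    exact force_apply_eff ν c sh z.1 z.2 i
  unfold evalQ
  rw [e, mixedD_add (contDiff_const.mul eff4_kick.1) (eff4_forceRest hν sh hsh i).1,
    mixedD_const_mul eff4_kick.1]

theorem force_effective {ν : ℝ} (hν : IsComputableReal ν) {α : Type} [Primcodable α]
    {ι : Type} [Fintype ι] (N : ℕ) (hN : 8 ≤ N) (bn : ι → ℕ) (hle : ∀ i, 4 * bn i ≤ N)
    (fl : ι → Bool)
    (T1 T1' T2 T2' T3 T3' : ι → ι → ℚ × ℚ) (cq : α → ℕ × ℕ × ℕ) (hcq : Computable cq) :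
    ∃ compiler : α → Nat.Partrec.Code, Computable compiler ∧
      ∀ a, IsProgramFor (compiler a)
        (force ν (Pi.single 0 (qv (cq a))) 10 (sched N bn fl T1 T1' T2 T2' T3 T3')) := by
  set sh := sched N bn fl T1 T1' T2 T2' T3 T3' with hsh_def
  have hsh : ∀ j, EffS (sh j).g ∧ EffS (sh j).lap :=
    fun j => effS_sched hN hle fl T1 T1' T2 T2' T3 T3' j
  -- for each component, joint computability in the input and the query
  have hK : CompReal (fun p : α × Query => evalQ (fun z : ℝ × E3 => S2 z.1 * 1) p.2) :=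
    eff4_kick.2.comp Computable.snd
  have hR : ∀ i : Fin 3, CompReal (fun p : α × Query => evalQ (forceRest ν sh i) p.2) :=
    fun i => (eff4_forceRest hν sh hsh i).2.comp Computable.snd
  have hc0 : CompReal (fun p : α × Query => qv (cq p.1)) :=
    CompReal.of_rat (hcq.comp Computable.fst)
  have hΨ0 : CompReal (fun p : α × Query =>
      evalQ (fun z => force ν (Pi.single 0 (qv (cq p.1))) 10 sh z.1 z.2 0) p.2) :=
    ((hc0.mul hK).add (hR 0)).of_eq (fun p => by
      rw [evalQ_force hν _ sh hsh]; simp)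
  have hΨ1 : CompReal (fun p : α × Query =>
      evalQ (fun z => force ν (Pi.single 0 (qv (cq p.1))) 10 sh z.1 z.2 1) p.2) :=
    (hR 1).of_eq (fun p => by
      rw [evalQ_force hν _ sh hsh]; simp)
  have hΨ2 : CompReal (fun p : α × Query =>
      evalQ (fun z => force ν (Pi.single 0 (qv (cq p.1))) 10 sh z.1 z.2 2) p.2) :=
    (hR 2).of_eq (fun p => by
      rw [evalQ_force hν _ sh hsh]; simp)
  have hpair : Computable (fun p : α × Fin 3 × Query => (p.1, p.2.2)) :=
    Computable.fst.pair (Computable.snd.comp Computable.snd)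
  have hd0 : Computable (fun p : α × Fin 3 × Query => decide (p.2.1 = 0)) :=
    (Primrec.eq.comp (Primrec.fst.comp Primrec.snd) (Primrec.const 0)).decide.to_comp
  have hd1 : Computable (fun p : α × Fin 3 × Query => decide (p.2.1 = 1)) :=
    (Primrec.eq.comp (Primrec.fst.comp Primrec.snd) (Primrec.const 1)).decide.to_comp
  have hΨ : CompReal (fun p : α × Fin 3 × Query =>
      evalQ (fun z => force ν (Pi.single 0 (qv (cq p.1))) 10 sh z.1 z.2 p.2.1) p.2.2) :=
    (CompReal.ite hd0 (hΨ0.comp hpair) (CompReal.ite hd1 (hΨ1.comp hpair)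
      (hΨ2.comp hpair))).of_eq (fun p => by
        obtain ⟨a, i, q⟩ := p
        fin_cases i <;> simp)
  obtain ⟨A, hA, hAb⟩ := hΨ
  -- one program for all inputs, then specialise its first argument
  let R : α × (Fin 3 × ℕ × (ℕ × ℕ × ℕ) × Q3 × (Q3 × Q3 × Q3) × ℕ) → Q3 :=
    fun p => A (p.1, p.2.1, (p.2.2.1, p.2.2.2.1, p.2.2.2.2.1, p.2.2.2.2.2.1)) p.2.2.2.2.2.2
  have hRc : Computable R := by
    have s1 : Computable (fun p : α × (Fin 3 × ℕ × (ℕ × ℕ × ℕ) × Q3 × (Q3 × Q3 × Q3) × ℕ) =>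
        p.2) := Computable.snd
    have s2 := Computable.snd.comp s1
    have s3 := Computable.snd.comp s2
    have s4 := Computable.snd.comp s3
    have s5 := Computable.snd.comp s4
    exact hA.comp
      (Computable.fst.pair ((Computable.fst.comp s1).pair ((Computable.fst.comp s2).pair
        ((Computable.fst.comp s3).pair ((Computable.fst.comp s4).pair
          (Computable.fst.comp s5))))))
      (Computable.snd.comp s5)
  obtain ⟨c0, hc0e⟩ := Nat.Partrec.Code.exists_code.1 hRc
  refine ⟨fun a => Nat.Partrec.Code.curry c0 (Encodable.encode a), ?_, ?_⟩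
  · exact (Nat.Partrec.Code.primrec₂_curry.comp (Primrec.const c0) Primrec.encode).to_comp
  · intro a i a' b t x n
    refine ⟨R (a, (i, a', (b 0, b 1, b 2), t, (x 0, x 1, x 2), n)), ?_, ?_⟩
    · rw [Nat.Partrec.Code.eval_curry, hc0e, ← Encodable.encode_prod_val]
      simp only [Encodable.encodek]
      simp
    · have h := hAb (a, i, (a', (b 0, b 1, b 2), t, (x 0, x 1, x 2))) n
      have e1 : (![b 0, b 1, b 2] : Fin 3 → ℕ) = b := by
        funext j; fin_cases j <;> rfl
      have e2 : (![qv (x 0), qv (x 1), qv (x 2)] : E3) = fun j => qv (x j) := by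
        funext j; fin_cases j <;> rfl
      simp only [evalQ, e1, e2] at h
      exact h

end Vale.Agent.P113
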