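import Vale.Agent.P113.FlowBasic

namespace Vale.Agent.P113

open Set Filter
open scoped ContDiff Topology

section general

variable {F : Type*} [NormedAddCommGroup F] [NormedSpace ℝ F]

theorem fderiv_slice {U : ℝ × E3 → F} (hU : ContDiff ℝ ∞ U) (t : ℝ) (x : E3) :
    fderiv ℝ (fun y => U (t, y)) x = (fderiv ℝ U (t, x)).comp (ContinuousLinearMap.inr ℝ ℝ E3) := by
  have h1 : HasFDerivAt U (fderiv ℝ U (t, x)) (t, x) :=
    (hU.differentiable (by simp) (t, x)).hasFDerivAt
  have h2 : HasFDerivAt (fun y : E3 => (t, y)) (ContinuousLinearMap.inr ℝ ℝ E3) x :=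
    hasFDerivAt_prodMk_right t x
  exact (h1.comp x h2).fderiv

theorem contDiff_fderiv_slice {U : ℝ × E3 → F} (hU : ContDiff ℝ ∞ U) :
    ContDiff ℝ ∞ (fun z : ℝ × E3 => fderiv ℝ (fun y => U (z.1, y)) z.2) := by
  have h : (fun z : ℝ × E3 => fderiv ℝ (fun y => U (z.1, y)) z.2)
      = fun z => (fderiv ℝ U z).comp (ContinuousLinearMap.inr ℝ ℝ E3) := by
    funext z
    exact fderiv_slice hU z.1 z.2
  rw [h]
  exact (hU.fderiv_right (m := ∞) (by simp)).clm_comp contDiff_const

theorem contDiff_slice {U : ℝ × E3 → F} (hU : ContDiff ℝ ∞ U) (t : ℝ) :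
    ContDiff ℝ ∞ (fun y => U (t, y)) :=
  hU.comp (contDiff_const.prodMk contDiff_id)

theorem contDiff_slice_time {U : ℝ × E3 → F} (hU : ContDiff ℝ ∞ U) (x : E3) :
    ContDiff ℝ ∞ (fun s => U (s, x)) :=
  hU.comp (contDiff_id.prodMk contDiff_const)

theorem deriv_slice_time {U : ℝ × E3 → F} (hU : ContDiff ℝ ∞ U) (t : ℝ) (x : E3) :
    deriv (fun s => U (s, x)) t = fderiv ℝ U (t, x) (1, 0) := by
  have h1 : HasFDerivAt U (fderiv ℝ U (t, x)) (t, x) :=
    (hU.differentiable (by simp) (t, x)).hasFDerivAt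
  have h2 : HasDerivAt (fun s : ℝ => (s, x)) ((1 : ℝ), (0 : E3)) t :=
    (hasDerivAt_id t).prodMk (hasDerivAt_const t x)
  exact (h1.comp_hasDerivAt t h2).deriv

theorem derivWithin_slice_time {U : ℝ × E3 → F} (hU : ContDiff ℝ ∞ U) {T : ℝ} (hT : 0 < T)
    {t : ℝ} (ht : t ∈ Icc (0 : ℝ) T) (x : E3) :
    derivWithin (fun s => U (s, x)) (Icc (0 : ℝ) T) t = fderiv ℝ U (t, x) (1, 0) := by
  rw [← deriv_slice_time hU]
  exact ((contDiff_slice_time hU x).differentiable (by simp) t).derivWithin
    (uniqueDiffOn_Icc hT t ht)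

end general


theorem dx_const_add_sum {s : Finset ℕ} {C : ℝ} {a : ℕ → ℝ} {G : ℕ → E3 → ℝ} {x : E3}
    (hG : ∀ j ∈ s, DifferentiableAt ℝ (G j) x) (m : Fin 3) :
    dx m (fun y => C + ∑ j ∈ s, a j * G j y) x = ∑ j ∈ s, a j * dx m (G j) x := by
  have h1 : HasFDerivAt (fun y => C + ∑ j ∈ s, a j * G j y)
      (∑ j ∈ s, a j • fderiv ℝ (G j) x) x := by
    apply HasFDerivAt.const_add
    apply HasFDerivAt.fun_sum
    intro j hj
    exact (hG j hj).hasFDerivAt.const_mul (a j)
  unfold dx
  rw [h1.fderiv, _root_.sum_apply]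
  rfl

theorem contDiff_dx {g : E3 → ℝ} (hg : ContDiff ℝ ∞ g) (m : Fin 3) : ContDiff ℝ ∞ (dx m g) :=
  (hg.fderiv_right (m := ∞) (by simp)).clm_apply contDiff_const

theorem dx_dir_eq_zero {s : Shear} (hs : s.Good) (x : E3) : dx s.dir s.g x = 0 := by
  have h1 : HasFDerivAt s.g (fderiv ℝ s.g x) x :=
    (hs.smooth_g.differentiable (by simp) x).hasFDerivAt
  have h2 : HasDerivAt (fun r : ℝ => x + r • (Pi.single s.dir (1 : ℝ) : E3))
      (Pi.single s.dir (1 : ℝ) : E3) 0 := by
    have := ((hasDerivAt_id (0 : ℝ)).smul_const (Pi.single s.dir (1 : ℝ) : E3)).const_add x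
    simpa using this
  have h1' : HasFDerivAt s.g (fderiv ℝ s.g x) (x + (0 : ℝ) • (Pi.single s.dir (1 : ℝ) : E3)) := by
    simpa using h1
  have h3 := h1'.comp_hasDerivAt (0 : ℝ) h2
  have h4 : (s.g ∘ fun r : ℝ => x + r • (Pi.single s.dir (1 : ℝ) : E3)) = fun _ => s.g x := by
    funext r
    have : x + r • (Pi.single s.dir (1 : ℝ) : E3) = Function.update x s.dir (x s.dir + r) := by
      ext i
      by_cases hi : i = s.dir
      · subst hi; simp
      · simp [hi]
    simp only [Function.comp_apply]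
    rw [this, hs.indep]
  rw [h4] at h3
  exact h3.unique (hasDerivAt_const _ _)

variable {ν : ℝ} {c : E3} {K : ℕ} {sh : ℕ → Shear}

theorem vel_apply (t : ℝ) (x : E3) (i : Fin 3) :
    vel c K sh t x i = S1 t * c i + ∑ j ∈ Finset.range K,
      (tau K j t * (Pi.single (sh j).dir (1 : ℝ) : E3) i) * (sh j).g x := by
  simp only [vel, Pi.add_apply, Pi.smul_apply, Finset.sum_apply, smul_eq_mul, tau]
  congr 1
  apply Finset.sum_congr rfl
  intro j _
  ring

theorem force_apply (t : ℝ) (x : E3) (i : Fin 3) :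
    force ν c K sh t x i = S2 t * c i + ∑ j ∈ Finset.range K,
      (tau' K j t * (sh j).g x - ν * (tau K j t * (sh j).lap x)) *
        (Pi.single (sh j).dir (1 : ℝ) : E3) i := by
  simp only [force, Pi.add_apply, Pi.smul_apply, Finset.sum_apply, smul_eq_mul, tau, tau']

theorem dx_vel (hg : ∀ j < K, (sh j).Good) (t : ℝ) (i m : Fin 3) (x : E3) :
    dx m (fun y => vel c K sh t y i) x = ∑ j ∈ Finset.range K,
      (tau K j t * (Pi.single (sh j).dir (1 : ℝ) : E3) i) * dx m (sh j).g x := by
  have : (fun y => vel c K sh t y i) = fun y => S1 t * c i + ∑ j ∈ Finset.range K,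
      (tau K j t * (Pi.single (sh j).dir (1 : ℝ) : E3) i) * (sh j).g y := by
    funext y
    exact vel_apply t y i
  rw [this]
  apply dx_const_add_sum
  intro j hj
  exact (hg j (Finset.mem_range.1 hj)).smooth_g.differentiable (by simp) x

theorem dx_dx_vel (hg : ∀ j < K, (sh j).Good) (t : ℝ) (i m : Fin 3) (x : E3) :
    dx m (dx m (fun y => vel c K sh t y i)) x = ∑ j ∈ Finset.range K,
      (tau K j t * (Pi.single (sh j).dir (1 : ℝ) : E3) i) * dx m (dx m (sh j).g) x := by
  have : dx m (fun y => vel c K sh t y i) = fun y => 0 + ∑ j ∈ Finset.range K,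
      (tau K j t * (Pi.single (sh j).dir (1 : ℝ) : E3) i) * dx m (sh j).g y := by
    funext y
    rw [dx_vel hg, zero_add]
  rw [this]
  apply dx_const_add_sum
  intro j hj
  exact (contDiff_dx (hg j (Finset.mem_range.1 hj)).smooth_g m).differentiable (by simp) x

theorem hasDerivAt_vel (t : ℝ) (x : E3) (i : Fin 3) :
    HasDerivAt (fun s => vel c K sh s x i) (S2 t * c i + ∑ j ∈ Finset.range K,
      (tau' K j t * (Pi.single (sh j).dir (1 : ℝ) : E3) i) * (sh j).g x) t := by
  have : (fun s => vel c K sh s x i) = fun s => S1 s * c i + ∑ j ∈ Finset.range K,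
      (tau K j s * (Pi.single (sh j).dir (1 : ℝ) : E3) i) * (sh j).g x := by
    funext s
    exact vel_apply s x i
  rw [this]
  apply HasDerivAt.add
  · exact (hasDerivAt_S1 t).mul_const _
  · apply HasDerivAt.fun_sum
    intro j hj
    exact ((hasDerivAt_tau (Finset.mem_range.1 hj) t).mul_const _).mul_const _


theorem vel_contDiff (hg : ∀ j < K, (sh j).Good) :
    ContDiff ℝ ∞ (fun z : ℝ × E3 => vel c K sh z.1 z.2) := by
  unfold vel
  apply ContDiff.add
  · exact (S1_contDiff.comp contDiff_fst).smul contDiff_const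
  · apply ContDiff.sum
    intro j hj
    have hj' := Finset.mem_range.1 hj
    exact (((tau_contDiff hj').comp contDiff_fst).mul
      ((hg j hj').smooth_g.comp contDiff_snd)).smul contDiff_const

theorem force_smooth (hg : ∀ j < K, (sh j).Good) : IsSmoothForce (force ν c K sh) := by
  constructor
  · unfold force
    apply ContDiff.add
    · exact (S2_contDiff.comp contDiff_fst).smul contDiff_const
    · apply ContDiff.sum
      intro j hj
      have hj' := Finset.mem_range.1 hj
      have h1 : ContDiff ℝ ∞ (fun z : ℝ × E3 => tau' K j z.1 * (sh j).g z.2) :=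
        ((tau'_contDiff hj').comp contDiff_fst).mul ((hg j hj').smooth_g.comp contDiff_snd)
      have h2 : ContDiff ℝ ∞ (fun z : ℝ × E3 => ν * (tau K j z.1 * (sh j).lap z.2)) :=
        contDiff_const.mul
          (((tau_contDiff hj').comp contDiff_fst).mul ((hg j hj').smooth_lap.comp contDiff_snd))
      exact (h1.sub h2).smul contDiff_const
  · intro t x k
    unfold force
    congr 1
    apply Finset.sum_congr rfl
    intro j hj
    have hj' := Finset.mem_range.1 hj
    rw [(hg j hj').per_g x k, (hg j hj').per_lap x k]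

theorem force_periodic (t : ℝ) (x : E3) (ht : 1 ≤ t) :
    force ν c K sh (t + ((K : ℝ) + 2)) x = force ν c K sh t x := by
  have hP : (0 : ℝ) < (K : ℝ) + 2 := by positivity
  unfold force
  rw [tmod_add_period hP, S2_of_one_le ht, S2_of_one_le (by linarith)]

theorem force_indep_kick (c' : E3) (t : ℝ) (x : E3) (ht : 1 ≤ t) :
    force ν c K sh t x = force ν c' K sh t x := by
  unfold force
  rw [S2_of_one_le ht, zero_smul, zero_smul]

theorem single_mul_dx (hg : ∀ j < K, (sh j).Good) {j : ℕ} (hj : j < K) (m : Fin 3) (x : E3) :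
    (Pi.single (sh j).dir (1 : ℝ) : E3) m * dx m (sh j).g x = 0 := by
  by_cases hm : m = (sh j).dir
  · rw [hm, dx_dir_eq_zero (hg j hj), mul_zero]
  · rw [Pi.single_eq_of_ne hm, zero_mul]

theorem vel_div_free (hg : ∀ j < K, (sh j).Good) (t : ℝ) (x : E3) :
    ∑ m, dx m (fun y => vel c K sh t y m) x = 0 := by
  apply Finset.sum_eq_zero
  intro m _
  rw [dx_vel hg]
  apply Finset.sum_eq_zero
  intro j hj
  rw [mul_assoc, single_mul_dx hg (Finset.mem_range.1 hj), mul_zero]

theorem vel_nonlinear (hg : ∀ j < K, (sh j).Good) (t : ℝ) (x : E3) (i : Fin 3) :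
    ∑ m, vel c K sh t x m * dx m (fun y => vel c K sh t y i) x = 0 := by
  apply Finset.sum_eq_zero
  intro m _
  rw [dx_vel hg]
  rcases active_cases K t with h | ⟨hS, k, hk⟩
  · have : ∑ j ∈ Finset.range K,
        (tau K j t * (Pi.single (sh j).dir (1 : ℝ) : E3) i) * dx m (sh j).g x = 0 := by
      apply Finset.sum_eq_zero
      intro j _
      rw [h j, zero_mul, zero_mul]
    rw [this, mul_zero]
  · rw [vel_apply, hS, zero_mul, zero_add, Finset.sum_mul_sum]
    apply Finset.sum_eq_zero
    intro j hj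
    apply Finset.sum_eq_zero
    intro l hl
    by_cases hjk : j = k
    · by_cases hlk : l = k
      · have h1 := single_mul_dx hg (Finset.mem_range.1 hj) m x
        rw [hlk, ← hjk]
        calc tau K j t * (Pi.single (sh j).dir (1 : ℝ) : E3) m * (sh j).g x *
              (tau K j t * (Pi.single (sh j).dir (1 : ℝ) : E3) i * dx m (sh j).g x)
            = tau K j t * (sh j).g x * tau K j t * (Pi.single (sh j).dir (1 : ℝ) : E3) i *
              ((Pi.single (sh j).dir (1 : ℝ) : E3) m * dx m (sh j).g x) := by ring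
          _ = 0 := by rw [h1, mul_zero]
      · rw [hk l hlk]; ring
    · rw [hk j hjk]; ring

theorem vel_laplace (hg : ∀ j < K, (sh j).Good) (t : ℝ) (x : E3) (i : Fin 3) :
    ∑ m, dx m (dx m (fun y => vel c K sh t y i)) x = ∑ j ∈ Finset.range K,
      (tau K j t * (Pi.single (sh j).dir (1 : ℝ) : E3) i) * (sh j).lap x := by
  simp_rw [dx_dx_vel hg]
  rw [Finset.sum_comm]
  apply Finset.sum_congr rfl
  intro j hj
  rw [← Finset.mul_sum, (hg j (Finset.mem_range.1 hj)).lap_eq]

theorem vel_zero (x : E3) : vel c K sh 0 x = 0 := by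
  have hP : (0 : ℝ) < (K : ℝ) + 2 := by positivity
  unfold vel
  rw [S1_of_nonpos le_rfl, zero_smul, zero_add]
  apply Finset.sum_eq_zero
  intro j _
  rw [tmod_of_mem hP le_rfl hP, S1_of_nonpos (by linarith [(Nat.cast_nonneg j : (0 : ℝ) ≤ j)]),
    zero_mul, zero_smul]

theorem vel_classical (hg : ∀ j < K, (sh j).Good) (T : ℝ) (hT : 0 < T) :
    IsClassicalSol ν (force ν c K sh) T (vel c K sh) (fun _ _ => 0) := by
  have hU := vel_contDiff (c := c) hg
  have hV := contDiff_fderiv_slice hU
  have hW := contDiff_fderiv_slice hV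
  refine
    { per_u := ?_, per_p := ?_, diff_t := ?_, c2_u := ?_, c1_p := ?_, cont_u := ?_, cont_ut := ?_,
      cont_du := ?_, cont_ddu := ?_, cont_p := ?_, cont_dp := ?_, mean_p := ?_, rest := ?_,
      div_free := ?_, momentum := ?_ }
  · intro t _ x k
    unfold vel
    congr 1
    apply Finset.sum_congr rfl
    intro j hj
    rw [(hg j (Finset.mem_range.1 hj)).per_g x k]
  · intro t _ x k
    rfl
  · intro t _ x
    exact ((contDiff_slice_time hU x).differentiable (by simp) t).differentiableWithinAt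
  · intro t _
    exact (contDiff_slice hU t).of_le (WithTop.coe_le_coe.2 le_top)
  · intro t _
    exact contDiff_const
  · exact hU.continuous.continuousOn
  · have hc : Continuous (fun z : ℝ × E3 =>
        fderiv ℝ (fun z : ℝ × E3 => vel c K sh z.1 z.2) z (1, 0)) :=
      ((hU.fderiv_right (m := ∞) (by simp)).clm_apply contDiff_const).continuous
    refine hc.continuousOn.congr ?_
    rintro ⟨t, x⟩ ⟨ht, _⟩
    exact derivWithin_slice_time hU hT ht x
  · exact hV.continuous.continuousOn
  · exact hW.continuous.continuousOn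
  · exact continuousOn_const
  · simp only [fderiv_fun_const, Pi.zero_apply]
    exact continuousOn_const
  · intro t _
    simp
  · exact vel_zero
  · intro t _ x
    exact vel_div_free hg t x
  · intro t ht x i
    rw [(hasDerivAt_vel t x i).hasDerivWithinAt.derivWithin (uniqueDiffOn_Icc hT t ht),
      vel_nonlinear hg, vel_laplace hg, force_apply]
    have h0 : dx i (fun _ : E3 => (0 : ℝ)) x = 0 := by
      unfold dx
      simp
    rw [h0, Finset.mul_sum]
    have : ∑ j ∈ Finset.range K, (tau' K j t * (Pi.single (sh j).dir (1 : ℝ) : E3) i) * (sh j).g x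
        = ∑ j ∈ Finset.range K,
            ν * ((tau K j t * (Pi.single (sh j).dir (1 : ℝ) : E3) i) * (sh j).lap x)
          + ∑ j ∈ Finset.range K, (tau' K j t * (sh j).g x - ν * (tau K j t * (sh j).lap x)) *
            (Pi.single (sh j).dir (1 : ℝ) : E3) i := by
      rw [← Finset.sum_add_distrib]
      apply Finset.sum_congr rfl
      intro j _
      ring
    rw [this]
    ring

end Vale.Agent.P113
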