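import Vale.Agent.P113.Defs

namespace Vale.Agent.P113

open Set Filter Topology

structure Sched where
  T : ℕ → ℝ
  T_zero : T 0 = 0
  T_mono : StrictMono T
  T_unbdd : ∀ t, ∃ n, t < T n
  Φ : ℕ → ℝ → ℝ
  φ : ℕ → ℝ → ℝ
  hΦ : ∀ n t, HasDerivAt (Φ n) (φ n t) t
  Φ_left : ∀ n t, t ≤ T n → Φ n t = 0
  Φ_right : ∀ n t, T (n + 1) ≤ t → Φ n t = Φ n (T (n + 1))
  φ_supp : ∀ n t, t ∉ Set.Ioo (T n) (T (n + 1)) → φ n t = 0
  D : ℕ → Set (Fin 3)
  V : ℕ → E3 → E3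
  V_zero : ∀ n x j, j ∉ D n → V n x j = 0
  V_indep : ∀ n x y, (∀ j, j ∉ D n → x j = y j) → V n x = V n y

namespace Sched

variable (σ : Sched)

def Drives (u : ℝ → E3 → E3) : Prop :=
  ∀ n, ∀ t ∈ Set.Icc (σ.T n) (σ.T (n + 1)), ∀ x, u t x = σ.φ n t • σ.V n x

noncomputable def c (n : ℕ) : ℝ := σ.Φ n (σ.T (n + 1))

noncomputable def pos (a : E3) : ℕ → E3
  | 0 => a
  | n + 1 => pos a n + σ.c n • σ.V n (pos a n)

noncomputable def w (a : E3) (n : ℕ) : E3 := σ.V n (σ.pos a n)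

noncomputable def F (a : E3) (N : ℕ) (t : ℝ) : E3 :=
  a + ∑ n ∈ Finset.range N, σ.Φ n t • σ.w a n

noncomputable def traj (a : E3) (t : ℝ) : E3 := σ.F a (Nat.find (σ.T_unbdd t)) t

lemma T_le {m n : ℕ} (h : m ≤ n) : σ.T m ≤ σ.T n := σ.T_mono.monotone h

lemma F_eq_of_le (a : E3) {N M : ℕ} {t : ℝ} (hNM : N ≤ M) (ht : t ≤ σ.T N) :
    σ.F a M t = σ.F a N t := by
  unfold F
  congr 1
  symm
  apply Finset.sum_subset (Finset.range_subset_range.2 hNM)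
  intro n _ hn
  have hn' : N ≤ n := by simpa using hn
  rw [σ.Φ_left n t (le_trans ht (σ.T_le hn')), zero_smul]

lemma traj_eq_F (a : E3) {N : ℕ} {t : ℝ} (ht : t ≤ σ.T N) : σ.traj a t = σ.F a N t := by
  unfold traj
  have h1 := Nat.find_spec (σ.T_unbdd t)
  rcases Nat.le_total N (Nat.find (σ.T_unbdd t)) with h | h
  · exact σ.F_eq_of_le a h ht
  · exact (σ.F_eq_of_le a h h1.le).symm

lemma pos_eq_sum (a : E3) (m : ℕ) :
    σ.pos a m = a + ∑ n ∈ Finset.range m, σ.c n • σ.w a n := by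
  induction m with
  | zero => simp [pos]
  | succ m ih =>
    rw [Finset.sum_range_succ, ← add_assoc, ← ih]
    simp only [pos, w]

lemma traj_slot (a : E3) {m : ℕ} {t : ℝ} (ht : t ∈ Set.Icc (σ.T m) (σ.T (m + 1))) :
    σ.traj a t = σ.pos a m + σ.Φ m t • σ.w a m := by
  rw [σ.traj_eq_F a ht.2, pos_eq_sum]
  unfold F
  rw [Finset.sum_range_succ, ← add_assoc]
  congr 2
  apply Finset.sum_congr rfl
  intro n hn
  have hn' : n + 1 ≤ m := by simpa [Nat.succ_le_iff] using hn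
  rw [σ.Φ_right n t (le_trans (σ.T_le hn') ht.1)]
  rfl

lemma traj_T (a : E3) (m : ℕ) : σ.traj a (σ.T m) = σ.pos a m := by
  rw [σ.traj_slot a (m := m) ⟨le_rfl, (σ.T_mono (Nat.lt_succ_self m)).le⟩,
    σ.Φ_left m _ le_rfl, zero_smul, add_zero]

lemma exists_slot {t : ℝ} (ht : 0 ≤ t) : ∃ m, t ∈ Set.Ico (σ.T m) (σ.T (m + 1)) := by
  have hspec := Nat.find_spec (σ.T_unbdd t)
  have hpos : Nat.find (σ.T_unbdd t) ≠ 0 := by
    intro h0
    rw [h0, σ.T_zero] at hspec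
    linarith
  obtain ⟨m, hm⟩ := Nat.exists_eq_succ_of_ne_zero hpos
  refine ⟨m, ?_, ?_⟩
  · have := Nat.find_min (σ.T_unbdd t) (m := m) (by omega)
    exact not_lt.1 this
  · rw [← Nat.succ_eq_add_one, ← hm]
    exact hspec

lemma V_add_smul (n : ℕ) (x : E3) (r : ℝ) : σ.V n (x + r • σ.V n x) = σ.V n x := by
  apply σ.V_indep
  intro j hj
  simp [σ.V_zero n x j hj]

lemma hasDerivAt_F (a : E3) (N : ℕ) (t : ℝ) :
    HasDerivAt (σ.F a N) (∑ n ∈ Finset.range N, σ.φ n t • σ.w a n) t := by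
  unfold F
  apply HasDerivAt.const_add
  apply HasDerivAt.fun_sum
  intro n _
  exact (σ.hΦ n t).smul_const _

lemma sum_φ_slot (a : E3) {m N : ℕ} {t : ℝ} (ht : t ∈ Set.Icc (σ.T m) (σ.T (m + 1)))
    (hmN : m < N) :
    ∑ n ∈ Finset.range N, σ.φ n t • σ.w a n = σ.φ m t • σ.w a m := by
  apply Finset.sum_eq_single_of_mem m (Finset.mem_range.2 hmN)
  intro n _ hnm
  rw [σ.φ_supp n t, zero_smul]
  intro hh
  rcases Nat.lt_or_gt_of_ne hnm with h | h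
  · have := σ.T_le (show n + 1 ≤ m by omega)
    linarith [hh.2, ht.1]
  · have := σ.T_le (show m + 1 ≤ n by omega)
    linarith [hh.1, ht.2]

theorem hasDerivAt_traj {u : ℝ → E3 → E3} (hu : σ.Drives u) (a : E3) {t : ℝ} (ht : 0 ≤ t) :
    HasDerivAt (σ.traj a) (u t (σ.traj a t)) t := by
  obtain ⟨m, hm⟩ := σ.exists_slot ht
  have hmI : t ∈ Set.Icc (σ.T m) (σ.T (m + 1)) := ⟨hm.1, hm.2.le⟩
  have hval : u t (σ.traj a t) = ∑ n ∈ Finset.range (m + 1), σ.φ n t • σ.w a n := by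
    rw [σ.sum_φ_slot a hmI (Nat.lt_succ_self m), hu m t hmI, σ.traj_slot a hmI]
    unfold w
    rw [σ.V_add_smul]
  rw [hval]
  apply (σ.hasDerivAt_F a (m + 1) t).congr_of_eventuallyEq
  filter_upwards [Iio_mem_nhds hm.2] with s hs
  exact σ.traj_eq_F a (le_of_lt hs)

theorem isTrajectory_traj {u : ℝ → E3 → E3} (hu : σ.Drives u) (a : E3) :
    IsTrajectory u a (σ.traj a) := by
  refine ⟨?_, fun t ht => (σ.hasDerivAt_traj hu a ht).hasDerivWithinAt⟩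
  have := σ.traj_T a 0
  rw [σ.T_zero] at this
  simpa [pos] using this

lemma T_nonneg (n : ℕ) : 0 ≤ σ.T n := by
  rw [← σ.T_zero]
  exact σ.T_le (Nat.zero_le n)

theorem slot_unique {u : ℝ → E3 → E3} (hu : σ.Drives u) {a : E3} {Y : ℝ → E3}
    (hY : IsTrajectory u a Y) (m : ℕ) {t : ℝ} (ht : t ∈ Set.Icc (σ.T m) (σ.T (m + 1))) :
    Y t = Y (σ.T m) + σ.Φ m t • σ.V m (Y (σ.T m)) := by
  have hT0 := σ.T_nonneg m
  have hder : ∀ x ∈ Set.Icc (σ.T m) (σ.T (m + 1)),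
      HasDerivWithinAt Y (u x (Y x)) (Set.Ici x) x := by
    intro x hx
    have hx0 : 0 ≤ x := le_trans hT0 hx.1
    exact (hY.2 x hx0).mono (Set.Ici_subset_Ici.2 hx0)
  have hcont : ContinuousOn Y (Set.Icc (σ.T m) (σ.T (m + 1))) := by
    intro x hx
    have hx0 : 0 ≤ x := le_trans hT0 hx.1
    exact ((hY.2 x hx0).continuousWithinAt).mono
      (fun y hy => le_trans hT0 hy.1)
  have hother : ∀ j, j ∉ σ.D m → ∀ x ∈ Set.Icc (σ.T m) (σ.T (m + 1)),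
      Y x j = Y (σ.T m) j := by
    intro j hj
    apply constant_of_has_deriv_right_zero
    · exact (continuous_apply j).comp_continuousOn hcont
    · intro x hx
      have hxI : x ∈ Set.Icc (σ.T m) (σ.T (m + 1)) := ⟨hx.1, hx.2.le⟩
      have h1 := hasDerivWithinAt_pi.1 (hder x hxI) j
      rw [hu m x hxI] at h1
      simpa [σ.V_zero m _ j hj] using h1
  have hV : ∀ x ∈ Set.Icc (σ.T m) (σ.T (m + 1)), σ.V m (Y x) = σ.V m (Y (σ.T m)) := by
    intro x hx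
    exact σ.V_indep m _ _ (fun j hj => hother j hj x hx)
  have hmain : ∀ x ∈ Set.Icc (σ.T m) (σ.T (m + 1)),
      Y x - σ.Φ m x • σ.V m (Y (σ.T m)) =
      Y (σ.T m) - σ.Φ m (σ.T m) • σ.V m (Y (σ.T m)) := by
    apply constant_of_has_deriv_right_zero
    · apply ContinuousOn.sub hcont
      intro x _
      exact ((σ.hΦ m x).smul_const (σ.V m (Y (σ.T m)))).continuousAt.continuousWithinAt
    · intro x hx
      have hxI : x ∈ Set.Icc (σ.T m) (σ.T (m + 1)) := ⟨hx.1, hx.2.le⟩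
      have h1 := hder x hxI
      rw [hu m x hxI, hV x hxI] at h1
      have h2 := ((σ.hΦ m x).smul_const (σ.V m (Y (σ.T m)))).hasDerivWithinAt
        (s := Set.Ici x)
      have h3 := h1.fun_sub h2
      simpa using h3
  have := hmain t ht
  rw [σ.Φ_left m _ le_rfl, zero_smul, sub_zero] at this
  exact sub_eq_iff_eq_add.1 this

theorem trajectory_at_T {u : ℝ → E3 → E3} (hu : σ.Drives u) {a : E3} {Y : ℝ → E3}
    (hY : IsTrajectory u a Y) (m : ℕ) : Y (σ.T m) = σ.pos a m := by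
  induction m with
  | zero => rw [σ.T_zero, hY.1]; rfl
  | succ m ih =>
    rw [σ.slot_unique hu hY m ⟨(σ.T_mono (Nat.lt_succ_self m)).le, le_rfl⟩, ih]
    rfl

theorem trajectory_unique {u : ℝ → E3 → E3} (hu : σ.Drives u) {a : E3} {Y : ℝ → E3}
    (hY : IsTrajectory u a Y) {t : ℝ} (ht : 0 ≤ t) : Y t = σ.traj a t := by
  obtain ⟨m, hm⟩ := σ.exists_slot ht
  have hmI : t ∈ Set.Icc (σ.T m) (σ.T (m + 1)) := ⟨hm.1, hm.2.le⟩
  rw [σ.slot_unique hu hY m hmI, σ.trajectory_at_T hu hY m, σ.traj_slot a hmI]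
  rfl

end Sched

end Vale.Agent.P113
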