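import Vale.Agent.P113.Flow
import Vale.Agent.P113.FlowTrajGen

namespace Vale.Agent.P113

open Set
open scoped ContDiff

lemma hasDerivAt_smoothTransition (s : ℝ) : HasDerivAt Real.smoothTransition (S1 s) s :=
  ((Real.smoothTransition.contDiff (n := 1)).differentiable (by norm_num) s).hasDerivAt

lemma S1_of_nonpos {s : ℝ} (hs : s ≤ 0) : S1 s = 0 := by
  apply IsLocalMin.deriv_eq_zero
  apply Filter.Eventually.of_forall
  intro y
  rw [Real.smoothTransition.zero_of_nonpos hs]
  exact Real.smoothTransition.nonneg y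

lemma S1_of_one_le {s : ℝ} (hs : 1 ≤ s) : S1 s = 0 := by
  apply IsLocalMax.deriv_eq_zero
  apply Filter.Eventually.of_forall
  intro y
  rw [Real.smoothTransition.one_of_one_le hs]
  exact Real.smoothTransition.le_one y

variable {c : E3} {K : ℕ} {sh : ℕ → Shear} {a : E3}

lemma tmod_slot (n : ℕ) {t : ℝ} (ht : t ∈ Ico (n : ℝ) ((n : ℝ) + 1)) :
    tmod ((K : ℝ) + 2) t = (t - n) + ((n % (K + 2) : ℕ) : ℝ) := by
  have hP : (0 : ℝ) < (K : ℝ) + 2 := by positivity
  have hdiv : ((K + 2) * (n / (K + 2)) + n % (K + 2) : ℕ) = n := Nat.div_add_mod n (K + 2)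
  have hlt : n % (K + 2) + 1 ≤ K + 2 := Nat.mod_lt n (by omega)
  generalize n / (K + 2) = q at hdiv
  generalize n % (K + 2) = r at hdiv hlt ⊢
  have hdivR : ((K : ℝ) + 2) * (q : ℝ) + (r : ℝ) = (n : ℝ) := by
    exact_mod_cast hdiv
  have hr : (r : ℝ) + 1 ≤ (K : ℝ) + 2 := by
    exact_mod_cast hlt
  have hr0 : (0 : ℝ) ≤ (r : ℝ) := by positivity
  have hfl : ⌊t / ((K : ℝ) + 2)⌋ = (q : ℤ) := by
    rw [Int.floor_eq_iff]
    constructor
    · rw [le_div_iff₀ hP, Int.cast_natCast]
      nlinarith [ht.1]
    · rw [div_lt_iff₀ hP, Int.cast_natCast]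
      nlinarith [ht.2]
  unfold tmod
  rw [hfl, Int.cast_natCast]
  linarith

lemma vel_slot_Ico (n : ℕ) {t : ℝ} (ht : t ∈ Ico (n : ℝ) ((n : ℝ) + 1)) (x : E3) :
    vel c K sh t x = S1 (t - n) • disp c K sh n x := by
  have htm := tmod_slot (K := K) n ht
  have hn0 : n = 0 → n % (K + 2) = 0 := by
    intro h; simp [h]
  unfold vel disp
  generalize n % (K + 2) = r at htm hn0 ⊢
  have hs0 : 0 ≤ t - n := by linarith [ht.1]
  have hs1 : t - n < 1 := by linarith [ht.2]
  have hterm : ∀ j : ℕ, j + 1 ≠ r →
      S1 (tmod ((K : ℝ) + 2) t - ((j : ℝ) + 1)) = 0 := by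
    intro j hj
    rw [htm]
    rcases Nat.lt_or_gt_of_ne hj with h | h
    · apply S1_of_one_le
      have : ((j : ℝ) + 1) + 1 ≤ (r : ℝ) := by exact_mod_cast h
      linarith
    · apply S1_of_nonpos
      have : (r : ℝ) + 1 ≤ (j : ℝ) + 1 := by exact_mod_cast h
      linarith
  by_cases hn : n = 0
  · have hr0 : r = 0 := hn0 hn
    subst hn
    have : ∑ j ∈ Finset.range K,
        (S1 (tmod ((K : ℝ) + 2) t - ((j : ℝ) + 1)) * (sh j).g x) •
          (Pi.single (sh j).dir (1 : ℝ) : E3) = 0 := by
      apply Finset.sum_eq_zero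
      intro j _
      rw [hterm j (by omega), zero_mul, zero_smul]
    rw [this]
    simp
  · have ht1 : 1 ≤ t := by
      have : (1 : ℝ) ≤ n := by exact_mod_cast Nat.one_le_iff_ne_zero.2 hn
      linarith [ht.1]
    rw [S1_of_one_le ht1, zero_smul, zero_add, if_neg hn]
    by_cases hcond : 1 ≤ r ∧ r ≤ K
    · rw [if_pos hcond]
      rw [Finset.sum_eq_single_of_mem (r - 1) (Finset.mem_range.2 (by omega))]
      · have e : ((r - 1 : ℕ) : ℝ) + 1 = (r : ℝ) := by
          have : r - 1 + 1 = r := by omega
          exact_mod_cast this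
        rw [htm, e, add_sub_cancel_right]
        funext i
        by_cases hi : i = (sh (r - 1)).dir
        · subst hi; simp
        · simp [Pi.single_eq_of_ne hi]
      · intro j _ hj
        rw [hterm j (by omega), zero_mul, zero_smul]
    · rw [if_neg hcond, smul_zero]
      apply Finset.sum_eq_zero
      intro j hj
      have hjK : j < K := Finset.mem_range.1 hj
      rw [hterm j (by omega), zero_mul, zero_smul]

lemma vel_slot (n : ℕ) {t : ℝ} (ht : t ∈ Icc (n : ℝ) ((n : ℝ) + 1)) (x : E3) :
    vel c K sh t x = S1 (t - n) • disp c K sh n x := by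
  rcases eq_or_lt_of_le ht.2 with h | h
  · have h2 : t ∈ Ico ((n + 1 : ℕ) : ℝ) (((n + 1 : ℕ) : ℝ) + 1) := by
      push_cast
      constructor <;> linarith
    rw [vel_slot_Ico (n + 1) h2, S1_of_nonpos (by push_cast; linarith),
      S1_of_one_le (by linarith), zero_smul, zero_smul]
  · exact vel_slot_Ico n ⟨ht.1, h⟩ x

noncomputable def flowSched (c : E3) (K : ℕ) (sh : ℕ → Shear) (hg : ∀ j < K, (sh j).Good) :
    Sched where
  T n := n
  T_zero := by simp
  T_mono := Nat.strictMono_cast
  T_unbdd t := exists_nat_gt t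
  Φ n t := Real.smoothTransition (t - n)
  φ n t := S1 (t - n)
  hΦ n t := by
    simpa using (hasDerivAt_smoothTransition (t - n)).comp_sub_const t (n : ℝ)
  Φ_left n t ht := Real.smoothTransition.zero_of_nonpos (by linarith)
  Φ_right n t ht := by
    push_cast at ht ⊢
    rw [Real.smoothTransition.one_of_one_le (by linarith),
      Real.smoothTransition.one_of_one_le (by linarith)]
  φ_supp n t ht := by
    rcases le_or_gt t n with h | h
    · exact S1_of_nonpos (by linarith)
    · apply S1_of_one_le
      by_contra hcon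
      apply ht
      push_cast
      exact ⟨h, by linarith⟩
  D n := if n = 0 then univ else {(sh (n % (K + 2) - 1)).dir}
  V n := disp c K sh n
  V_zero n x j hj := by
    unfold disp
    by_cases hn : n = 0
    · simp [hn] at hj
    · rw [if_neg hn] at hj ⊢
      split_ifs
      · exact Pi.single_eq_of_ne (by simpa using hj) _
      · rfl
  V_indep n x y hxy := by
    unfold disp
    by_cases hn : n = 0
    · simp [hn]
    · rw [if_neg hn, if_neg hn]
      rw [if_neg hn] at hxy
      split_ifs with hcond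
      · have hj : n % (K + 2) - 1 < K := by omega
        have : y = Function.update x (sh (n % (K + 2) - 1)).dir
            (y (sh (n % (K + 2) - 1)).dir) := by
          funext i
          by_cases hi : i = (sh (n % (K + 2) - 1)).dir
          · subst hi; simp
          · rw [Function.update_of_ne hi]
            exact (hxy i (by simpa using hi)).symm
        rw [this, (hg _ hj).indep]
      · rfl

lemma flowSched_drives (hg : ∀ j < K, (sh j).Good) :
    (flowSched c K sh hg).Drives (vel c K sh) := by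
  intro n t ht x
  have ht' : t ∈ Icc (n : ℝ) ((n : ℝ) + 1) := by
    have := ht
    simp only [flowSched] at this
    push_cast at this
    exact this
  exact vel_slot n ht' x

lemma flowSched_pos (hg : ∀ j < K, (sh j).Good) (m : ℕ) :
    (flowSched c K sh hg).pos a m = posSeq c K sh a m := by
  induction m with
  | zero => rfl
  | succ m ih =>
    have hc : (flowSched c K sh hg).c m = 1 := by
      simp only [Sched.c, flowSched]
      apply Real.smoothTransition.one_of_one_le
      push_cast
      linarith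
    simp only [Sched.pos, posSeq]
    rw [hc, one_smul, ih]
    rfl

lemma flowSched_traj (hg : ∀ j < K, (sh j).Good) {t : ℝ} (ht : 0 ≤ t) :
    (flowSched c K sh hg).traj a t = traj c K sh a t := by
  have h1 : ((⌊t⌋₊ : ℕ) : ℝ) ≤ t := Nat.floor_le ht
  have h2 : t < ((⌊t⌋₊ : ℕ) : ℝ) + 1 := Nat.lt_floor_add_one t
  have hI : t ∈ Icc ((flowSched c K sh hg).T ⌊t⌋₊) ((flowSched c K sh hg).T (⌊t⌋₊ + 1)) := by
    simp only [flowSched]
    push_cast
    exact ⟨h1, h2.le⟩
  rw [(flowSched c K sh hg).traj_slot a hI]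
  unfold traj Sched.w
  rw [flowSched_pos]
  rfl

theorem traj_isTrajectory (hg : ∀ j < K, (sh j).Good) :
    IsTrajectory (vel c K sh) a (traj c K sh a) := by
  have h := (flowSched c K sh hg).isTrajectory_traj (flowSched_drives hg) a
  refine ⟨?_, fun t ht => ?_⟩
  · rw [← flowSched_traj hg le_rfl]
    exact h.1
  · have h2 := h.2 t ht
    rw [flowSched_traj hg ht] at h2
    exact h2.congr (fun s hs => (flowSched_traj hg hs).symm) (flowSched_traj hg ht).symm

theorem traj_unique (hg : ∀ j < K, (sh j).Good) {X : ℝ → E3}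
    (hX : IsTrajectory (vel c K sh) a X) : ∀ t, 0 ≤ t → X t = traj c K sh a t := by
  intro t ht
  rw [← flowSched_traj hg ht]
  exact (flowSched c K sh hg).trajectory_unique (flowSched_drives hg) hX ht

end Vale.Agent.P113
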