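import Mathlib

namespace Vale.Agent.P113

/-- head moves: left, right, none. -/
inductive Mv
  | L | R | N
  deriving DecidableEq

instance : Fintype Mv := ⟨{Mv.L, Mv.R, Mv.N}, fun x => by cases x <;> simp⟩

/-- A one-tape machine with transition function `δ`; `none` means that the machine halts. -/
structure GTM (Γ Λ : Type) where
  δ : Λ → Γ → Option (Λ × Γ × Mv)

/-- configuration: state, cells to the left of the head (nearest first), head cell followed by the
cells to its right; cells beyond the lists hold `default`. -/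
abbrev GCfg (Γ Λ : Type) : Type := Λ × List Γ × List Γ

variable {Γ Λ : Type}

def GTM.step [Inhabited Γ] (M : GTM Γ Λ) (c : GCfg Γ Λ) : Option (GCfg Γ Λ) :=
  (M.δ c.1 (c.2.2.headD default)).map fun r =>
    match r with
    | (q', s', Mv.N) => (q', c.2.1, s' :: c.2.2.tail)
    | (q', s', Mv.R) => (q', s' :: c.2.1, c.2.2.tail)
    | (q', s', Mv.L) => (q', c.2.1.tail, c.2.1.headD default :: s' :: c.2.2.tail)

/-- the machine started in `c` halts after finitely many steps. -/
def GTM.HaltsFrom [Inhabited Γ] (M : GTM Γ Λ) (c : GCfg Γ Λ) : Prop :=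
  (StateTransition.eval M.step c).Dom

/-- stack symbols of the two-stack machine: live tape cells, dead (garbage) cells recording the
state, arrival move and symbol that were overwritten, and the state marker. -/
inductive Sym (Γ Λ : Type)
  | live (a : Γ)
  | dead (q : Λ) (m : Mv) (a : Γ)
  | st (q : Λ) (m : Mv)
  deriving DecidableEq

/-- window: the top three symbols of a stack. -/
abbrev Win (Γ Λ : Type) : Type := Sym Γ Λ × Sym Γ Λ × Sym Γ Λ

/-- stack operation: remove the top `op.1` symbols, then push the list `op.2`. -/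
abbrev Op (Γ Λ : Type) : Type := ℕ × List (Sym Γ Λ)

def blank [Inhabited Γ] : Sym Γ Λ := Sym.live default

def win [Inhabited Γ] (l : List (Sym Γ Λ)) : Win Γ Λ :=
  (l.getD 0 blank, l.getD 1 blank, l.getD 2 blank)

def applyOp (op : Op Γ Λ) (l : List (Sym Γ Λ)) : List (Sym Γ Λ) := op.2 ++ l.drop op.1

/-- slot 1 (own stack `Y`, control stack `X`), forward table. -/
def fwd1 (M : GTM Γ Λ) (wx _wy : Win Γ Λ) : Op Γ Λ :=
  match wx with
  | (Sym.st q m, Sym.live s, _) =>
    match M.δ q s with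
    | some (_, s', Mv.R) => (0, [Sym.live s', Sym.dead q m s])
    | some (_, _, _) => (0, [Sym.dead q m s])
    | none => (0, [])
  | (Sym.st _ Mv.R, Sym.dead q' m' a', _) => (0, [Sym.dead q' m' a'])
  | _ => (0, [])

def bwd1 (M : GTM Γ Λ) (wx wy : Win Γ Λ) : Op Γ Λ := ((fwd1 M wx wy).2.length, [])

/-- slot 2 (own stack `X`, control stack `Y`). -/
def fwd2 (M : GTM Γ Λ) (wy wx : Win Γ Λ) : Op Γ Λ :=
  match wx with
  | (Sym.st q _, Sym.live s, _) =>
    match M.δ q s with
    | some (q', s', Mv.N) => (2, [Sym.st q' Mv.N, Sym.live s'])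
    | some (q', _, Mv.R) => (2, [Sym.st q' Mv.R])
    | some (q', s', Mv.L) => (2, [Sym.st q' Mv.L, wy.2.1, Sym.live s'])
    | none => (0, [])
  | (Sym.st q Mv.R, Sym.dead _ _ _, _) => (2, [Sym.st q Mv.R])
  | (Sym.st q Mv.L, Sym.dead _ _ _, _) => (1, [Sym.st q Mv.L, wy.1])
  | _ => (0, [])

def bwd2 (_M : GTM Γ Λ) (wy wx : Win Γ Λ) : Op Γ Λ :=
  match wx with
  | (Sym.st _ Mv.N, Sym.live _, _) =>
    match wy with
    | (Sym.dead q m s, _, _) => (2, [Sym.st q m, Sym.live s])
    | _ => (0, [])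
  | (Sym.st q' Mv.R, _, _) =>
    match wy with
    | (Sym.live _, Sym.dead q m s, _) => (1, [Sym.st q m, Sym.live s])
    | (Sym.dead q m s, _, _) => (1, [Sym.st q' Mv.R, Sym.dead q m s])
    | _ => (0, [])
  | (Sym.st _ Mv.L, _, Sym.live _) =>
    match wy with
    | (Sym.dead q m s, _, _) => (3, [Sym.st q m, Sym.live s])
    | _ => (0, [])
  | (Sym.st q' Mv.L, _, Sym.dead _ _ _) => (2, [Sym.st q' Mv.L])
  | _ => (0, [])

/-- slot 3 (own stack `Y`, control stack `X`). -/
def fwd3 (_M : GTM Γ Λ) (wx wy : Win Γ Λ) : Op Γ Λ :=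
  match wx with
  | (Sym.st _ Mv.L, _, Sym.live _) => (2, [wy.1])
  | (Sym.st _ Mv.L, _, Sym.dead _ _ _) => (1, [])
  | _ => (0, [])

def bwd3 (_M : GTM Γ Λ) (wx wy : Win Γ Λ) : Op Γ Λ :=
  match wx with
  | (Sym.st _ Mv.L, t, Sym.live _) => (1, [wy.1, t])
  | (Sym.st _ Mv.L, t, Sym.dead _ _ _) => (0, [t])
  | _ => (0, [])

/-- the window of `X` shows a halted machine. -/
def flag (M : GTM Γ Λ) (wx : Win Γ Λ) : Bool :=
  match wx with
  | (Sym.st q _, Sym.live s, _) => (M.δ q s).isNone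
  | _ => false

/-- the stacks after slot 1, slot 2, slot 3. -/
def slot1 [Inhabited Γ] (M : GTM Γ Λ) (p : List (Sym Γ Λ) × List (Sym Γ Λ)) :
    List (Sym Γ Λ) × List (Sym Γ Λ) :=
  (p.1, applyOp (fwd1 M (win p.1) (win p.2)) p.2)

def slot2 [Inhabited Γ] (M : GTM Γ Λ) (p : List (Sym Γ Λ) × List (Sym Γ Λ)) :
    List (Sym Γ Λ) × List (Sym Γ Λ) :=
  (applyOp (fwd2 M (win p.2) (win p.1)) p.1, p.2)

def slot3 [Inhabited Γ] (M : GTM Γ Λ) (p : List (Sym Γ Λ) × List (Sym Γ Λ)) :
    List (Sym Γ Λ) × List (Sym Γ Λ) :=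
  (p.1, applyOp (fwd3 M (win p.1) (win p.2)) p.2)

/-- one period of the two-stack machine. -/
def periodMap [Inhabited Γ] (M : GTM Γ Λ) (p : List (Sym Γ Λ) × List (Sym Γ Λ)) :
    List (Sym Γ Λ) × List (Sym Γ Λ) :=
  slot3 M (slot2 M (slot1 M p))

/-- equality of stacks up to trailing blanks. -/
def SEq [Inhabited Γ] (l l' : List (Sym Γ Λ)) : Prop :=
  ∀ i, l.getD i blank = l'.getD i blank

/-- start stacks for the state `q0` and the input word `w`. -/
def startStacks (q0 : Λ) (w : List Γ) : List (Sym Γ Λ) × List (Sym Γ Λ) :=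
  (Sym.st q0 Mv.N :: w.map Sym.live, [])

/-- In each of the three slots of the period started at `p`, the backward table undoes the
forward operation. -/
def SlotsOK [Inhabited Γ] (M : GTM Γ Λ) (p : List (Sym Γ Λ) × List (Sym Γ Λ)) : Prop :=
  SEq (applyOp (bwd1 M (win p.1) (win (slot1 M p).2)) (slot1 M p).2) p.2 ∧
  SEq (applyOp (bwd2 M (win (slot1 M p).2) (win (slot2 M (slot1 M p)).1)) (slot2 M (slot1 M p)).1)
    (slot1 M p).1 ∧
  SEq (applyOp (bwd3 M (win (slot2 M (slot1 M p)).1) (win (periodMap M p).2)) (periodMap M p).2)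
    (slot2 M (slot1 M p)).2

end Vale.Agent.P113
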