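import Vale.Agent.P113.UniqAux
open MeasureTheory Set Filter Topology

namespace Vale.Agent.P113

/-- Derivative data witnessing that the pair u, p is a classical solution on `[0,T]` of the forced
Navier-Stokes system on the torus (periodic functions on `R^3`), starting from rest. -/
structure NSData (ν T : ℝ) (f u : ℝ → X3 → X3) (p : ℝ → X3 → ℝ) where
  ut : ℝ → X3 → X3
  Du : ℝ → X3 → X3 →L[ℝ] X3
  D2u : ℝ → X3 → X3 →L[ℝ] X3 →L[ℝ] X3
  Dp : ℝ → X3 → X3 →L[ℝ] ℝ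
  per_u : ∀ t ∈ Icc (0 : ℝ) T, ∀ i x, u t (x + ee i) = u t x
  per_p : ∀ t ∈ Icc (0 : ℝ) T, ∀ i x, p t (x + ee i) = p t x
  hut : ∀ t ∈ Icc (0 : ℝ) T, ∀ x, HasDerivWithinAt (fun s => u s x) (ut t x) (Icc 0 T) t
  hDu : ∀ t ∈ Icc (0 : ℝ) T, ∀ x, HasFDerivAt (u t) (Du t x) x
  hD2u : ∀ t ∈ Icc (0 : ℝ) T, ∀ x, HasFDerivAt (Du t) (D2u t x) x
  hDp : ∀ t ∈ Icc (0 : ℝ) T, ∀ x, HasFDerivAt (p t) (Dp t x) x
  cu : ContinuousOn (fun z : ℝ × X3 => u z.1 z.2) (Icc (0 : ℝ) T ×ˢ univ)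
  cut : ContinuousOn (fun z : ℝ × X3 => ut z.1 z.2) (Icc (0 : ℝ) T ×ˢ univ)
  cDu : ContinuousOn (fun z : ℝ × X3 => Du z.1 z.2) (Icc (0 : ℝ) T ×ˢ univ)
  cD2u : ContinuousOn (fun z : ℝ × X3 => D2u z.1 z.2) (Icc (0 : ℝ) T ×ˢ univ)
  cp : ContinuousOn (fun z : ℝ × X3 => p z.1 z.2) (Icc (0 : ℝ) T ×ˢ univ)
  cDp : ContinuousOn (fun z : ℝ × X3 => Dp z.1 z.2) (Icc (0 : ℝ) T ×ˢ univ)
  mean_p : ∀ t ∈ Icc (0 : ℝ) T, ∫ x in QQ, p t x = 0
  init : ∀ x, u 0 x = 0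
  div_free : ∀ t ∈ Icc (0 : ℝ) T, ∀ x, ∑ i, Du t x (ee i) i = 0
  eqn : ∀ t ∈ Icc (0 : ℝ) T, ∀ x j, ut t x j + ∑ i, u t x i * Du t x (ee i) j
      = - Dp t x (ee j) + ν * ∑ i, D2u t x (ee i) (ee i) j + f t x j

lemma continuous_sub_gen {α E : Type*} [TopologicalSpace α] [NormedAddCommGroup E] (f g : α → E)
    (hf : Continuous f) (hg : Continuous g) : Continuous (fun x => f x - g x) := hf.sub hg

lemma clm_eq_zero_of_basis (L : X3 →L[ℝ] ℝ) (h : ∀ j, L (ee j) = 0) : L = 0 := by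
  ext v
  have : v = ∑ j, v j • ee j := by
    ext k
    simp [Finset.sum_apply, Pi.single_apply]
  rw [this, map_sum]
  simp [h]

lemma volume_QQ : volume.real QQ = 1 := by
  simp [Measure.real, QQ, Real.volume_Icc_pi]

theorem velocity_unique {ν T : ℝ} (hν : 0 ≤ ν) {f u₁ u₂ : ℝ → X3 → X3} {p₁ p₂ : ℝ → X3 → ℝ}
    (d₁ : NSData ν T f u₁ p₁) (d₂ : NSData ν T f u₂ p₂) :
    ∀ t ∈ Icc (0 : ℝ) T, ∀ x, u₁ t x = u₂ t x := by
  obtain ⟨M, hM⟩ := (isCompact_slab T).exists_bound_of_continuousOn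
    (d₂.cDu.mono (prod_mono_right (subset_univ _)))
  set w : ℝ → X3 → X3 := fun t x => u₁ t x - u₂ t x with hw
  set wt : ℝ → X3 → X3 := fun t x => d₁.ut t x - d₂.ut t x with hwt
  have cw : ContinuousOn (fun z : ℝ × X3 => w z.1 z.2) (Icc (0 : ℝ) T ×ˢ univ) := d₁.cu.sub d₂.cu
  have cwt : ContinuousOn (fun z : ℝ × X3 => wt z.1 z.2) (Icc (0 : ℝ) T ×ˢ univ) :=
    d₁.cut.sub d₂.cut
  have hE := energy_zero (T := T) (K := 3 * M) w wt
    (fun t ht x => (d₁.hut t ht x).sub (d₂.hut t ht x)) cw cwt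
    (fun x => by simp [hw, d₁.init x, d₂.init x])
    (by
      intro t ht'
      have ht := Ioo_subset_Icc_self ht'
      apply spatial_ineq hν (w t) (u₁ t) (wt t) (fun x => d₁.Du t x - d₂.Du t x) (d₁.Du t)
        (d₂.Du t) (fun x => d₁.D2u t x - d₂.D2u t x) (fun x => p₁ t x - p₂ t x)
        (fun x => d₁.Dp t x - d₂.Dp t x)
      · exact fun x => (d₁.hDu t ht x).sub (d₂.hDu t ht x)
      · exact fun x => (d₁.hD2u t ht x).sub (d₂.hD2u t ht x)
      · exact d₁.hDu t ht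
      · exact fun x => (d₁.hDp t ht x).sub (d₂.hDp t ht x)
      · exact continuous_sub_gen (E := X3 →L[ℝ] X3 →L[ℝ] X3) (d₁.D2u t) (d₂.D2u t)
          (continuous_slice _ d₁.cD2u ht) (continuous_slice _ d₂.cD2u ht)
      · exact continuous_slice _ d₁.cDu ht
      · exact (continuous_slice _ d₁.cDp ht).sub (continuous_slice _ d₂.cDp ht)
      · exact continuous_slice _ cwt ht
      · intro i x; simp only [hw]; rw [d₁.per_u t ht, d₂.per_u t ht]
      · exact d₁.per_u t ht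
      · intro i x; rw [d₁.per_p t ht, d₂.per_p t ht]
      · intro x
        have h1 := d₁.div_free t ht x
        have h2 := d₂.div_free t ht x
        simp only [sub_apply, Pi.sub_apply, Finset.sum_sub_distrib, h1, h2, sub_self]
      · exact d₁.div_free t ht
      · exact fun x hx => hM (t, x) ⟨ht, hx⟩
      · intro x j
        have h1 := d₁.eqn t ht x j
        have h2 := d₂.eqn t ht x j
        simp only [hw, hwt, sub_apply, Pi.sub_apply, Fin.sum_univ_three] at h1 h2 ⊢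
        linear_combination h1 - h2)
  intro t ht x
  have := eq_zero_of_integral_sq_eq_zero (w t) (continuous_slice _ cw ht)
    (by intro i x; simp only [hw]; rw [d₁.per_u t ht, d₂.per_u t ht]) (hE t ht) x
  exact sub_eq_zero.mp this

theorem pressure_unique {ν T : ℝ} (hν : 0 ≤ ν) (hT : 0 < T) {f u₁ u₂ : ℝ → X3 → X3}
    {p₁ p₂ : ℝ → X3 → ℝ}
    (d₁ : NSData ν T f u₁ p₁) (d₂ : NSData ν T f u₂ p₂) :
    ∀ t ∈ Icc (0 : ℝ) T, ∀ x, p₁ t x = p₂ t x := by
  have hu := velocity_unique hν d₁ d₂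
  intro t ht
  have hfun : u₁ t = u₂ t := funext (hu t ht)
  have e1 : ∀ x, d₁.ut t x = d₂.ut t x := by
    intro x
    have h1 := d₁.hut t ht x
    have h2 : HasDerivWithinAt (fun s => u₁ s x) (d₂.ut t x) (Icc 0 T) t :=
      (d₂.hut t ht x).congr (fun s hs => hu s hs x) (hu t ht x)
    exact (uniqueDiffOn_Icc hT t ht).eq_deriv _ h1 h2
  have e2 : ∀ x, d₁.Du t x = d₂.Du t x := by
    intro x
    have h2 := d₂.hDu t ht x
    rw [← hfun] at h2
    exact (d₁.hDu t ht x).unique h2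
  have e3 : ∀ x, d₁.D2u t x = d₂.D2u t x := by
    intro x
    have h2 := d₂.hD2u t ht x
    rw [← (funext e2 : d₁.Du t = d₂.Du t)] at h2
    exact (d₁.hD2u t ht x).unique h2
  have e4 : ∀ x, d₁.Dp t x - d₂.Dp t x = 0 := by
    intro x
    apply clm_eq_zero_of_basis
    intro j
    have h1 := d₁.eqn t ht x j
    have h2 := d₂.eqn t ht x j
    rw [e1, e2, e3, hu t ht x] at h1
    simp only [sub_apply]
    linarith
  have hq : ∀ x, HasFDerivAt (fun y => p₁ t y - p₂ t y) (0 : X3 →L[ℝ] ℝ) x := by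
    intro x
    rw [← e4 x]
    exact (d₁.hDp t ht x).sub (d₂.hDp t ht x)
  have hconst : ∀ x, p₁ t x - p₂ t x = p₁ t 0 - p₂ t 0 := by
    intro x
    exact is_const_of_fderiv_eq_zero (𝕜 := ℝ) (f := fun y => p₁ t y - p₂ t y)
      (fun y => (hq y).differentiableAt) (fun y => (hq y).fderiv) x 0
  have hint : ∫ x in QQ, (p₁ t x - p₂ t x) = 0 := by
    rw [integral_sub (continuous_slice _ d₁.cp ht).integrableOn_Icc
      (continuous_slice _ d₂.cp ht).integrableOn_Icc, d₁.mean_p t ht, d₂.mean_p t ht, sub_self]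
  have hc : p₁ t 0 - p₂ t 0 = 0 := by
    simp only [hconst] at hint
    rw [setIntegral_const, volume_QQ] at hint
    simpa using hint
  intro x
  have := hconst x
  linarith

end Vale.Agent.P113
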