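import Vale.Agent.P113.Defs
import Vale.Agent.P113.UniqData

namespace Vale.Agent.P113

open Set MeasureTheory

lemma dx_comp_eq {w : E3 → E3} {x : E3} (hw : DifferentiableAt ℝ w x) (i j : Fin 3) :
    dx j (fun y => w y i) x = fderiv ℝ w x (Pi.single j 1) i := by
  unfold dx
  rw [(hasFDerivAt_comp_apply w _ x hw.hasFDerivAt i).fderiv]
  rfl

lemma dx_dx_comp_eq {w : E3 → E3} (hw : ContDiff ℝ 2 w) (x : E3) (i j : Fin 3) :
    dx j (dx j (fun y => w y i)) x = fderiv ℝ (fderiv ℝ w) x (Pi.single j 1) (Pi.single j 1) i := by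
  have hd : Differentiable ℝ w := hw.differentiable (by norm_num)
  have h1 : dx j (fun y => w y i) = fun z => fderiv ℝ w z (Pi.single j 1) i :=
    funext (fun z => dx_comp_eq (hd z) i j)
  rw [h1]
  have h2 : ContDiff ℝ 1 (fderiv ℝ w) := hw.fderiv_right (by norm_num)
  have h3 : HasFDerivAt (fderiv ℝ w) (fderiv ℝ (fderiv ℝ w) x) x :=
    (h2.differentiable (by norm_num) x).hasFDerivAt
  unfold dx
  rw [(hasFDerivAt_D_apply (fderiv ℝ w) _ x h3 j i).fderiv]
  rfl

/-- The derivative data of a classical solution. -/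
noncomputable def IsClassicalSol.toData {ν : ℝ} {f : ℝ → E3 → E3} {T : ℝ} {u : ℝ → E3 → E3}
    {p : ℝ → E3 → ℝ} (hT : 0 < T) (h : IsClassicalSol ν f T u p) : NSData ν T f u p where
  ut := fun t x => derivWithin (fun s => u s x) (Icc (0 : ℝ) T) t
  Du := fun t x => fderiv ℝ (u t) x
  D2u := fun t x => fderiv ℝ (fderiv ℝ (u t)) x
  Dp := fun t x => fderiv ℝ (p t) x
  per_u := fun t ht i x => h.per_u t ht x i
  per_p := fun t ht i x => h.per_p t ht x i
  hut := fun t ht x => (h.diff_t t ht x).hasDerivWithinAt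
  hDu := fun t ht x => ((h.c2_u t ht).differentiable (by norm_num) x).hasFDerivAt
  hD2u := fun t ht x =>
    ((((h.c2_u t ht).fderiv_right (m := 1) (by norm_num)).differentiable (by norm_num)) x).hasFDerivAt
  hDp := fun t ht x => ((h.c1_p t ht).differentiable (by norm_num) x).hasFDerivAt
  cu := h.cont_u
  cut := h.cont_ut
  cDu := h.cont_du
  cD2u := h.cont_ddu
  cp := h.cont_p
  cDp := h.cont_dp
  mean_p := h.mean_p
  init := h.rest
  div_free := by
    intro t ht x
    have := h.div_free t ht x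
    have hd : Differentiable ℝ (u t) := (h.c2_u t ht).differentiable (by norm_num)
    simp only [dx_comp_eq (hd x)] at this
    exact this
  eqn := by
    intro t ht x j
    have := h.momentum t ht x j
    have hd : Differentiable ℝ (u t) := (h.c2_u t ht).differentiable (by norm_num)
    simp only [dx_comp_eq (hd x), dx_dx_comp_eq (h.c2_u t ht)] at this
    have e : derivWithin (fun s => u s x j) (Icc (0 : ℝ) T) t
        = derivWithin (fun s => u s x) (Icc (0 : ℝ) T) t j :=
      ((hasDerivWithinAt_pi.mp (h.diff_t t ht x).hasDerivWithinAt) j).derivWithin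
        (uniqueDiffOn_Icc hT t ht)
    rw [e] at this
    exact this

theorem classical_unique {ν : ℝ} {f : ℝ → E3 → E3} {T : ℝ} {u v : ℝ → E3 → E3}
    {p π : ℝ → E3 → ℝ} (hν : 0 ≤ ν) (hT : 0 < T)
    (h1 : IsClassicalSol ν f T u p) (h2 : IsClassicalSol ν f T v π) :
    ∀ t ∈ Icc (0 : ℝ) T, v t = u t ∧ π t = p t := by
  intro t ht
  exact ⟨funext (velocity_unique hν (h2.toData hT) (h1.toData hT) t ht),
    funext (pressure_unique hν hT (h2.toData hT) (h1.toData hT) t ht)⟩

end Vale.Agent.P113
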