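import Vale.Agent.P113.Defs
import Vale.Agent.P113.GTM

namespace Vale.Agent.P113

open Primrec Turing StateTransition


theorem headD_primrec : Primrec (fun l : List ℕ => l.headD 0) :=
  (Primrec.option_getD.comp Primrec.list_head? (Primrec.const 0)).of_eq fun l => by
    cases l <;> rfl

theorem stepCfg_eq (M : Machine) (c : Cfg) : stepCfg M c =
    Option.casesOn (List.lookup (c.1, c.2.2.headD 0) M.2.2) c
      (fun r => cond r.2.2 (r.1, r.2.1 :: c.2.1, c.2.2.tail)
        (r.1, c.2.1.tail, c.2.1.headD 0 :: r.2.1 :: c.2.2.tail)) := by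
  unfold stepCfg
  cases h : List.lookup (c.1, c.2.2.headD 0) M.2.2 with
  | none => rfl
  | some r =>
    obtain ⟨q, s, b⟩ := r
    cases b <;> rfl

theorem lookup_inst {β : Type} (a : ℕ × ℕ) (l : List ((ℕ × ℕ) × β)) :
    @List.lookup (ℕ × ℕ) β instBEqOfDecidableEq a l = @List.lookup (ℕ × ℕ) β instBEqProd a l := by
  induction l with
  | nil => rfl
  | cons p l ih =>
    have h : (@BEq.beq _ instBEqOfDecidableEq a p.1) = (@BEq.beq _ instBEqProd a p.1) := by
      by_cases hap : a = p.1
      · subst hap; simp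
      · rw [show (@BEq.beq _ instBEqProd a p.1) = false from by simpa using hap]
        simpa using hap
    obtain ⟨k, v⟩ := p
    simp only [List.lookup] at *
    rw [h, ih]

theorem stepCfg_primrec : Primrec₂ stepCfg := by
  have hl : Primrec (fun p : Machine × Cfg => List.lookup (p.2.1, p.2.2.2.headD 0) p.1.2.2) :=
    (Primrec.listLookup.comp
      (Primrec.pair (fst.comp snd) (headD_primrec.comp (snd.comp (snd.comp snd))))
      (snd.comp (snd.comp fst))).of_eq fun p => lookup_inst _ _
  have hc : Primrec₂ (fun (p : Machine × Cfg) (r : ℕ × ℕ × Bool) =>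
      cond r.2.2 (r.1, r.2.1 :: p.2.2.1, p.2.2.2.tail)
        (r.1, p.2.2.1.tail, p.2.2.1.headD 0 :: r.2.1 :: p.2.2.2.tail)) := by
    refine Primrec.cond (snd.comp (snd.comp snd)) ?_ ?_
    · exact Primrec.pair (fst.comp snd) (Primrec.pair
        (list_cons.comp (fst.comp (snd.comp snd)) (fst.comp (snd.comp (snd.comp fst))))
        (list_tail.comp (snd.comp (snd.comp (snd.comp fst)))))
    · exact Primrec.pair (fst.comp snd) (Primrec.pair
        (list_tail.comp (fst.comp (snd.comp (snd.comp fst))))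
        (list_cons.comp (headD_primrec.comp (fst.comp (snd.comp (snd.comp fst))))
          (list_cons.comp (fst.comp (snd.comp snd))
            (list_tail.comp (snd.comp (snd.comp (snd.comp fst)))))))
  exact (Primrec.option_casesOn hl snd hc).of_eq fun p => (stepCfg_eq p.1 p.2).symm

/-- the state after `k` steps is halting. -/
def haltAt (mw : Machine × List ℕ) (k : ℕ) : Bool :=
  decide (((stepCfg mw.1)^[k] (initCfg mw.1 mw.2)).1 ∈ mw.1.2.1)

theorem haltAt_primrec : Primrec₂ haltAt := by
  have hit : Primrec (fun p : (Machine × List ℕ) × ℕ =>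
      (stepCfg p.1.1)^[p.2] (initCfg p.1.1 p.1.2)) :=
    Primrec.nat_iterate snd
      (Primrec.pair (fst.comp (fst.comp fst)) (Primrec.pair (Primrec.const []) (snd.comp fst)))
      (stepCfg_primrec.comp (fst.comp (fst.comp fst)) snd).to₂
  have hmem : PrimrecRel (fun (L : List ℕ) (b : ℕ) => ∃ a ∈ L, a = b) :=
    PrimrecRel.exists_mem_list Primrec.eq
  have := hmem.comp (fst.comp (snd.comp (fst.comp fst))) (fst.comp hit)
  obtain ⟨_, h⟩ := this
  refine h.of_eq fun p => ?_
  simp [haltAt]

/-- halting search. -/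
def hsearch (mw : Machine × List ℕ) : Part ℕ :=
  Nat.rfind (fun k => Part.some (haltAt mw k) : ℕ →. Bool)

theorem hsearch_partrec : Partrec hsearch :=
  Partrec.rfind (haltAt_primrec.to_comp.partrec₂)

theorem hsearch_dom (mw : Machine × List ℕ) : (hsearch mw).Dom ↔ Halts mw.1 mw.2 := by
  refine Nat.rfind_dom.trans ?_
  constructor
  · rintro ⟨n, hn, -⟩
    refine ⟨n, ?_⟩
    simpa [haltAt] using hn
  · rintro ⟨n, hn⟩
    exact ⟨n, by simpa [haltAt] using hn, fun _ => trivial⟩



section tm0
variable {Γ Λ : Type} [Inhabited Γ] [Inhabited Λ] (M : TM0.Machine Γ Λ) (S : Finset Λ)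
  (hS : TM0.Supports M (S : Set Λ))

open Classical in
/-- retraction onto the finite support. -/
noncomputable def retr (hS : TM0.Supports M (S : Set Λ)) (q : Λ) : S :=
  if h : q ∈ S then ⟨q, h⟩ else ⟨default, hS.1⟩

omit [Inhabited Γ] in
theorem retr_val {q : Λ} (h : q ∈ S) : (retr M S hS q : Λ) = q := by
  simp [retr, h]

/-- a Post machine restricted to a finite support, as a `GTM`. -/
noncomputable def toGTM : GTM Γ S where
  δ q a := (M q a).map fun r =>
    match r.2 with
    | TM0.Stmt.move Dir.left => (retr M S hS r.1, a, Mv.L)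
    | TM0.Stmt.move Dir.right => (retr M S hS r.1, a, Mv.R)
    | TM0.Stmt.write b => (retr M S hS r.1, b, Mv.N)

/-- the Post machine configuration of a list configuration. -/
def toCfg0 (c : GCfg Γ S) : TM0.Cfg Γ Λ :=
  ⟨c.1, Tape.mk' (ListBlank.mk c.2.1) (ListBlank.mk c.2.2)⟩

theorem headD_eq_headI (l : List Γ) : l.headD default = l.headI := by cases l <;> rfl

theorem mk_head_tail (l : List Γ) : ListBlank.mk (l.headI :: l.tail) = ListBlank.mk l := by
  have := ListBlank.cons_head_tail (ListBlank.mk l)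
  rwa [ListBlank.head_mk, ListBlank.tail_mk, ListBlank.cons_mk] at this

theorem toGTM_respects :
    Respects (TM0.step M) (toGTM M S hS).step (fun a b => a = toCfg0 S b) := by
  rintro _ ⟨q, L, R⟩ rfl
  have hstep : TM0.step M (toCfg0 S (q, L, R)) = (M q R.headI).map fun r =>
      ⟨r.1, match r.2 with
        | TM0.Stmt.move d => (Tape.mk' (ListBlank.mk L) (ListBlank.mk R)).move d
        | TM0.Stmt.write a => (Tape.mk' (ListBlank.mk L) (ListBlank.mk R)).write a⟩ := by
    simp only [TM0.step, toCfg0, Tape.mk'_head, ListBlank.head_mk]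
    rfl
  have hg : (toGTM M S hS).step (q, L, R) = ((toGTM M S hS).δ q R.headI).map fun r =>
      match r with
      | (q', s', Mv.N) => (q', L, s' :: R.tail)
      | (q', s', Mv.R) => (q', s' :: L, R.tail)
      | (q', s', Mv.L) => (q', L.tail, L.headI :: s' :: R.tail) := by
    simp only [GTM.step, headD_eq_headI]
    congr 1
    funext r
    rcases r with ⟨q', s', _ | _ | _⟩ <;> rfl
  rw [hstep]
  cases h : M q R.headI with
  | none =>
    simp only [Option.map_none]
    rw [hg]
    simp [toGTM, h]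
  | some r =>
    obtain ⟨q', s⟩ := r
    have hq' : q' ∈ S := hS.2 (show (q', s) ∈ M q R.headI from h) q.2
    simp only [Option.map_some]
    rcases s with (_ | _) | b
    · refine ⟨(retr M S hS q', L.tail, L.headI :: R.headI :: R.tail), ?_,
        Relation.TransGen.single ?_⟩
      · simp only [toCfg0, retr_val M S hS hq', Tape.move_left_mk', ListBlank.head_mk,
          ListBlank.tail_mk, ListBlank.cons_mk]
        rw [← ListBlank.cons_mk L.headI (R.headI :: R.tail), mk_head_tail, ListBlank.cons_mk]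
      · rw [hg]; simp [toGTM, h]
    · refine ⟨(retr M S hS q', R.headI :: L, R.tail), ?_, Relation.TransGen.single ?_⟩
      · simp only [toCfg0, retr_val M S hS hq', Tape.move_right_mk', ListBlank.head_mk,
          ListBlank.tail_mk, ListBlank.cons_mk]
      · rw [hg]; simp [toGTM, h]
    · refine ⟨(retr M S hS q', L, b :: R.tail), ?_, Relation.TransGen.single ?_⟩
      · simp only [toCfg0, retr_val M S hS hq', Tape.write_mk',
          ListBlank.tail_mk, ListBlank.cons_mk]
      · rw [hg]; simp [toGTM, h]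

theorem toGTM_halts (l : List Γ) :
    (toGTM M S hS).HaltsFrom (⟨default, hS.1⟩, [], l) ↔ (TM0.eval M l).Dom := by
  unfold GTM.HaltsFrom
  rw [tr_eval_dom (toGTM_respects M S hS) (a₁ := TM0.init l) rfl]
  simp [TM0.eval]

end tm0



open PartrecToTM2 in
theorem trNum_bit1 (m : Num) : trNum (Num.bit1 m) = Γ'.bit1 :: trNum m := by
  cases m <;> rfl

open PartrecToTM2 in
theorem trNat_ones (n : ℕ) : trNat (2 ^ n - 1) = List.replicate n Γ'.bit1 := by
  induction n with
  | zero => simp
  | succ n ih =>
    have h : 2 ^ (n + 1) - 1 = Nat.bit true (2 ^ n - 1) := by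
      have : 0 < 2 ^ n := by positivity
      simp only [Nat.bit, cond_true, pow_succ]
      omega
    rw [h, trNat, ← Num.ofNat'_eq, Num.ofNat'_bit, Num.ofNat'_eq]
    simp only [cond_true]
    rw [trNum_bit1, List.replicate_succ]
    congr 1

instance : Fintype PartrecToTM2.K' :=
  ⟨{PartrecToTM2.K'.main, PartrecToTM2.K'.rev, PartrecToTM2.K'.aux, PartrecToTM2.K'.stack},
    fun x => by cases x <;> simp⟩

theorem trInit_append {K : Type} [DecidableEq K] {Γ : K → Type} (k : K) (l : List (Γ k))
    (a : Γ k) : TM2to1.trInit k (l ++ [a]) =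
      (true, Function.update (fun _ => none) k (some a)) ::
        l.reverse.map (fun a => (false, Function.update (fun _ => none) k (some a))) := by
  have h : (l ++ [a]).reverse = a :: l.reverse := by simp
  unfold TM2to1.trInit
  rw [h]
  rfl

open PartrecToTM2 in
theorem chain (F : ℕ →. ℕ) (hF : Partrec F) :
    ∃ (Γ Λ : Type) (_ : Fintype Γ) (_ : Inhabited Γ) (_ : Inhabited Λ) (M : TM0.Machine Γ Λ)
      (S : Finset Λ) (_ : TM0.Supports M (S : Set Λ)) (A b : Γ),
      ∀ n, (TM0.eval M (A :: List.replicate n b)).Dom ↔ (F (2 ^ n - 1)).Dom := by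
  have hf : Partrec (fun v : List.Vector ℕ 1 => F v.head) :=
    hF.comp Computable.vector_head
  obtain ⟨c, hc⟩ := ToPartrec.Code.exists_code (Nat.Partrec'.of_part hf)
  let iΛ : Inhabited Λ' := ⟨trNormal c Cont'.halt⟩
  let M2 : Λ' → TM2.Stmt (fun _ : K' => Γ') Λ' (Option Γ') := tr
  have s2 : TM2.Supports M2 (codeSupp c Cont'.halt) := tr_supports c Cont'.halt
  have s1 := TM2to1.tr_supports M2 s2
  have s0 := TM1to0.tr_supports (TM2to1.tr M2) s1
  let A : TM2to1.Γ' K' (fun _ : K' => Γ') :=
    (true, Function.update (fun _ => none) K'.main (some Γ'.cons))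
  let b : TM2to1.Γ' K' (fun _ : K' => Γ') :=
    (false, Function.update (fun _ => none) K'.main (some Γ'.bit1))
  refine ⟨_, _, inferInstanceAs (Fintype (Bool × ∀ _ : K', Option Γ')), inferInstance,
    inferInstance, TM1to0.tr (TM2to1.tr M2), _, s0, A, b, fun n => ?_⟩
  have hin : TM2to1.trInit (Γ := fun _ : K' => Γ') K'.main (trList [2 ^ n - 1]) =
      A :: List.replicate n b := by
    have h0 : trList [2 ^ n - 1] = List.replicate n Γ'.bit1 ++ [Γ'.cons] := by
      simp [trList, trNat_ones]
    rw [h0, trInit_append, List.reverse_replicate, List.map_replicate]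
    rfl
  have e1 := TM1to0.tr_eval (TM2to1.tr M2) (A :: List.replicate n b)
  have e2 := TM2to1.tr_eval_dom M2 K'.main (trList [2 ^ n - 1])
  rw [hin] at e2
  have hinit : (TM2.init K'.main (trList [2 ^ n - 1]) : TM2.Cfg (fun _ : K' => Γ') Λ' (Option Γ'))
      = init c [2 ^ n - 1] := by
    simp only [TM2.init, init]
    congr 1
    funext k
    cases k <;> rfl
  have e3 : (TM2.eval M2 K'.main (trList [2 ^ n - 1])).Dom ↔ (c.eval [2 ^ n - 1]).Dom := by
    have h3 : (TM2.eval M2 K'.main (trList [2 ^ n - 1])).Dom ↔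
        (StateTransition.eval (TM2.step M2) (TM2.init K'.main (trList [2 ^ n - 1]))).Dom :=
      Iff.rfl
    rw [h3, hinit]
    have h4 := tr_eval c [2 ^ n - 1]
    have h5 : (StateTransition.eval (TM2.step M2) (init c [2 ^ n - 1])).Dom ↔
        (halt <$> c.eval [2 ^ n - 1]).Dom := by
      rw [← h4]
    rw [h5]
    simp
  have e4 : (c.eval [2 ^ n - 1]).Dom ↔ (F (2 ^ n - 1)).Dom := by
    have := hc ⟨[2 ^ n - 1], rfl⟩
    simp only at this
    rw [this]
    simp [List.Vector.head]
  rw [e1]
  exact e2.trans (e3.trans e4)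


/-- least `k` with `N < 2 ^ k`. -/
def ulog (N : ℕ) : Part ℕ := Nat.rfind (fun k => Part.some (decide (N < 2 ^ k)) : ℕ →. Bool)

theorem pow2_primrec : Primrec (fun k : ℕ => 2 ^ k) :=
  (Primrec.nat_rec' Primrec.id (Primrec.const 1)
    (Primrec.nat_mul.comp (Primrec.const 2) (snd.comp snd)).to₂).of_eq fun k => by
    induction k with
    | zero => rfl
    | succ k ih => simp only [pow_succ]; rw [← ih]; simp [mul_comm]

theorem ulog_partrec : Partrec ulog := by
  have h : PrimrecRel (fun (N k : ℕ) => N < 2 ^ k) :=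
    Primrec.nat_lt.comp fst (pow2_primrec.comp snd)
  obtain ⟨_, h'⟩ := h
  have h2 : Primrec₂ (fun (N k : ℕ) => decide (N < 2 ^ k)) := h'.of_eq fun p => by simp
  exact Partrec.rfind (p := fun N k => Part.some (decide (N < 2 ^ k))) h2.to_comp.partrec₂

theorem ulog_ones (n : ℕ) : ulog (2 ^ n - 1) = Part.some n := by
  refine Part.eq_some_iff.2 (Nat.mem_rfind.2 ⟨?_, fun {m} hm => ?_⟩)
  · have : 0 < 2 ^ n := by positivity
    simp only [Part.mem_some_iff]
    exact (decide_eq_true (by omega)).symm
  · have h1 : 2 ^ m < 2 ^ n := Nat.pow_lt_pow_right (by norm_num) hm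
    simp only [Part.mem_some_iff]
    exact (decide_eq_false (by omega)).symm

/-- the semi-decision procedure on unary-coded inputs. -/
def usearch (N : ℕ) : Part ℕ :=
  (ulog N).bind fun n =>
    Option.casesOn (Encodable.decode (α := Machine × List ℕ) n) (Part.some 0) hsearch

theorem usearch_partrec : Partrec usearch := by
  refine Partrec.bind ulog_partrec ?_
  exact Partrec.optionCasesOn_right (Computable.decode.comp Computable.snd) (Computable.const 0)
    (hsearch_partrec.comp Computable.snd).to₂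

theorem usearch_dom (mw : Machine × List ℕ) :
    (usearch (2 ^ Encodable.encode mw - 1)).Dom ↔ Halts mw.1 mw.2 := by
  unfold usearch
  rw [ulog_ones, Part.bind_some, Encodable.encodek]
  exact hsearch_dom mw

theorem universal : ∃ (Γ Λ : Type) (_ : Fintype Γ) (_ : Fintype Λ) (_ : DecidableEq Γ)
    (_ : DecidableEq Λ) (_ : Inhabited Γ) (U : GTM Γ Λ) (q0 : Λ) (A b : Γ),
    ∀ (M : Machine) (w : List ℕ),
      Halts M w ↔ U.HaltsFrom (q0, [], A :: List.replicate (Encodable.encode (M, w)) b) := by
  obtain ⟨Γ, Λ, i1, i2, i3, M0, S, hS, A, b, h⟩ := chain usearch usearch_partrec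
  classical
  refine ⟨Γ, S, i1, inferInstance, inferInstance, inferInstance, i2, toGTM M0 S hS,
    ⟨default, hS.1⟩, A, b, fun M w => ?_⟩
  rw [toGTM_halts, h, usearch_dom]

end Vale.Agent.P113
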