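import Vale.Agent.P113.Dyn
import Vale.Agent.P113.Uniq
import Vale.Agent.P113.FlowPDE
import Vale.Agent.P113.FlowTraj
import Vale.Agent.P113.Universal
import Vale.Agent.P113.Eff

namespace Vale.Agent.P113

open Set
open scoped ContDiff

/-- Stage 2: the full statement. -/
theorem haltingDetection (ν : ℝ) (hν : 0 < ν) (hc : IsComputableReal ν) : HaltingDetection ν := by
  obtain ⟨Γ, Λ, i1, i2, i3, i4, i5, U, q0, A, b, hU⟩ := universal
  obtain ⟨cq, hcq, hcqv⟩ := kick_computable q0 A b
  have hgood : ∀ j < 10, (schedOf U j).Good := fun j _ => schedOf_good U j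
  have hkick : ∀ mw : Machine × List ℕ,
      (Pi.single 0 (qv (cq (Encodable.encode mw))) : E3)
        = kick q0 (A :: List.replicate (Encodable.encode mw) b) := fun mw => by
    rw [hcqv]; rfl
  have hbase : 8 ≤ base Γ Λ ^ 3 := by
    have : 4 ≤ base Γ Λ := by unfold base; omega
    calc 8 ≤ 4 ^ 3 := by norm_num
      _ ≤ base Γ Λ ^ 3 := Nat.pow_le_pow_left this 3
  obtain ⟨comp, hcomp, hprog⟩ := force_effective (α := Machine × List ℕ) hc (base Γ Λ ^ 3) hbase
    (bn (Γ := Γ) (Λ := Λ)) bn_le (flag U) (tab (fwd1 U)) (tab (bwd1 U)) (tab (fwd2 U))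
    (tab (bwd2 U)) (tab (fwd3 U)) (tab (bwd3 U)) (fun mw => cq (Encodable.encode mw))
    (hcq.comp Computable.encode)
  refine ⟨0, targetO, 1,
    fun M w => force ν (Pi.single 0 (qv (cq (Encodable.encode (M, w))))) 10 (schedOf U), comp,
    targetO_open, targetO_per, zero_le_one, hcomp, fun M w => ⟨force_smooth hgood, hprog (M, w)⟩,
    fun M => ⟨12, by norm_num, fun w t x ht => ?_⟩, fun M w w' t x ht => force_indep_kick _ t x ht,
    fun M w => ⟨vel (Pi.single 0 (qv (cq (Encodable.encode (M, w))))) 10 (schedOf U),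
      fun _ _ => 0, vel_contDiff hgood, contDiff_const, fun T hT => vel_classical hgood T hT,
      fun T hT v π hv => classical_unique hν.le hT (vel_classical hgood T hT) hv,
      traj (Pi.single 0 (qv (cq (Encodable.encode (M, w))))) 10 (schedOf U) 0,
      traj_isTrajectory hgood, fun X' hX' => traj_unique hgood hX', ?_⟩⟩
  · have := force_periodic (ν := ν) (c := Pi.single 0 (qv (cq (Encodable.encode (M, w)))))
      (K := 10) (sh := schedOf U) t x ht
    norm_num at this ⊢
    exact this
  · rw [hkick, traj_hits_iff, hU]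

end Vale.Agent.P113
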