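import Vale.Agent.P113.Dyn
import Vale.Agent.P113.Uniq
import Vale.Agent.P113.FlowPDE
import Vale.Agent.P113.FlowTraj
import Vale.Agent.P113.Universal

namespace Vale.Agent.P113

open Set
open scoped ContDiff

theorem force_split (ν r : ℝ) (K : ℕ) (sh : ℕ → Shear) (t : ℝ) (x : E3) :
    force ν (Pi.single 0 r) K sh t x = (S2 t * r) • (Pi.single 0 1 : E3) + force ν 0 K sh t x := by
  unfold force
  rw [smul_zero, zero_add]
  congr 1
  funext i
  by_cases h : i = 0
  · subst h; simp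
  · simp [h]

theorem force_zero_periodic (ν : ℝ) (K : ℕ) (sh : ℕ → Shear) (t : ℝ) (x : E3) :
    force ν 0 K sh (t + ((K : ℝ) + 2)) x = force ν 0 K sh t x := by
  unfold force
  rw [tmod_add_period (by positivity)]
  simp

/-- Stage 1: everything except the effectivity of the two fixed functions `κ` and `F`. -/
theorem stage1 (ν : ℝ) (hν : 0 < ν) :
    ∃ (a : E3) (O : Set E3) (κ : ℝ → ℝ) (F : ℝ → E3 → E3)
      (amp : Machine × List ℕ → ℕ × ℕ × ℕ),
      IsOpen O ∧ (∀ (x : E3) (k : Fin 3), x + Pi.single k 1 ∈ O ↔ x ∈ O) ∧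
      Computable amp ∧ ContDiff ℝ ∞ κ ∧ (∀ t, 1 ≤ t → κ t = 0) ∧ IsSmoothForce F ∧
      (∃ P : ℝ, 0 < P ∧ ∀ t x, F (t + P) x = F t x) ∧
      ∀ M w, ∃ (u : ℝ → E3 → E3) (p : ℝ → E3 → ℝ),
        ContDiff ℝ ∞ (fun z : ℝ × E3 => u z.1 z.2) ∧ ContDiff ℝ ∞ (fun z : ℝ × E3 => p z.1 z.2) ∧
        (∀ T, 0 < T → IsClassicalSol ν
          (fun t x => (κ t * qv (amp (M, w))) • (Pi.single 0 1 : E3) + F t x) T u p) ∧
        (∀ T, 0 < T → ∀ v π, IsClassicalSol ν
          (fun t x => (κ t * qv (amp (M, w))) • (Pi.single 0 1 : E3) + F t x) T v π →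
          ∀ t ∈ Icc (0 : ℝ) T, v t = u t ∧ π t = p t) ∧
        ∃ X : ℝ → E3, IsTrajectory u a X ∧
          (∀ X', IsTrajectory u a X' → ∀ t, 0 ≤ t → X' t = X t) ∧
          ((∃ t, 0 ≤ t ∧ X t ∈ O) ↔ Halts M w) := by
  obtain ⟨Γ, Λ, i1, i2, i3, i4, i5, U, q0, A, b, hU⟩ := universal
  obtain ⟨cq, hcq, hcqv⟩ := kick_computable q0 A b
  have hgood : ∀ j < 10, (schedOf U j).Good := fun j _ => schedOf_good U j
  have hkick : ∀ mw : Machine × List ℕ,
      (Pi.single 0 (qv (cq (Encodable.encode mw))) : E3)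
        = kick q0 (A :: List.replicate (Encodable.encode mw) b) := fun mw => by
    rw [hcqv]; rfl
  have hf : ∀ mw : Machine × List ℕ,
      (fun t x => (S2 t * qv (cq (Encodable.encode mw))) • (Pi.single 0 1 : E3)
        + force ν 0 10 (schedOf U) t x)
      = force ν (Pi.single 0 (qv (cq (Encodable.encode mw)))) 10 (schedOf U) := fun mw => by
    funext t x
    rw [force_split]
  refine ⟨0, targetO, S2, force ν 0 10 (schedOf U), fun mw => cq (Encodable.encode mw),
    targetO_open, targetO_per, hcq.comp Computable.encode, S2_contDiff,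
    fun t ht => S2_of_one_le ht, force_smooth hgood,
    ⟨12, by norm_num, fun t x => ?_⟩,
    fun M w => ⟨vel (Pi.single 0 (qv (cq (Encodable.encode (M, w))))) 10 (schedOf U),
      fun _ _ => 0, vel_contDiff hgood, contDiff_const, fun T hT => ?_,
      fun T hT v π hv => ?_,
      traj (Pi.single 0 (qv (cq (Encodable.encode (M, w))))) 10 (schedOf U) 0,
      traj_isTrajectory hgood, fun X' hX' => traj_unique hgood hX', ?_⟩⟩
  · have := force_zero_periodic ν 10 (schedOf U) t x
    norm_num at this ⊢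
    exact this
  · rw [hf (M, w)]
    exact vel_classical hgood T hT
  · rw [hf (M, w)] at hv
    exact classical_unique hν.le hT (vel_classical hgood T hT) hv
  · rw [hkick, traj_hits_iff, hU]

end Vale.Agent.P113
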