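import Mathlib
open MeasureTheory Set Filter Topology

namespace Vale.Agent.P113


abbrev X3 : Type := Fin 3 → ℝ

/-- unit vector -/
abbrev ee (i : Fin 3) : X3 := Pi.single i (1 : ℝ)

/-- the unit cube -/
abbrev QQ : Set X3 := Set.Icc (0 : X3) 1

lemma insertNth_one_eq (i : Fin 3) (x : Fin 2 → ℝ) :
    (i.insertNth (1 : ℝ) x : X3) = (i.insertNth (0 : ℝ) x : X3) + ee i := by
  ext j
  rcases eq_or_ne j i with rfl | hne
  · simp [ee]
  · obtain ⟨k, rfl⟩ := Fin.exists_succAbove_eq hne
    simp [ee, Fin.succAbove_ne]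

/-- Periodic divergence theorem on the unit cube. -/
lemma integral_div_eq_zero (F : Fin 3 → X3 → ℝ) (F' : Fin 3 → X3 → X3 →L[ℝ] ℝ)
    (hF : ∀ i x, HasFDerivAt (F i) (F' i x) x)
    (hper : ∀ i x, F i (x + ee i) = F i x)
    (hint : IntegrableOn (fun x => ∑ i, F' i x (ee i)) QQ) :
    ∫ x in QQ, ∑ i, F' i x (ee i) = 0 := by
  have h := integral_divergence_of_hasFDerivAt_off_countable' (n := 2) (E := ℝ) (0 : X3) 1
    (by intro i; simp) F F' ∅ countable_empty
    (fun i => (fun x _ => (hF i x).continuousAt.continuousWithinAt))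
    (fun x _ i => hF i x) hint
  rw [h]
  apply Finset.sum_eq_zero
  intro i _
  rw [sub_eq_zero]
  apply setIntegral_congr_fun measurableSet_Icc
  intro x _
  simp only [Pi.one_apply, Pi.zero_apply]
  rw [insertNth_one_eq, hper]

lemma norm_ee (i : Fin 3) : ‖ee i‖ = 1 := by
  rw [Pi.norm_single]; simp

lemma abs_clm_le (B : X3 →L[ℝ] X3) (i j : Fin 3) : |B (ee i) j| ≤ ‖B‖ := by
  calc |B (ee i) j| = ‖B (ee i) j‖ := (Real.norm_eq_abs _).symm
    _ ≤ ‖B (ee i)‖ := norm_le_pi_norm _ j
    _ ≤ ‖B‖ * ‖ee i‖ := B.le_opNorm _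
    _ = ‖B‖ := by rw [norm_ee, mul_one]

/-- the derivative of a periodic function is periodic -/
lemma deriv_periodic {E : Type*} [NormedAddCommGroup E] [NormedSpace ℝ E]
    (w : X3 → E) (Dw : X3 → X3 →L[ℝ] E) (hw : ∀ x, HasFDerivAt w (Dw x) x)
    (v : X3) (pw : ∀ x, w (x + v) = w x) (x : X3) : Dw (x + v) = Dw x := by
  have h1 : HasFDerivAt (fun y => w (y + v)) (Dw (x + v)) x :=
    (hasFDerivAt_comp_add_right v).mpr (hw (x + v))
  have h2 : (fun y => w (y + v)) = w := funext pw
  rw [h2] at h1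
  exact h1.unique (hw x)

lemma hasFDerivAt_comp_apply (w : X3 → X3) (Dw : X3 →L[ℝ] X3) (x : X3) (hw : HasFDerivAt w Dw x)
    (j : Fin 3) : HasFDerivAt (fun y => w y j) ((ContinuousLinearMap.proj j).comp Dw) x :=
  (hasFDerivAt_pi'.mp hw) j

lemma hasFDerivAt_D_apply (Dw : X3 → X3 →L[ℝ] X3) (D2w : X3 →L[ℝ] X3 →L[ℝ] X3) (x : X3)
    (h : HasFDerivAt Dw D2w x) (i j : Fin 3) :
    HasFDerivAt (fun y => Dw y (ee i) j)
      (((ContinuousLinearMap.proj j).comp (ContinuousLinearMap.apply ℝ X3 (ee i))).comp D2w) x :=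
  (((ContinuousLinearMap.proj (R := ℝ) (φ := fun _ : Fin 3 => ℝ) j).comp
    (ContinuousLinearMap.apply ℝ X3 (ee i))).hasFDerivAt).comp x h

lemma spatial_ineq {ν M : ℝ} (hν : 0 ≤ ν)
    (w a r : X3 → X3) (Dw Da B : X3 → X3 →L[ℝ] X3) (D2w : X3 → X3 →L[ℝ] X3 →L[ℝ] X3)
    (q : X3 → ℝ) (Dq : X3 → X3 →L[ℝ] ℝ)
    (hw : ∀ x, HasFDerivAt w (Dw x) x) (hDw : ∀ x, HasFDerivAt Dw (D2w x) x)
    (ha : ∀ x, HasFDerivAt a (Da x) x) (hq : ∀ x, HasFDerivAt q (Dq x) x)
    (cD2w : Continuous D2w) (cDa : Continuous Da) (cDq : Continuous Dq) (cr : Continuous r)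
    (pw : ∀ i x, w (x + ee i) = w x) (pa : ∀ i x, a (x + ee i) = a x)
    (pq : ∀ i x, q (x + ee i) = q x)
    (divw : ∀ x, ∑ i, Dw x (ee i) i = 0) (diva : ∀ x, ∑ i, Da x (ee i) i = 0)
    (hB : ∀ x ∈ QQ, ‖B x‖ ≤ M)
    (hr : ∀ x j, r x j + ∑ i, a x i * Dw x (ee i) j + ∑ i, w x i * B x (ee i) j
      = - Dq x (ee j) + ν * ∑ i, D2w x (ee i) (ee i) j) :
    ∫ x in QQ, ∑ j, w x j * r x j ≤ 3 * M * ∫ x in QQ, ∑ j, (w x j) ^ 2 := by
  have cw : Continuous w := continuous_iff_continuousAt.mpr (fun x => (hw x).continuousAt)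
  have cDw : Continuous Dw := continuous_iff_continuousAt.mpr (fun x => (hDw x).continuousAt)
  have ca : Continuous a := continuous_iff_continuousAt.mpr (fun x => (ha x).continuousAt)
  have cq : Continuous q := continuous_iff_continuousAt.mpr (fun x => (hq x).continuousAt)
  have cwj : ∀ j, Continuous (fun x => w x j) := fun j => (continuous_apply j).comp cw
  have caj : ∀ j, Continuous (fun x => a x j) := fun j => (continuous_apply j).comp ca
  have crj : ∀ j, Continuous (fun x => r x j) := fun j => (continuous_apply j).comp cr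
  have cDwij : ∀ i j, Continuous (fun x => Dw x (ee i) j) := fun i j =>
    (continuous_apply j).comp (cDw.clm_apply continuous_const)
  have cDaij : ∀ i j, Continuous (fun x => Da x (ee i) j) := fun i j =>
    (continuous_apply j).comp (cDa.clm_apply continuous_const)
  have cDqi : ∀ i, Continuous (fun x => Dq x (ee i)) := fun i => cDq.clm_apply continuous_const
  have cD2 : ∀ i j, Continuous (fun x => D2w x (ee i) (ee i) j) := fun i j =>
    (continuous_apply j).comp ((cD2w.clm_apply continuous_const).clm_apply continuous_const)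
  -- the vector field
  set F : Fin 3 → X3 → ℝ := fun i x =>
    (1 / 2) * (a x i * ∑ j, (w x j) ^ 2) + q x * w x i - ν * ∑ j, w x j * Dw x (ee i) j with hFdef
  set G : Fin 3 → X3 → ℝ := fun i x =>
    (1 / 2) * (Da x (ee i) i * ∑ j, (w x j) ^ 2 + a x i * ∑ j, 2 * w x j * Dw x (ee i) j)
      + (Dq x (ee i) * w x i + q x * Dw x (ee i) i)
      - ν * ∑ j, (Dw x (ee i) j * Dw x (ee i) j + w x j * D2w x (ee i) (ee i) j) with hGdef
  have hex : ∀ i x, ∃ L : X3 →L[ℝ] ℝ, HasFDerivAt (F i) L x ∧ L (ee i) = G i x := by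
    intro i x
    have h1 : ∀ j, HasFDerivAt (fun y => w y j) ((ContinuousLinearMap.proj j).comp (Dw x)) x :=
      fun j => hasFDerivAt_comp_apply w (Dw x) x (hw x) j
    have h2 : HasFDerivAt (fun y => a y i) ((ContinuousLinearMap.proj i).comp (Da x)) x :=
      hasFDerivAt_comp_apply a (Da x) x (ha x) i
    have h3 : ∀ j, HasFDerivAt (fun y => Dw y (ee i) j) _ x :=
      fun j => hasFDerivAt_D_apply Dw (D2w x) x (hDw x) i j
    have h4 := HasFDerivAt.fun_sum (u := Finset.univ) (fun j _ => (h1 j).pow 2)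
    have h5 := HasFDerivAt.fun_sum (u := Finset.univ) (fun j _ => (h1 j).mul (h3 j))
    have h6 := (((h2.mul h4).const_mul (1 / 2)).add ((hq x).mul (h1 i))).sub (h5.const_mul ν)
    refine ⟨_, h6, ?_⟩
    simp only [hGdef, sub_apply, add_apply, smul_apply,
      ContinuousLinearMap.comp_apply, ContinuousLinearMap.proj_apply,
      ContinuousLinearMap.apply_apply, smul_eq_mul, Fin.sum_univ_three]
    ring
  choose F' hF' hF'e using hex
  have hGcont : Continuous (fun x => ∑ i, G i x) := by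
    apply continuous_finsetSum
    intro i _
    simp only [hGdef]
    have s1 : Continuous (fun x => ∑ j, (w x j) ^ 2) :=
      continuous_finsetSum _ (fun j _ => (cwj j).pow 2)
    have s2 : Continuous (fun x => ∑ j, 2 * w x j * Dw x (ee i) j) :=
      continuous_finsetSum _ (fun j _ => (continuous_const.mul (cwj j)).mul (cDwij i j))
    have s3 : Continuous (fun x => ∑ j, (Dw x (ee i) j * Dw x (ee i) j
        + w x j * D2w x (ee i) (ee i) j)) :=
      continuous_finsetSum _ (fun j _ => ((cDwij i j).mul (cDwij i j)).add ((cwj j).mul (cD2 i j)))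
    exact ((continuous_const.mul (((cDaij i i).mul s1).add ((caj i).mul s2))).add
      (((cDqi i).mul (cwj i)).add (cq.mul (cDwij i i)))).sub (continuous_const.mul s3)
  have hsumeq : (fun x => ∑ i, F' i x (ee i)) = fun x => ∑ i, G i x := by
    ext x; exact Finset.sum_congr rfl (fun i _ => hF'e i x)
  have hzero : ∫ x in QQ, ∑ i, G i x = 0 := by
    have := integral_div_eq_zero F F' hF' (by
      intro i x
      simp only [hFdef]
      rw [pa i x, pw i x, pq i x, deriv_periodic w Dw hw (ee i) (pw i) x])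
      (by rw [hsumeq]; exact hGcont.integrableOn_Icc)
    rw [hsumeq] at this
    exact this
  have hc1 : Continuous (fun x => ∑ j, w x j * r x j) :=
    continuous_finsetSum _ (fun j _ => (cwj j).mul (crj j))
  have hc2 : Continuous (fun x => ∑ j, (w x j) ^ 2) :=
    continuous_finsetSum _ (fun j _ => (cwj j).pow 2)
  have hpt : ∀ x ∈ QQ, (∑ j, w x j * r x j) + ∑ i, G i x ≤ 3 * M * ∑ j, (w x j) ^ 2 := by
    intro x hx
    have hM := hB x hx
    have hb : ∀ i j, |B x (ee i) j| ≤ M := fun i j => (abs_clm_le (B x) i j).trans hM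
    have hid : (∑ j, w x j * r x j) + ∑ i, G i x
        = - ∑ j, ∑ i, w x j * (w x i * B x (ee i) j) - ν * ∑ i, ∑ j, (Dw x (ee i) j) ^ 2 := by
      have e0 := hr x 0
      have e1 := hr x 1
      have e2 := hr x 2
      have d1 := divw x
      have d2 := diva x
      simp only [hGdef, Fin.sum_univ_three] at e0 e1 e2 d1 d2 ⊢
      linear_combination (w x 0) * e0 + (w x 1) * e1 + (w x 2) * e2
        + (q x) * d1 + (1 / 2) * ((w x 0) ^ 2 + (w x 1) ^ 2 + (w x 2) ^ 2) * d2
    rw [hid]
    have hpos : 0 ≤ ν * ∑ i, ∑ j, (Dw x (ee i) j) ^ 2 :=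
      mul_nonneg hν (Finset.sum_nonneg (fun i _ => Finset.sum_nonneg (fun j _ => sq_nonneg _)))
    have hterm : ∀ i j, - (w x j * (w x i * B x (ee i) j)) ≤ M * (((w x i) ^ 2 + (w x j) ^ 2) / 2) := by
      intro i j
      have hM0 : 0 ≤ M := (abs_nonneg _).trans (hb i j)
      have h1 : - (w x j * (w x i * B x (ee i) j)) ≤ |w x j * w x i| * M := by
        calc - (w x j * (w x i * B x (ee i) j)) ≤ |w x j * (w x i * B x (ee i) j)| := neg_le_abs _
          _ = |w x j * w x i| * |B x (ee i) j| := by rw [← mul_assoc, abs_mul]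
          _ ≤ |w x j * w x i| * M := mul_le_mul_of_nonneg_left (hb i j) (abs_nonneg _)
      have h2 : |w x j * w x i| ≤ ((w x i) ^ 2 + (w x j) ^ 2) / 2 := by
        rw [abs_le]
        constructor <;> nlinarith [sq_nonneg (w x i + w x j), sq_nonneg (w x i - w x j)]
      nlinarith
    have hsum : - ∑ j, ∑ i, w x j * (w x i * B x (ee i) j) ≤ 3 * M * ∑ j, (w x j) ^ 2 := by
      simp only [Fin.sum_univ_three]
      linarith [hterm 0 0, hterm 0 1, hterm 0 2, hterm 1 0, hterm 1 1, hterm 1 2,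
        hterm 2 0, hterm 2 1, hterm 2 2]
    linarith
  calc ∫ x in QQ, ∑ j, w x j * r x j
      = ∫ x in QQ, ((∑ j, w x j * r x j) + ∑ i, G i x) := by
        rw [integral_add hc1.integrableOn_Icc hGcont.integrableOn_Icc, hzero, add_zero]
    _ ≤ ∫ x in QQ, 3 * M * ∑ j, (w x j) ^ 2 :=
        setIntegral_mono_on (hc1.add hGcont).integrableOn_Icc
          (continuous_const.mul hc2).integrableOn_Icc measurableSet_Icc hpt
    _ = 3 * M * ∫ x in QQ, ∑ j, (w x j) ^ 2 := integral_const_mul _ _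

lemma isCompact_slab (T : ℝ) : IsCompact (Icc (0 : ℝ) T ×ˢ QQ) :=
  isCompact_Icc.prod isCompact_Icc

lemma continuous_slice {E : Type*} [TopologicalSpace E] {T : ℝ} (w : ℝ → X3 → E)
    (cw : ContinuousOn (fun z : ℝ × X3 => w z.1 z.2) (Icc (0 : ℝ) T ×ˢ univ))
    {t : ℝ} (ht : t ∈ Icc (0 : ℝ) T) : Continuous (w t) := by
  have : Continuous (fun x : X3 => ((t, x) : ℝ × X3)) := by fun_prop
  exact cw.comp_continuous this (fun x => ⟨ht, mem_univ _⟩)

lemma continuousOn_time {E : Type*} [TopologicalSpace E] {T : ℝ} (w : ℝ → X3 → E)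
    (cw : ContinuousOn (fun z : ℝ × X3 => w z.1 z.2) (Icc (0 : ℝ) T ×ˢ univ))
    (x : X3) : ContinuousOn (fun t => w t x) (Icc (0 : ℝ) T) := by
  have h : ContinuousOn (fun t : ℝ => ((t, x) : ℝ × X3)) (Icc (0 : ℝ) T) := by fun_prop
  exact cw.comp h (fun t ht => ⟨ht, mem_univ _⟩)

lemma energy_zero {T K : ℝ} (w wt : ℝ → X3 → X3)
    (hwt : ∀ t ∈ Icc (0 : ℝ) T, ∀ x, HasDerivWithinAt (fun s => w s x) (wt t x) (Icc 0 T) t)
    (cw : ContinuousOn (fun z : ℝ × X3 => w z.1 z.2) (Icc (0 : ℝ) T ×ˢ univ))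
    (cwt : ContinuousOn (fun z : ℝ × X3 => wt z.1 z.2) (Icc (0 : ℝ) T ×ˢ univ))
    (h0 : ∀ x, w 0 x = 0)
    (hK : ∀ t ∈ Ioo (0 : ℝ) T, ∫ x in QQ, ∑ j, w t x j * wt t x j
      ≤ K * ∫ x in QQ, ∑ j, (w t x j) ^ 2) :
    ∀ t ∈ Icc (0 : ℝ) T, ∫ x in QQ, ∑ j, (w t x j) ^ 2 = 0 := by
  set F : ℝ → X3 → ℝ := fun t x => ∑ j, (w t x j) ^ 2 with hF
  set F' : ℝ → X3 → ℝ := fun t x => 2 * ∑ j, w t x j * wt t x j with hF'
  set En : ℝ → ℝ := fun t => ∫ x in QQ, F t x with hEn
  have cF : ContinuousOn (fun z : ℝ × X3 => F z.1 z.2) (Icc (0 : ℝ) T ×ˢ univ) := by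
    simp only [hF]
    apply continuousOn_finsetSum
    intro j _
    exact ((continuous_apply j).comp_continuousOn cw).pow 2
  have cF' : ContinuousOn (fun z : ℝ × X3 => F' z.1 z.2) (Icc (0 : ℝ) T ×ˢ univ) := by
    simp only [hF']
    apply continuousOn_const.mul
    apply continuousOn_finsetSum
    intro j _
    exact ((continuous_apply j).comp_continuousOn cw).mul
      ((continuous_apply j).comp_continuousOn cwt)
  obtain ⟨C, hC⟩ := (isCompact_slab T).exists_bound_of_continuousOn
    (cF.mono (prod_mono_right (subset_univ _)))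
  obtain ⟨C', hC'⟩ := (isCompact_slab T).exists_bound_of_continuousOn
    (cF'.mono (prod_mono_right (subset_univ _)))
  have hfin : IsFiniteMeasure (volume.restrict QQ) :=
    ⟨by rw [Measure.restrict_apply_univ]; exact isCompact_Icc.measure_lt_top⟩
  have cEn : ContinuousOn En (Icc (0 : ℝ) T) := by
    apply continuousOn_of_dominated (bound := fun _ => C)
    · intro t ht
      exact (continuous_slice F cF ht).aestronglyMeasurable
    · intro t ht
      apply (ae_restrict_iff' measurableSet_Icc).mpr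
      exact Eventually.of_forall (fun x hx => hC (t, x) ⟨ht, hx⟩)
    · exact integrable_const C
    · exact Eventually.of_forall (fun x => continuousOn_time F cF x)
  have dEn : ∀ t ∈ Ioo (0 : ℝ) T, HasDerivAt En (∫ x in QQ, F' t x) t := by
    intro t ht
    have hs : Ioo (0 : ℝ) T ∈ 𝓝 t := isOpen_Ioo.mem_nhds ht
    refine (hasDerivAt_integral_of_dominated_loc_of_deriv_le (bound := fun _ => C') hs ?_ ?_ ?_ ?_ ?_ ?_).2
    · filter_upwards [hs] with s hs'
      exact (continuous_slice F cF (Ioo_subset_Icc_self hs')).aestronglyMeasurable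
    · exact (continuous_slice F cF (Ioo_subset_Icc_self ht)).integrableOn_Icc
    · exact (continuous_slice F' cF' (Ioo_subset_Icc_self ht)).aestronglyMeasurable
    · apply (ae_restrict_iff' measurableSet_Icc).mpr
      exact Eventually.of_forall (fun x hx s hs' => hC' (s, x) ⟨Ioo_subset_Icc_self hs', hx⟩)
    · exact integrable_const C'
    · apply Eventually.of_forall
      intro x s hs'
      have h1 : HasDerivAt (fun s => w s x) (wt s x) s :=
        (hwt s (Ioo_subset_Icc_self hs') x).hasDerivAt (Icc_mem_nhds hs'.1 hs'.2)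
      have h2 : ∀ j, HasDerivAt (fun s => w s x j) (wt s x j) s := fun j => (hasDerivAt_pi.mp h1) j
      have h3 := HasDerivAt.fun_sum (u := Finset.univ) (fun j _ => (h2 j).pow 2)
      have e : F' s x = ∑ j, (2 : ℕ) * (w s x j) ^ (2 - 1) * wt s x j := by
        show 2 * ∑ j, w s x j * wt s x j = _
        rw [Finset.mul_sum]
        apply Finset.sum_congr rfl
        intro j _
        norm_num
        ring
      rw [e]
      exact h3
  -- Gronwall via an integrating factor
  set h : ℝ → ℝ := fun t => En t * Real.exp (-(2 * K) * t) with hh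
  have hanti : AntitoneOn h (Icc (0 : ℝ) T) := by
    apply antitoneOn_of_deriv_nonpos (convex_Icc 0 T)
    · exact cEn.mul (by fun_prop)
    · rw [interior_Icc]
      intro t ht
      have h1 : HasDerivAt (fun t : ℝ => Real.exp (-(2 * K) * t)) (Real.exp (-(2 * K) * t) * (-(2 * K))) t := by
        have := ((hasDerivAt_id t).const_mul (-(2 * K))).exp
        simpa using this
      exact ((dEn t ht).mul h1).differentiableAt.differentiableWithinAt
    · rw [interior_Icc]
      intro t ht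
      have h1 : HasDerivAt (fun t : ℝ => Real.exp (-(2 * K) * t)) (Real.exp (-(2 * K) * t) * (-(2 * K))) t := by
        have := ((hasDerivAt_id t).const_mul (-(2 * K))).exp
        simpa using this
      have hd : HasDerivAt h ((∫ x in QQ, F' t x) * Real.exp (-(2 * K) * t)
          + En t * (Real.exp (-(2 * K) * t) * (-(2 * K)))) t := (dEn t ht).mul h1
      rw [hd.deriv]
      have h2 : ∫ x in QQ, F' t x = 2 * ∫ x in QQ, ∑ j, w t x j * wt t x j := by
        simp only [hF']
        exact integral_const_mul _ _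
      have h3 := hK t ht
      have hexp : 0 < Real.exp (-(2 * K) * t) := Real.exp_pos _
      rw [h2]
      have : (2 * ∫ x in QQ, ∑ j, w t x j * wt t x j) * Real.exp (-(2 * K) * t)
          + En t * (Real.exp (-(2 * K) * t) * (-(2 * K)))
          = 2 * Real.exp (-(2 * K) * t) * ((∫ x in QQ, ∑ j, w t x j * wt t x j) - K * En t) := by ring
      rw [this]
      apply mul_nonpos_of_nonneg_of_nonpos (by positivity)
      simp only [hEn, hF]
      linarith
  intro t ht
  have hE0 : En 0 = 0 := by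
    simp only [hEn, hF, h0]
    simp
  have hle : h t ≤ h 0 := hanti (left_mem_Icc.mpr (ht.1.trans ht.2)) ht ht.1
  have hh0 : h 0 = 0 := by simp only [hh, hE0, zero_mul]
  have hnn : 0 ≤ En t := by
    simp only [hEn, hF]
    exact integral_nonneg (fun x => Finset.sum_nonneg (fun j _ => sq_nonneg _))
  have hexp : 0 < Real.exp (-(2 * K) * t) := Real.exp_pos _
  have : En t ≤ 0 := by
    by_contra hcon
    have : 0 < h t := mul_pos (not_le.mp hcon) hexp
    linarith
  exact le_antisymm this hnn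

lemma periodic_reduce {E : Type*} (w : X3 → E) (pw : ∀ i x, w (x + ee i) = w x) (x : X3) :
    ∃ y ∈ QQ, w x = w y := by
  have hp : ∀ i, Function.Periodic w (ee i) := fun i x => pw i x
  have hp2 : Function.Periodic w (∑ i, (⌊x i⌋ : ℤ) • ee i) := by
    rw [Fin.sum_univ_three]
    exact (((hp 0).zsmul _).add_period ((hp 1).zsmul _)).add_period ((hp 2).zsmul _)
  refine ⟨fun i => Int.fract (x i), ?_, ?_⟩
  · constructor
    · intro i; exact Int.fract_nonneg _
    · intro i; exact (Int.fract_lt_one _).le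
  · have : x = (fun i => Int.fract (x i)) + ∑ i, (⌊x i⌋ : ℤ) • ee i := by
      ext j
      simp only [Pi.add_apply, Finset.sum_apply, Pi.smul_apply, Pi.single_apply]
      simp only [zsmul_eq_mul, mul_ite, mul_one, mul_zero, Finset.sum_ite_eq, Finset.mem_univ,
        if_true]
      exact (Int.fract_add_floor (x j)).symm
    conv_lhs => rw [this]
    exact hp2 _

lemma QQ_subset : QQ ⊆ closure (interior QQ) := by
  have h1 : QQ = Set.pi univ (fun _ : Fin 3 => Icc (0 : ℝ) 1) := by
    ext x; simp [QQ, Set.mem_Icc, Pi.le_def]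
  rw [h1, interior_pi_set finite_univ, closure_pi_set]
  simp

lemma eq_zero_of_integral_sq_eq_zero (w : X3 → X3) (cw : Continuous w)
    (pw : ∀ i x, w (x + ee i) = w x) (h : ∫ x in QQ, ∑ j, (w x j) ^ 2 = 0) : ∀ x, w x = 0 := by
  have cφ : Continuous (fun x => ∑ j, (w x j) ^ 2) :=
    continuous_finsetSum _ (fun j _ => ((continuous_apply j).comp cw).pow 2)
  have h1 : (fun x => ∑ j, (w x j) ^ 2) =ᵐ[volume.restrict QQ] 0 := by
    rw [← integral_eq_zero_iff_of_nonneg_ae]
    · exact h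
    · exact Eventually.of_forall (fun x => Finset.sum_nonneg (fun j _ => sq_nonneg _))
    · exact cφ.integrableOn_Icc
  have h2 : EqOn (fun x => ∑ j, (w x j) ^ 2) 0 QQ :=
    Measure.eqOn_of_ae_eq h1 cφ.continuousOn continuousOn_const QQ_subset
  intro x
  obtain ⟨y, hy, hxy⟩ := periodic_reduce w pw x
  rw [hxy]
  have h3 : ∑ j, (w y j) ^ 2 = 0 := h2 hy
  ext j
  have := (Finset.sum_eq_zero_iff_of_nonneg (fun j _ => sq_nonneg (w y j))).mp h3 j (Finset.mem_univ j)
  simpa using this


end Vale.Agent.P113
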